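import Mathlib

-- ▼ part R345/CertCore
section

/-!
# Kernel checker for left-inverse certificates of bilinear systems modulo `p` (row 345)

`K = 20` bilinear forms in `u : k^10`, `v : k^10` over fields of characteristic `p`.  A cell
certificate is a list of polynomials `c_k(x)` (dense trees of packed natural numbers) with
`∑ k, c_k(x) n_k(u, (1, x)) = u_t` whenever `u_a = 0` for `a < t`.
-/

set_option autoImplicit false

namespace Crest.Agent.R345.Cert

open Polynomial

/-! ### packed naturals -/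

/-- the `i`-th slot (width `w` bits) of `x` -/
def slot (w x i : ℕ) : ℕ := Nat.mod (Nat.shiftRight x (Nat.mul w i)) (Nat.pow 2 w)

theorem slot_def (w x i : ℕ) : slot w x i = x / (2 ^ w) ^ i % 2 ^ w := by
  show x >>> (w * i) % 2 ^ w = _
  rw [Nat.shiftRight_eq_div_pow, pow_mul]

theorem slot_lt (w x i : ℕ) : slot w x i < 2 ^ w := by
  rw [slot_def]; exact Nat.mod_lt _ (by positivity)

theorem eval_split (b : ℕ) (P : ℕ[X]) : P.eval b = b * P.divX.eval b + P.coeff 0 := by
  conv_lhs => rw [← Polynomial.divX_mul_X_add P]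
  rw [eval_add, eval_mul, eval_X, eval_C, mul_comm]

theorem eval_div_pow (b : ℕ) (hb : 0 < b) (i : ℕ) : ∀ (P : ℕ[X]), (∀ j, P.coeff j < b) →
    P.eval b / b ^ i % b = P.coeff i := by
  induction i with
  | zero =>
    intro P hP
    rw [eval_split, pow_zero, Nat.div_one, Nat.mul_add_mod, Nat.mod_eq_of_lt (hP 0)]
  | succ i ih =>
    intro P hP
    have h1 : P.eval b / b = P.divX.eval b := by
      rw [eval_split, Nat.mul_add_div hb, Nat.div_eq_of_lt (hP 0), add_zero]
    rw [pow_succ', ← Nat.div_div_eq_div_mul, h1, ih P.divX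
      (fun j => by rw [coeff_divX]; exact hP _), coeff_divX]

theorem slot_eval {w : ℕ} (P : ℕ[X]) (hP : ∀ j, P.coeff j < 2 ^ w) (i : ℕ) :
    slot w (P.eval (2 ^ w)) i = P.coeff i := by
  rw [slot_def]; exact eval_div_pow _ (by positivity) i P hP

/-- the polynomial of the slots -/
noncomputable def sp (w x : ℕ) : ℕ[X] := ∑ i ∈ Finset.range (x + 1), monomial i (slot w x i)

theorem sum_slots (b x : ℕ) : ∀ n, ∑ i ∈ Finset.range n, (x / b ^ i % b) * b ^ i = x % b ^ n := by
  intro n
  induction n with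
  | zero => simp [Nat.mod_one]
  | succ n ih => rw [Finset.sum_range_succ, ih, Nat.mod_pow_succ, mul_comm]

theorem sp_eval {w : ℕ} (hw : 0 < w) (x : ℕ) : (sp w x).eval (2 ^ w) = x := by
  have h : (sp w x).eval (2 ^ w) = x % (2 ^ w) ^ (x + 1) := by
    rw [sp, eval_finsetSum, ← sum_slots]
    refine Finset.sum_congr rfl (fun i _ => ?_)
    rw [eval_monomial, slot_def]
  rw [h]
  refine Nat.mod_eq_of_lt ?_
  have h2 : x < 2 ^ x := Nat.lt_two_pow_self
  have h3 : 2 ^ x ≤ 2 ^ (w * (x + 1)) :=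
    Nat.pow_le_pow_right (by norm_num) (by nlinarith)
  rw [← pow_mul]; omega

theorem slot_zero_of_lt {w x i : ℕ} (h : x < 2 ^ (w * i)) : slot w x i = 0 := by
  rw [slot_def, ← pow_mul, Nat.div_eq_of_lt h, Nat.zero_mod]

theorem slot_zero (w i : ℕ) : slot w 0 i = 0 := by simp [slot_def]

theorem sp_coeff {w : ℕ} (hw : 0 < w) (x i : ℕ) : (sp w x).coeff i = slot w x i := by
  rw [sp, finsetSum_coeff]
  simp only [coeff_monomial]
  rw [Finset.sum_ite_eq']
  split_ifs with h
  · rfl
  · rw [Finset.mem_range, not_lt] at h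
    refine (slot_zero_of_lt ?_).symm
    have h2 : x < 2 ^ x := Nat.lt_two_pow_self
    have h3 : 2 ^ x ≤ 2 ^ (w * i) := Nat.pow_le_pow_right (by norm_num) (by nlinarith)
    omega

theorem sp_eval_poly {w : ℕ} (hw : 0 < w) (P : ℕ[X]) (hP : ∀ j, P.coeff j < 2 ^ w) :
    sp w (P.eval (2 ^ w)) = P := by
  ext i
  rw [sp_coeff hw, slot_eval P hP]

theorem sp_add {w x y : ℕ} (hw : 0 < w) (h : ∀ j, slot w x j + slot w y j < 2 ^ w) :
    sp w (x + y) = sp w x + sp w y := by
  have h1 : x + y = (sp w x + sp w y).eval (2 ^ w) := by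
    rw [eval_add, sp_eval hw, sp_eval hw]
  rw [h1, sp_eval_poly hw]
  intro j; rw [coeff_add, sp_coeff hw, sp_coeff hw]; exact h j

theorem sp_mul {w x y : ℕ} (hw : 0 < w) (h : ∀ j, (sp w x * sp w y).coeff j < 2 ^ w) :
    sp w (x * y) = sp w x * sp w y := by
  have h1 : x * y = (sp w x * sp w y).eval (2 ^ w) := by
    rw [eval_mul, sp_eval hw, sp_eval hw]
  rw [h1, sp_eval_poly hw _ h]

/-! ### trees -/

/-- dense polynomials: `nd g h` is `g + x₁ h`, where `g` does not involve `x₁` -/
inductive Tr where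
  | lf (c : ℕ)
  | nd (g h : Tr)

noncomputable def lin (z c : ℕ) (Ms : List ℕ) : Tr :=
  List.rec (Tr.lf (Nat.mul z c)) (fun M _ ih => Tr.nd ih (Tr.lf (Nat.mul M c))) Ms

noncomputable def scale (M : ℕ) (t : Tr) : Tr :=
  Tr.rec (fun c => Tr.lf (Nat.mul M c)) (fun _ _ ihg ihh => Tr.nd ihg ihh) t

noncomputable def addlf (x : ℕ) (T : Tr) : Tr :=
  Tr.rec (fun X => Tr.lf (Nat.add X x)) (fun _ Th ihg _ => Tr.nd ihg Th) T

noncomputable def addmul (M : ℕ) (g : Tr) : Tr → Tr :=
  Tr.rec (motive := fun _ => Tr → Tr) (fun c T => addlf (Nat.mul M c) T)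
    (fun _ h ihg ihh T => Tr.rec (motive := fun _ => Tr)
      (fun X => Tr.nd (ihg (Tr.lf X)) (scale M h))
      (fun Tg Th _ _ => Tr.nd (ihg Tg) (ihh Th)) T) g

noncomputable def fma (M : ℕ) (g T : Tr) : Tr :=
  Tr.rec (motive := fun _ => Tr) (fun X => Tr.nd (addmul M g (Tr.lf X)) (Tr.lf 0))
    (fun Tg Th _ _ => Tr.nd (addmul M g Tg) Th) T

noncomputable def mulT (z : ℕ) (t : Tr) : List ℕ → Tr :=
  Tr.rec (motive := fun _ => List ℕ → Tr) (fun c Ms => lin z c Ms)
    (fun g _ ihg ihh Ms => List.rec (motive := fun _ => Tr) (ihg [])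
      (fun M Ms' _ => Tr.nd (ihg Ms') (fma M g (ihh (List.cons M Ms')))) Ms) t

def force {α : Type} (n : ℕ) (f : ℕ → α) : α :=
  Nat.rec (motive := fun _ => α) (f 0) (fun m _ => f (Nat.succ m)) n

theorem force_eq {α : Type} (n : ℕ) (f : ℕ → α) : force n f = f n := by
  cases n <;> rfl

/-- `n` slots of `X`, starting from bit `i` with stride `S` bits (slot size `2^w = W`), are
divisible by `p` -/
def chkX (p W S : ℕ) (n : ℕ) (X : ℕ) : ℕ → Bool :=
  Nat.rec (motive := fun _ => ℕ → Bool) (fun _ => true)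
    (fun _ ih i => Bool.rec (motive := fun _ => Bool) false (ih (Nat.add i S))
      (Nat.beq (Nat.mod (Nat.mod (Nat.shiftRight X i) W) p) 0)) n

/-- all leaves pass `chkX` -/
noncomputable def chkZ (p W S n i : ℕ) (T : Tr) : Bool :=
  Tr.rec (motive := fun _ => Bool) (fun X => force X (fun Y => chkX p W S n Y i))
    (fun _ _ a b => Bool.rec (motive := fun _ => Bool) false b a) T

/-- the constant leaf has first slot `1` mod `p` and the remaining ones divisible by `p`, all
other leaves pass `chkX` -/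
noncomputable def chk1 (p W S n i : ℕ) (T : Tr) : Bool :=
  Tr.rec (motive := fun _ => Bool)
    (fun X => force X (fun Y => Bool.rec (motive := fun _ => Bool) false (chkX p W S n Y (Nat.add i S))
      (Nat.beq (Nat.mod (Nat.mod (Nat.shiftRight Y i) W) p) 1)))
    (fun _ h a _ => Bool.rec (motive := fun _ => Bool) false (chkZ p W S n.succ i h) a) T

/-- all leaves `c` satisfy `c &&& mask = c` and the depth is at most `D` -/
noncomputable def good (mask : ℕ) (T : Tr) : ℕ → Bool :=
  Tr.rec (motive := fun _ => ℕ → Bool) (fun c _ => Nat.beq (Nat.land c mask) c)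
    (fun _ _ a b D => Nat.rec (motive := fun _ => Bool) false
      (fun D' _ => Bool.rec (motive := fun _ => Bool) false (b D') (a D')) D) T

/-! equation lemmas -/

section eqs
variable (z c M p W S n i mask D : ℕ) (Ms : List ℕ) (g h T Tg Th : Tr)

theorem lin_nil : lin z c [] = Tr.lf (z * c) := rfl
theorem lin_cons : lin z c (M :: Ms) = Tr.nd (lin z c Ms) (Tr.lf (M * c)) := rfl
theorem scale_lf : scale M (Tr.lf c) = Tr.lf (M * c) := rfl
theorem scale_nd : scale M (Tr.nd g h) = Tr.nd (scale M g) (scale M h) := rfl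
theorem addlf_lf (x X : ℕ) : addlf x (Tr.lf X) = Tr.lf (X + x) := rfl
theorem addlf_nd (x : ℕ) : addlf x (Tr.nd Tg Th) = Tr.nd (addlf x Tg) Th := rfl
theorem addmul_lf : addmul M (Tr.lf c) T = addlf (M * c) T := rfl
theorem addmul_nd_lf (X : ℕ) :
    addmul M (Tr.nd g h) (Tr.lf X) = Tr.nd (addmul M g (Tr.lf X)) (scale M h) := rfl
theorem addmul_nd_nd :
    addmul M (Tr.nd g h) (Tr.nd Tg Th) = Tr.nd (addmul M g Tg) (addmul M h Th) := rfl
theorem fma_lf (X : ℕ) : fma M g (Tr.lf X) = Tr.nd (addmul M g (Tr.lf X)) (Tr.lf 0) := rfl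
theorem fma_nd : fma M g (Tr.nd Tg Th) = Tr.nd (addmul M g Tg) Th := rfl
theorem mulT_lf : mulT z (Tr.lf c) Ms = lin z c Ms := rfl
theorem mulT_lf_cons : mulT z (Tr.lf c) (M :: Ms) = Tr.nd (lin z c Ms) (Tr.lf (M * c)) := rfl
theorem mulT_nd_nil : mulT z (Tr.nd g h) [] = mulT z g [] := rfl
theorem mulT_nd_cons : mulT z (Tr.nd g h) (M :: Ms) =
    Tr.nd (mulT z g Ms) (fma M g (mulT z h (M :: Ms))) := rfl
theorem chkZ_lf (X : ℕ) : chkZ p W S n i (Tr.lf X) = chkX p W S n X i :=
  force_eq X (fun Y => chkX p W S n Y i)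
theorem chkZ_nd : chkZ p W S n i (Tr.nd g h) = (chkZ p W S n i g && chkZ p W S n i h) := by
  show Bool.rec (motive := fun _ => Bool) false (chkZ p W S n i h) (chkZ p W S n i g) = _
  cases chkZ p W S n i g <;> rfl
theorem chk1_lf (X : ℕ) : chk1 p W S n i (Tr.lf X) =
    (Nat.beq (X >>> i % W % p) 1 && chkX p W S n X (i + S)) := by
  have h := force_eq X (fun Y => Bool.rec (motive := fun _ => Bool) false
    (chkX p W S n Y (Nat.add i S)) (Nat.beq (Nat.mod (Nat.mod (Nat.shiftRight Y i) W) p) 1))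
  refine h.trans ?_
  show Bool.rec (motive := fun _ => Bool) false
    (chkX p W S n X (Nat.add i S)) (Nat.beq (X >>> i % W % p) 1) = _
  cases Nat.beq (X >>> i % W % p) 1 <;> rfl
theorem chk1_nd : chk1 p W S n i (Tr.nd g h) = (chk1 p W S n i g && chkZ p W S n.succ i h) := by
  show Bool.rec (motive := fun _ => Bool) false (chkZ p W S n.succ i h) (chk1 p W S n i g) = _
  cases chk1 p W S n i g <;> rfl
theorem chkX_zero (X : ℕ) : chkX p W S 0 X i = true := rfl
theorem chkX_succ (X : ℕ) : chkX p W S (n + 1) X i =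
    (Nat.beq (X >>> i % W % p) 0 && chkX p W S n X (i + S)) := by
  show Bool.rec (motive := fun _ => Bool) false (chkX p W S n X (i + S))
    (Nat.beq (X >>> i % W % p) 0) = _
  cases Nat.beq (X >>> i % W % p) 0 <;> rfl
theorem good_lf : good mask (Tr.lf c) D = Nat.beq (Nat.land c mask) c := rfl
theorem good_nd_zero : good mask (Tr.nd g h) 0 = false := rfl
theorem good_nd_succ : good mask (Tr.nd g h) (D + 1) = (good mask g D && good mask h D) := by
  show Bool.rec (motive := fun _ => Bool) false (good mask h D) (good mask g D) = _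
  cases good mask g D <;> rfl
end eqs

/-! ### semantics -/

section sem

variable (A : Type*) [CommRing A]

/-- the polynomial of a packed number, over `A` -/
noncomputable def lp (w c : ℕ) : A[X] := (sp w c).map (Nat.castRingHom A)

variable {A}

theorem lp_coeff {w : ℕ} (hw : 0 < w) (c i : ℕ) : (lp A w c).coeff i = (slot w c i : A) := by
  rw [lp, coeff_map, sp_coeff hw]; rfl

/-- the value of a tree at a point, as a polynomial in the packing variable -/
noncomputable def sem (w : ℕ) : Tr → List A → A[X]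
  | Tr.lf c, _ => lp A w c
  | Tr.nd g _, [] => sem w g []
  | Tr.nd g h, x :: xs => sem w g xs + C x * sem w h (x :: xs)

/-- the linear form `z + ∑ x_b M_b` -/
noncomputable def lform (w z : ℕ) : List ℕ → List A → A[X]
  | [], _ => lp A w z
  | _ :: _, [] => lp A w z
  | M :: Ms, x :: xs => C x * lp A w M + lform w z Ms xs

end sem

/-! ### bounds -/

/-- all slots of all leaves are at most `B` -/
def Bd (w B : ℕ) : Tr → Prop
  | Tr.lf c => ∀ i, slot w c i ≤ B
  | Tr.nd g h => Bd w B g ∧ Bd w B h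

theorem Bd.mono {w B B' : ℕ} (h : B ≤ B') : ∀ {t : Tr}, Bd w B t → Bd w B' t
  | Tr.lf _, ht => fun i => (ht i).trans h
  | Tr.nd _ _, ht => ⟨Bd.mono h ht.1, Bd.mono h ht.2⟩

/-- a coefficient number: slots at most `q`, slots from `K` on are zero -/
def GC (w q K c : ℕ) : Prop := (∀ i, slot w c i ≤ q) ∧ ∀ i, K ≤ i → slot w c i = 0

def GM (w q M : ℕ) : Prop := ∀ i, slot w M i ≤ q

def GT (w q K : ℕ) : Tr → Prop
  | Tr.lf c => GC w q K c
  | Tr.nd g h => GT w q K g ∧ GT w q K h

def dep : Tr → ℕ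
  | Tr.lf _ => 0
  | Tr.nd g h => max (dep g) (dep h) + 1

section prod

variable {w q K : ℕ} (hw : 0 < w)
include hw

theorem coeff_prod_le {M c : ℕ} (hM : GM w q M) (hc : GC w q K c) (j : ℕ) :
    (sp w M * sp w c).coeff j ≤ K * (q * q) := by
  rw [mul_comm, coeff_mul, Finset.Nat.sum_antidiagonal_eq_sum_range_succ_mk]
  have h1 : ∀ i ∈ Finset.range (j + 1), (sp w c).coeff i * (sp w M).coeff (j - i) ≤
      if i < K then q * q else 0 := by
    intro i _
    rw [sp_coeff hw, sp_coeff hw]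
    split_ifs with h
    · exact Nat.mul_le_mul (hc.1 i) (hM _)
    · rw [hc.2 i (not_lt.1 h), zero_mul]
  refine (Finset.sum_le_sum h1).trans ?_
  rw [← Finset.sum_filter, Finset.sum_const, smul_eq_mul]
  refine Nat.mul_le_mul_right _ ?_
  calc _ ≤ (Finset.range K).card := Finset.card_le_card (by
        intro i hi
        simp only [Finset.mem_filter, Finset.mem_range] at hi ⊢
        exact hi.2)
    _ = K := Finset.card_range K

theorem sp_prod {M c : ℕ} (hM : GM w q M) (hc : GC w q K c) (hb : K * (q * q) < 2 ^ w) :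
    sp w (M * c) = sp w M * sp w c :=
  sp_mul hw fun j => (coeff_prod_le hw hM hc j).trans_lt hb

theorem slot_prod_le {M c : ℕ} (hM : GM w q M) (hc : GC w q K c) (hb : K * (q * q) < 2 ^ w)
    (j : ℕ) : slot w (M * c) j ≤ K * (q * q) := by
  rw [← sp_coeff hw, sp_prod hw hM hc hb]
  exact coeff_prod_le hw hM hc j

variable {A : Type*} [CommRing A]

theorem lp_prod {M c : ℕ} (hM : GM w q M) (hc : GC w q K c) (hb : K * (q * q) < 2 ^ w) :
    lp A w (M * c) = lp A w M * lp A w c := by
  rw [lp, sp_prod hw hM hc hb, Polynomial.map_mul]; rfl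

theorem add_leaf {B X y P : ℕ} (hX : ∀ i, slot w X i ≤ B) (hy : ∀ i, slot w y i ≤ P)
    (hb : B + P < 2 ^ w) : (∀ i, slot w (X + y) i ≤ B + P) ∧
      lp A w (X + y) = lp A w X + lp A w y := by
  have h : sp w (X + y) = sp w X + sp w y :=
    sp_add hw fun j => (Nat.add_le_add (hX j) (hy j)).trans_lt hb
  constructor
  · intro i
    rw [← sp_coeff hw, h, coeff_add, sp_coeff hw, sp_coeff hw]
    exact Nat.add_le_add (hX i) (hy i)
  · rw [lp, h, Polynomial.map_add]; rfl

/-- `addlf` -/
theorem addlf_sound {B y P : ℕ} (hy : ∀ i, slot w y i ≤ P) (hb : B + P < 2 ^ w) :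
    ∀ (T : Tr), Bd w B T → Bd w (B + P) (addlf y T) ∧
      ∀ xs : List A, sem w (addlf y T) xs = sem w T xs + lp A w y := by
  intro T
  induction T with
  | lf X =>
    intro hT
    rw [addlf_lf]
    have := add_leaf (A := A) hw hT hy hb
    exact ⟨this.1, fun xs => by rw [sem, sem, this.2]⟩
  | nd g h ihg ihh =>
    intro hT
    rw [addlf_nd]
    obtain ⟨h1, h2⟩ := ihg hT.1
    refine ⟨⟨h1, hT.2.mono (Nat.le_add_right _ _)⟩, fun xs => ?_⟩
    cases xs with
    | nil => rw [sem, sem, h2]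
    | cons x xs => rw [sem, sem, h2]; ring

/-- `scale` -/
theorem scale_sound {M : ℕ} (hM : GM w q M) (hb : K * (q * q) < 2 ^ w) :
    ∀ (t : Tr), GT w q K t → Bd w (K * (q * q)) (scale M t) ∧
      ∀ xs : List A, sem w (scale M t) xs = lp A w M * sem w t xs := by
  intro t
  induction t with
  | lf c =>
    intro ht
    rw [scale_lf]
    exact ⟨slot_prod_le hw hM ht hb, fun xs => by rw [sem, sem, lp_prod hw hM ht hb]⟩
  | nd g h ihg ihh =>
    intro ht
    rw [scale_nd]
    obtain ⟨h1, h2⟩ := ihg ht.1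
    obtain ⟨h3, h4⟩ := ihh ht.2
    refine ⟨⟨h1, h3⟩, fun xs => ?_⟩
    cases xs with
    | nil => rw [sem, sem, h2]
    | cons x xs => rw [sem, sem, h2, h4]; ring

/-- `addmul` -/
theorem addmul_sound {M : ℕ} (hM : GM w q M) {B : ℕ} (hb : B + K * (q * q) < 2 ^ w) :
    ∀ (t : Tr), GT w q K t → ∀ (T : Tr), Bd w B T →
      Bd w (B + K * (q * q)) (addmul M t T) ∧
      ∀ xs : List A, sem w (addmul M t T) xs = sem w T xs + lp A w M * sem w t xs := by
  have hb' : K * (q * q) < 2 ^ w := lt_of_le_of_lt (Nat.le_add_left _ _) hb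
  intro t
  induction t with
  | lf c =>
    intro ht T hT
    rw [addmul_lf]
    obtain ⟨h1, h2⟩ := addlf_sound (A := A) hw (slot_prod_le hw hM ht hb') hb T hT
    exact ⟨h1, fun xs => by rw [h2, sem, lp_prod hw hM ht hb']⟩
  | nd g h ihg ihh =>
    intro ht T hT
    cases T with
    | lf X =>
      rw [addmul_nd_lf]
      obtain ⟨h1, h2⟩ := ihg ht.1 (Tr.lf X) hT
      obtain ⟨h3, h4⟩ := scale_sound (A := A) hw hM hb' h ht.2
      refine ⟨⟨h1, h3.mono (Nat.le_add_left _ _)⟩, fun xs => ?_⟩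
      cases xs with
      | nil => simp only [sem] at h2 ⊢; rw [h2]
      | cons x xs => simp only [sem] at h2 ⊢; rw [h2, h4]; ring
    | nd Tg Th =>
      rw [addmul_nd_nd]
      obtain ⟨h1, h2⟩ := ihg ht.1 Tg hT.1
      obtain ⟨h3, h4⟩ := ihh ht.2 Th hT.2
      refine ⟨⟨h1, h3⟩, fun xs => ?_⟩
      cases xs with
      | nil => rw [sem, sem, sem, h2]
      | cons x xs => rw [sem, sem, sem, h2, h4]; ring

/-- `fma` -/
theorem fma_sound {M : ℕ} (hM : GM w q M) {B : ℕ} (hb : B + K * (q * q) < 2 ^ w)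
    (t : Tr) (ht : GT w q K t) (T : Tr) (hT : Bd w B T) :
      Bd w (B + K * (q * q)) (fma M t T) ∧
      ∀ (x : A) (xs : List A), sem w (fma M t T) (x :: xs) =
        sem w T (x :: xs) + lp A w M * sem w t xs := by
  cases T with
  | lf X =>
    rw [fma_lf]
    obtain ⟨h1, h2⟩ := addmul_sound (A := A) hw hM hb t ht (Tr.lf X) hT
    refine ⟨⟨h1, fun i => by rw [slot_zero]; exact Nat.zero_le _⟩, fun x xs => ?_⟩
    have h0 : lp A w 0 = 0 := by
      ext i; rw [lp_coeff hw, slot_zero]; simp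
    simp only [sem] at h2 ⊢
    rw [h2, h0, mul_zero, add_zero]
  | nd Tg Th =>
    rw [fma_nd]
    obtain ⟨h1, h2⟩ := addmul_sound (A := A) hw hM hb t ht Tg hT.1
    refine ⟨⟨h1, hT.2.mono (Nat.le_add_right _ _)⟩, fun x xs => ?_⟩
    rw [sem, sem, h2]; ring

theorem lin_sound {z c : ℕ} (hz : GM w q z) (hc : GC w q K c) (hb : K * (q * q) < 2 ^ w) :
    ∀ (Ms : List ℕ), (∀ M ∈ Ms, GM w q M) → Bd w (K * (q * q)) (lin z c Ms) ∧
      ∀ xs : List A, xs.length = Ms.length →
        sem w (lin z c Ms) xs = lp A w c * lform w z Ms xs := by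
  intro Ms
  induction Ms with
  | nil =>
    intro _
    rw [lin_nil]
    exact ⟨slot_prod_le hw hz hc hb, fun xs _ => by
      rw [sem, lform, lp_prod hw hz hc hb, mul_comm]⟩
  | cons M Ms ih =>
    intro hMs
    rw [lin_cons]
    obtain ⟨h1, h2⟩ := ih fun M' hM' => hMs M' (List.mem_cons_of_mem _ hM')
    have hM := hMs M List.mem_cons_self
    refine ⟨⟨h1, slot_prod_le hw hM hc hb⟩, fun xs hxs => ?_⟩
    cases xs with
    | nil => simp at hxs
    | cons x xs =>
      rw [sem, h2 xs (by simpa using hxs), sem, lp_prod hw hM hc hb, lform]; ring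

/-- `mulT` -/
theorem mulT_sound {z : ℕ} (hz : GM w q z) :
    ∀ (t : Tr), GT w q K t → ∀ (Ms : List ℕ), (∀ M ∈ Ms, GM w q M) →
      (dep t + Ms.length + 1) * (K * (q * q)) < 2 ^ w →
      Bd w ((dep t + Ms.length + 1) * (K * (q * q))) (mulT z t Ms) ∧
      ∀ xs : List A, xs.length = Ms.length →
        sem w (mulT z t Ms) xs = sem w t xs * lform w z Ms xs := by
  intro t
  induction t with
  | lf c =>
    intro ht Ms hMs hb
    rw [mulT_lf]
    have hb' : K * (q * q) < 2 ^ w :=
      lt_of_le_of_lt (Nat.le_mul_of_pos_left _ (Nat.succ_pos _)) hb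
    obtain ⟨h1, h2⟩ := lin_sound (A := A) hw hz ht hb' Ms hMs
    exact ⟨h1.mono (Nat.le_mul_of_pos_left _ (Nat.succ_pos _)), fun xs hxs => by
      rw [h2 xs hxs, sem]⟩
  | nd g h ihg ihh =>
    intro ht Ms hMs hb
    have hdg : dep g + 1 ≤ dep (Tr.nd g h) := by simp [dep]
    have hdh : dep h + 1 ≤ dep (Tr.nd g h) := by simp [dep]
    cases Ms with
    | nil =>
      rw [mulT_nd_nil]
      have hle : (dep g + ([] : List ℕ).length + 1) * (K * (q * q)) ≤
          (dep (Tr.nd g h) + ([] : List ℕ).length + 1) * (K * (q * q)) :=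
        Nat.mul_le_mul_right _ (by omega)
      obtain ⟨h1, h2⟩ := ihg ht.1 [] hMs (hle.trans_lt hb)
      refine ⟨h1.mono hle, fun xs hxs => ?_⟩
      have : xs = [] := by simpa using hxs
      subst this
      rw [h2 [] rfl, sem]
    | cons M Ms =>
      rw [mulT_nd_cons]
      have hM := hMs M List.mem_cons_self
      have hMs' : ∀ M' ∈ Ms, GM w q M' := fun M' hM' => hMs M' (List.mem_cons_of_mem _ hM')
      rw [List.length_cons] at hb ⊢
      have hle1 : (dep g + Ms.length + 1) * (K * (q * q)) ≤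
          (dep (Tr.nd g h) + (Ms.length + 1) + 1) * (K * (q * q)) :=
        Nat.mul_le_mul_right _ (by omega)
      have hle2 : (dep h + (Ms.length + 1) + 1) * (K * (q * q)) + K * (q * q) ≤
          (dep (Tr.nd g h) + (Ms.length + 1) + 1) * (K * (q * q)) := by
        rw [← Nat.succ_mul]
        exact Nat.mul_le_mul_right _ (by omega)
      obtain ⟨h1, h2⟩ := ihg ht.1 Ms hMs' (hle1.trans_lt hb)
      have hle3 : (dep h + (Ms.length + 1) + 1) * (K * (q * q)) < 2 ^ w :=
        lt_of_le_of_lt (Nat.le_add_right _ _) (hle2.trans_lt hb)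
      obtain ⟨h3, h4⟩ := ihh ht.2 (M :: Ms) hMs (by rw [List.length_cons]; exact hle3)
      rw [List.length_cons] at h3 h4
      obtain ⟨h5, h6⟩ := fma_sound (A := A) hw hM (hle2.trans_lt hb) g ht.1 _ h3
      refine ⟨⟨h1.mono hle1, h5.mono hle2⟩, fun xs hxs => ?_⟩
      cases xs with
      | nil => simp at hxs
      | cons x xs =>
        have hxs' : xs.length = Ms.length := by simpa using hxs
        rw [sem, h2 xs hxs', h6, h4 (x :: xs) hxs, lform]
        simp only [sem]
        ring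

end prod

/-! ### soundness of the checks -/

section checks

theorem slot_land (w x y i : ℕ) : slot w (x &&& y) i = slot w x i &&& slot w y i := by
  show ((x &&& y) >>> (w * i)) % 2 ^ w = (x >>> (w * i)) % 2 ^ w &&& (y >>> (w * i)) % 2 ^ w
  rw [Nat.shiftRight_and_distrib, Nat.and_mod_two_pow]

theorem GC_of_land {w q K mask c : ℕ} (hm : GC w q K mask) (h : Nat.beq (Nat.land c mask) c = true) :
    GC w q K c := by
  have h1 : c &&& mask = c := Nat.eq_of_beq_eq_true h
  constructor
  · intro i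
    rw [← h1, slot_land]
    exact (Nat.and_le_right).trans (hm.1 i)
  · intro i hi
    rw [← h1, slot_land, hm.2 i hi, Nat.and_zero]

theorem good_sound {w q K mask : ℕ} (hm : GC w q K mask) :
    ∀ (t : Tr) (D : ℕ), good mask t D = true → GT w q K t ∧ dep t ≤ D := by
  intro t
  induction t with
  | lf c =>
    intro D h
    exact ⟨GC_of_land hm h, Nat.zero_le _⟩
  | nd g h ihg ihh =>
    intro D hD
    cases D with
    | zero => rw [good_nd_zero] at hD; exact absurd hD (by simp)
    | succ D =>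
      rw [good_nd_succ, Bool.and_eq_true] at hD
      obtain ⟨h1, h2⟩ := ihg D hD.1
      obtain ⟨h3, h4⟩ := ihh D hD.2
      exact ⟨⟨h1, h3⟩, Nat.succ_le_succ (max_le h2 h4)⟩

/-- all slots of `x` are at most `q` and `x < 2^(w L)` -/
def slotsLe (w q : ℕ) (L : ℕ) : ℕ → Bool :=
  Nat.rec (motive := fun _ => ℕ → Bool) (fun x => Nat.beq x 0)
    (fun _ ih x => Bool.rec (motive := fun _ => Bool) false
      (force (Nat.shiftRight x w) ih) (Nat.ble (Nat.mod x (Nat.pow 2 w)) q)) L

theorem slotsLe_succ (w q L x : ℕ) : slotsLe w q (L + 1) x =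
    (Nat.ble (x % 2 ^ w) q && slotsLe w q L (x >>> w)) := by
  show Bool.rec (motive := fun _ => Bool) false
      (force (Nat.shiftRight x w) (slotsLe w q L)) (Nat.ble (x % 2 ^ w) q) = _
  rw [force_eq]
  cases Nat.ble (x % 2 ^ w) q <;> rfl

theorem slotsLe_sound {w q : ℕ} : ∀ (L x : ℕ), slotsLe w q L x = true → GC w q L x := by
  intro L
  induction L with
  | zero =>
    intro x h
    have : x = 0 := Nat.eq_of_beq_eq_true h
    subst this
    exact ⟨fun i => by rw [slot_zero]; exact Nat.zero_le _, fun i _ => slot_zero _ _⟩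
  | succ L ih =>
    intro x h
    rw [slotsLe_succ, Bool.and_eq_true] at h
    obtain ⟨h1, h2⟩ := h
    obtain ⟨h3, h4⟩ := ih _ h2
    have h5 : x % 2 ^ w ≤ q := Nat.le_of_ble_eq_true h1
    have h6 : ∀ i, slot w (x >>> w) i = slot w x (i + 1) := by
      intro i
      rw [slot_def, slot_def, Nat.shiftRight_eq_div_pow, Nat.div_div_eq_div_mul, pow_succ']
    refine ⟨fun i => ?_, fun i hi => ?_⟩
    · cases i with
      | zero => rw [slot_def, pow_zero, Nat.div_one]; exact h5
      | succ i => rw [← h6]; exact h3 i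
    · cases i with
      | zero => omega
      | succ i => rw [← h6]; exact h4 i (by omega)

variable {A : Type*} [CommRing A]

theorem chkX_sound {p w s : ℕ} (hp : (p : A) = 0) (X : ℕ) : ∀ (n i : ℕ),
    chkX p (2 ^ w) (w * s) n X (w * i) = true → ∀ j < n, (slot w X (i + j * s) : A) = 0 := by
  intro n
  induction n with
  | zero => intro i _ j hj; omega
  | succ n ih =>
    intro i h j hj
    rw [chkX_succ, Bool.and_eq_true, ← Nat.mul_add] at h
    cases j with
    | zero =>
      have h1 : X >>> (w * i) % 2 ^ w % p = 0 := Nat.eq_of_beq_eq_true h.1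
      have h2 : slot w X (i + 0 * s) = X >>> (w * i) % 2 ^ w := by
        rw [Nat.zero_mul, Nat.add_zero]; rfl
      rw [h2]
      obtain ⟨r, hr⟩ := Nat.dvd_of_mod_eq_zero h1
      rw [hr, Nat.cast_mul, hp, zero_mul]
    | succ j =>
      have := ih (i + s) h.2 j (by omega)
      rw [← this]
      congr 2
      ring

theorem chkZ_sound {p w s : ℕ} (hw : 0 < w) (hp : (p : A) = 0) {n i : ℕ} : ∀ (T : Tr),
    chkZ p (2 ^ w) (w * s) n (w * i) T = true → ∀ (xs : List A), ∀ j < n,
      (sem w T xs).coeff (i + j * s) = 0 := by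
  intro T
  induction T with
  | lf X =>
    intro h xs j hj
    rw [chkZ_lf] at h
    rw [sem, lp_coeff hw]
    exact chkX_sound hp X n i h j hj
  | nd g h ihg ihh =>
    intro hT xs j hj
    rw [chkZ_nd, Bool.and_eq_true] at hT
    cases xs with
    | nil => rw [sem]; exact ihg hT.1 [] j hj
    | cons x xs =>
      rw [sem, coeff_add, coeff_C_mul, ihg hT.1 xs j hj, ihh hT.2 (x :: xs) j hj]
      simp

theorem chk1_sound {p w s : ℕ} (hw : 0 < w) (hp : (p : A) = 0) {n i : ℕ} : ∀ (T : Tr),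
    chk1 p (2 ^ w) (w * s) n (w * i) T = true → ∀ (xs : List A), ∀ j < n + 1,
      (sem w T xs).coeff (i + j * s) = if j = 0 then 1 else 0 := by
  intro T
  induction T with
  | lf X =>
    intro h xs j hj
    rw [chk1_lf, Bool.and_eq_true, ← Nat.mul_add] at h
    rw [sem, lp_coeff hw]
    cases j with
    | zero =>
      rw [if_pos rfl]
      have h1 : X >>> (w * i) % 2 ^ w % p = 1 := Nat.eq_of_beq_eq_true h.1
      have h2 : slot w X (i + 0 * s) = X >>> (w * i) % 2 ^ w := by
        rw [Nat.zero_mul, Nat.add_zero]; rfl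
      rw [h2, ← Nat.div_add_mod (X >>> (w * i) % 2 ^ w) p, h1, Nat.cast_add, Nat.cast_mul, hp]
      simp
    | succ j =>
      rw [if_neg (Nat.succ_ne_zero _)]
      have := chkX_sound hp X n (i + s) h.2 j (by omega)
      rw [← this]
      congr 2
      ring
  | nd g h ihg ihh =>
    intro hT xs j hj
    rw [chk1_nd, Bool.and_eq_true] at hT
    cases xs with
    | nil => rw [sem]; exact ihg hT.1 [] j hj
    | cons x xs =>
      rw [sem, coeff_add, coeff_C_mul, ihg hT.1 xs j hj,
        chkZ_sound hw hp h hT.2 (x :: xs) j hj]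
      simp

theorem coeff_sem_high {w q K : ℕ} (hw : 0 < w) : ∀ (t : Tr), GT w q K t → ∀ (xs : List A),
    ∀ k, K ≤ k → (sem w t xs).coeff k = 0 := by
  intro t
  induction t with
  | lf c =>
    intro ht xs k hk
    rw [sem, lp_coeff hw, ht.2 k hk, Nat.cast_zero]
  | nd g h ihg ihh =>
    intro ht xs k hk
    cases xs with
    | nil => rw [sem]; exact ihg ht.1 [] k hk
    | cons x xs =>
      rw [sem, coeff_add, coeff_C_mul, ihg ht.1 xs k hk, ihh ht.2 (x :: xs) k hk]
      simp

theorem coeff_mul_high {K : ℕ} (P L : A[X]) (hP : ∀ k, K ≤ k → P.coeff k = 0) {n : ℕ}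
    (hn : K ≤ n + 1) : (P * L).coeff n = ∑ k ∈ Finset.range K, P.coeff k * L.coeff (n - k) := by
  rw [coeff_mul, Finset.Nat.sum_antidiagonal_eq_sum_range_succ_mk]
  symm
  refine Finset.sum_subset (Finset.range_mono hn) fun k _ hk => ?_
  rw [Finset.mem_range, not_lt] at hk
  rw [hP k hk, zero_mul]

/-- **Soundness of one cell.** -/
theorem cell_sound {p w q K s mask D n i : ℕ} (hw : 0 < w) (hp : (p : A) = 0)
    (hm : GC w q K mask) {z : ℕ} {t : Tr} {Ms : List ℕ} (hz : GM w q z)
    (hMs : ∀ M ∈ Ms, GM w q M) (hgood : good mask t D = true)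
    (hb : (D + Ms.length + 1) * (K * (q * q)) < 2 ^ w) (hi : K ≤ i + 1)
    (hchk : chk1 p (2 ^ w) (w * s) n (w * i) (mulT z t Ms) = true)
    (xs : List A) (hxs : xs.length = Ms.length) :
    ∃ c : ℕ → A, ∀ j < n + 1,
      ∑ k ∈ Finset.range K, c k * (lform w z Ms xs).coeff (i + j * s - k) =
        if j = 0 then 1 else 0 := by
  obtain ⟨hG, hD⟩ := good_sound hm t D hgood
  have hb' : (dep t + Ms.length + 1) * (K * (q * q)) < 2 ^ w :=
    lt_of_le_of_lt (Nat.mul_le_mul_right _ (by omega)) hb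
  obtain ⟨-, h2⟩ := mulT_sound (A := A) hw hz t hG Ms hMs hb'
  refine ⟨fun k => (sem w t xs).coeff k, fun j hj => ?_⟩
  rw [← chk1_sound (A := A) hw hp _ hchk xs j hj, h2 xs hxs,
    coeff_mul_high _ _ (coeff_sem_high hw t hG xs) (by omega)]

end checks

end Crest.Agent.R345.Cert
private theorem rz_4ca2448f6b : type_of% @_root_.Crest.Agent.R345.Cert.dep.eq_def := @_root_.Crest.Agent.R345.Cert.dep.eq_def -- L269
private theorem rz_49817a7108 : type_of% @_root_.Crest.Agent.R345.Cert.dep.eq_1 := @_root_.Crest.Agent.R345.Cert.dep.eq_1 -- L269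
private theorem rz_2640245062 : type_of% @_root_.Crest.Agent.R345.Cert.lform.eq_def := @_root_.Crest.Agent.R345.Cert.lform.eq_def -- L242
private theorem rz_53b7ef3604 : type_of% @_root_.Crest.Agent.R345.Cert.lform.eq_1 := @_root_.Crest.Agent.R345.Cert.lform.eq_1 -- L242
private theorem rz_3b71766b31 : type_of% @_root_.Crest.Agent.R345.Cert.sem.eq_def := @_root_.Crest.Agent.R345.Cert.sem.eq_def -- L236
private theorem rz_2880cf0b3c : type_of% @_root_.Crest.Agent.R345.Cert.sem.eq_1 := @_root_.Crest.Agent.R345.Cert.sem.eq_1 -- L236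
end

-- ▼ part R345/CertForms

/-!
# From cell certificates to the absence of common zeros (row 345)
-/

set_option autoImplicit false

namespace Crest.Agent.R345.Cert

open Polynomial

/-- If `v_b = 0` for `b < s` and `v_s = 1`, a combination of the forms is `u_t` modulo
`u_a`, `a < t`. -/
def CellOK {A : Type*} [CommRing A] (N : ℕ → ℕ → ℕ → A) (s t : ℕ) : Prop :=
  ∀ v : ℕ → A, v s = 1 → (∀ b < s, v b = 0) → ∃ c : ℕ → A, ∀ a, t ≤ a → a < 10 →
    ∑ k ∈ Finset.range 20, c k * ∑ b ∈ Finset.range 10, N k a b * v b = if a = t then 1 else 0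

theorem CellOK.use {A : Type*} [Field A] {N : ℕ → ℕ → ℕ → A} {s t : ℕ} (h : CellOK N s t)
    (ht : t < 10) {u v : ℕ → A} (hu : ∀ a < t, u a = 0) (hv : ∀ b < s, v b = 0) (hs : v s ≠ 0)
    (hz : ∀ k < 20, ∑ a ∈ Finset.range 10, ∑ b ∈ Finset.range 10, N k a b * u a * v b = 0) :
    u t = 0 := by
  obtain ⟨c, hc⟩ := h (fun b => (v s)⁻¹ * v b) (inv_mul_cancel₀ hs)
    (fun b hb => by rw [hv b hb, mul_zero])
  have h1 : ∑ a ∈ Finset.range 10, u a * ∑ k ∈ Finset.range 20, c k *
      ∑ b ∈ Finset.range 10, N k a b * ((v s)⁻¹ * v b) = u t := by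
    rw [Finset.sum_eq_single t]
    · rw [hc t le_rfl ht, if_pos rfl, mul_one]
    · intro a ha hat
      rcases lt_or_ge a t with h2 | h2
      · rw [hu a h2, zero_mul]
      · rw [hc a h2 (Finset.mem_range.1 ha), if_neg hat, mul_zero]
    · intro h2
      exact absurd (Finset.mem_range.2 ht) h2
  have h2 : ∑ a ∈ Finset.range 10, u a * ∑ k ∈ Finset.range 20, c k *
      ∑ b ∈ Finset.range 10, N k a b * ((v s)⁻¹ * v b) =
      ∑ k ∈ Finset.range 20, c k * ((v s)⁻¹ *
        ∑ a ∈ Finset.range 10, ∑ b ∈ Finset.range 10, N k a b * u a * v b) := by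
    simp only [Finset.mul_sum]
    rw [Finset.sum_comm]
    refine Finset.sum_congr rfl fun k _ => Finset.sum_congr rfl fun a _ =>
      Finset.sum_congr rfl fun b _ => ?_
    ring
  rw [← h1, h2]
  refine Finset.sum_eq_zero fun k hk => ?_
  rw [hz k (Finset.mem_range.1 hk), mul_zero, mul_zero]

theorem noZero_of_cells {A : Type*} [Field A] {N : ℕ → ℕ → ℕ → A}
    (h : ∀ s < 10, ∀ t < 10, CellOK N s t ∨ CellOK (fun k a b => N k b a) t s)
    (u v : ℕ → A)
    (hz : ∀ k < 20, ∑ a ∈ Finset.range 10, ∑ b ∈ Finset.range 10, N k a b * u a * v b = 0) :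
    (∀ a < 10, u a = 0) ∨ (∀ b < 10, v b = 0) := by
  classical
  by_contra hcon
  push Not at hcon
  obtain ⟨⟨a, ha, hua⟩, b, hb, hvb⟩ := hcon
  have hea : ∃ a, u a ≠ 0 := ⟨a, hua⟩
  have heb : ∃ b, v b ≠ 0 := ⟨b, hvb⟩
  have ht : Nat.find hea < 10 := (Nat.find_min' hea hua).trans_lt ha
  have hs : Nat.find heb < 10 := (Nat.find_min' heb hvb).trans_lt hb
  have hut := Nat.find_spec hea
  have hvs := Nat.find_spec heb
  have hul : ∀ a < Nat.find hea, u a = 0 := fun a ha => by
    by_contra h; exact Nat.find_min hea ha h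
  have hvl : ∀ b < Nat.find heb, v b = 0 := fun b hb => by
    by_contra h; exact Nat.find_min heb hb h
  rcases h _ hs _ ht with h1 | h1
  · exact hut (h1.use ht hul hvl hvs hz)
  · refine hvs (h1.use hs hvl hul hut fun k hk => ?_)
    rw [← hz k hk, Finset.sum_comm]
    refine Finset.sum_congr rfl fun a _ => Finset.sum_congr rfl fun b _ => by ring

section packed

variable {A : Type*} [CommRing A]

theorem lform_coeff {w : ℕ} (hw : 0 < w) (M : ℕ → ℕ) (v : ℕ → A) (z n : ℕ) : ∀ (m s : ℕ),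
    (lform w z ((List.range' s m).map M) ((List.range' s m).map v)).coeff n =
      (slot w z n : A) + ∑ j ∈ Finset.range m, v (s + j) * (slot w (M (s + j)) n : A) := by
  intro m
  induction m with
  | zero => intro s; simp [lform, lp_coeff hw]
  | succ m ih =>
    intro s
    rw [List.range'_succ, List.map_cons, List.map_cons, lform, coeff_add, coeff_C_mul,
      lp_coeff hw, ih (s + 1), Finset.sum_range_succ']
    have : ∀ j, s + 1 + j = s + (j + 1) := fun j => by omega
    simp only [this, Nat.add_zero]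
    ring

theorem cellOK_of_lform {w : ℕ} (hw : 0 < w) (M : ℕ → ℕ) {s t : ℕ} (hs : s < 10) (ht : t < 10)
    (h : ∀ xs : List A, xs.length = 9 - s → ∃ c : ℕ → A, ∀ j < 9 - t + 1,
      ∑ k ∈ Finset.range 20, c k * (lform w (M s) ((List.range' (s + 1) (9 - s)).map M) xs).coeff
        (40 * t + 19 + j * 40 - k) = if j = 0 then 1 else 0) :
    CellOK (fun k a b => (slot w (M b) (40 * a + 19 - k) : A)) s t := by
  intro v hv1 hv0
  obtain ⟨c, hc⟩ := h ((List.range' (s + 1) (9 - s)).map v) (by simp)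
  refine ⟨c, fun a hta ha => ?_⟩
  have h1 := hc (a - t) (by omega)
  have h2 : (if a - t = 0 then (1 : A) else 0) = if a = t then 1 else 0 := by
    by_cases h3 : a = t
    · subst h3; simp
    · rw [if_neg h3, if_neg (by omega)]
  rw [h2] at h1
  rw [← h1]
  refine Finset.sum_congr rfl fun k hk => ?_
  congr 1
  rw [lform_coeff hw]
  have h4 : 40 * t + 19 + (a - t) * 40 - k = 40 * a + 19 - k := by omega
  rw [h4]
  have h5 : Finset.range 10 = Finset.range (s + (1 + (9 - s))) := by
    congr 1; omega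
  rw [h5, Finset.sum_range_add, Finset.sum_range_add, Finset.sum_range_one,
    Finset.sum_eq_zero fun b hb => by rw [hv0 b (Finset.mem_range.1 hb), mul_zero], zero_add,
    Nat.add_zero, hv1, mul_one]
  congr 1
  refine Finset.sum_congr rfl fun j _ => ?_
  rw [Nat.add_assoc, mul_comm]

/-- the cell from a kernel check -/
theorem cellOK_of_check {p w q mask D : ℕ} {M : ℕ → ℕ} (hM : ∀ b, GM w q (M b))
    (hw : 0 < w) (hp : (p : A) = 0) (hm : GC w q 20 mask) {s t : ℕ} (hs : s < 10) (ht : t < 10)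
    {T : Tr} (hgood : good mask T D = true) (hb : (D + (9 - s) + 1) * (20 * (q * q)) < 2 ^ w)
    (hchk : chk1 p (2 ^ w) (w * 40) (9 - t) (w * (40 * t + 19))
      (mulT (M s) T ((List.range' (s + 1) (9 - s)).map M)) = true) :
    CellOK (fun k a b => (slot w (M b) (40 * a + 19 - k) : A)) s t := by
  refine cellOK_of_lform hw M hs ht fun xs hxs => ?_
  refine cell_sound hw hp hm (hM s) ?_ hgood (by simpa using hb) (by omega) hchk xs (by simpa using hxs)
  intro x hx
  obtain ⟨b, -, rfl⟩ := List.mem_map.1 hx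
  exact hM b

end packed

/-! ### the final statement -/

def allLt (n : ℕ) (f : ℕ → Bool) : Bool :=
  Nat.rec (motive := fun _ => Bool) true
    (fun i ih => Bool.rec (motive := fun _ => Bool) false ih (f i)) n

theorem allLt_iff (n : ℕ) (f : ℕ → Bool) : allLt n f = true ↔ ∀ i < n, f i = true := by
  induction n with
  | zero => simp [allLt]
  | succ n ih =>
    have h : allLt (n + 1) f = (f n && allLt n f) := by
      show Bool.rec (motive := fun _ => Bool) false (allLt n f) (f n) = _
      cases f n <;> rfl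
    rw [h, Bool.and_eq_true, ih]
    constructor
    · rintro ⟨h1, h2⟩ i hi
      rcases Nat.lt_succ_iff_lt_or_eq.1 hi with h3 | h3
      · exact h2 i h3
      · rw [h3]; exact h1
    · intro h1
      exact ⟨h1 n (Nat.lt_succ_self n), fun i hi => h1 i (Nat.lt_succ_of_lt hi)⟩

/-- entry of the table of forms: `N t j i` -/
def ent (NT : List (List (List ℕ))) (k a b : ℕ) : ℕ := ((NT.getD k []).getD b []).getD a 0

/-- the packed columns agree with the table -/
def chkTab (w : ℕ) (NT : List (List (List ℕ))) (M : ℕ → ℕ) : Bool :=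
  allLt 20 fun k => allLt 10 fun b => allLt 10 fun a =>
    Nat.beq (slot w (M b) (Nat.sub (Nat.add (Nat.mul 40 a) 19) k)) (ent NT k a b)

/-- the packed rows agree with the table -/
def chkTab' (w : ℕ) (NT : List (List (List ℕ))) (M : ℕ → ℕ) : Bool :=
  allLt 20 fun k => allLt 10 fun b => allLt 10 fun a =>
    Nat.beq (slot w (M a) (Nat.sub (Nat.add (Nat.mul 40 b) 19) k)) (ent NT k a b)

theorem chkTab_sound {w : ℕ} {NT : List (List (List ℕ))} {M : ℕ → ℕ} (h : chkTab w NT M = true)
    {k a b : ℕ} (hk : k < 20) (ha : a < 10) (hb : b < 10) :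
    slot w (M b) (40 * a + 19 - k) = ent NT k a b := by
  have h1 := (allLt_iff _ _).1 ((allLt_iff _ _).1 ((allLt_iff _ _).1 h k hk) b hb) a ha
  exact Nat.eq_of_beq_eq_true h1

theorem chkTab'_sound {w : ℕ} {NT : List (List (List ℕ))} {M : ℕ → ℕ}
    (h : chkTab' w NT M = true) {k a b : ℕ} (hk : k < 20) (ha : a < 10) (hb : b < 10) :
    slot w (M a) (40 * b + 19 - k) = ent NT k a b := by
  have h1 := (allLt_iff _ _).1 ((allLt_iff _ _).1 ((allLt_iff _ _).1 h k hk) b hb) a ha
  exact Nat.eq_of_beq_eq_true h1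

theorem noZero_final {A : Type*} [Field A] {w : ℕ} {NT : List (List (List ℕ))} {M M' : ℕ → ℕ}
    (hM : chkTab w NT M = true) (hM' : chkTab' w NT M' = true)
    (h : ∀ s < 10, ∀ t < 10,
      CellOK (fun k a b => (slot w (M b) (40 * a + 19 - k) : A)) s t ∨
      CellOK (fun k a b => (slot w (M' b) (40 * a + 19 - k) : A)) t s)
    (u v : Fin 10 → A)
    (hz : ∀ t : Fin 20, ∑ i : Fin 10, ∑ j : Fin 10,
      ((ent NT (t : ℕ) (i : ℕ) (j : ℕ) : ℕ) : A) * u i * v j = 0) :
    u = 0 ∨ v = 0 := by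
  have key := noZero_of_cells (N := fun k a b => ((ent NT k a b : ℕ) : A)) ?_
    (fun a => if h : a < 10 then u ⟨a, h⟩ else 0) (fun b => if h : b < 10 then v ⟨b, h⟩ else 0) ?_
  · rcases key with h1 | h1
    · left; funext a
      have := h1 a a.2
      simpa using this
    · right; funext b
      have := h1 b b.2
      simpa using this
  · intro s hs t ht
    rcases h s hs t ht with h1 | h1
    · left
      intro v hv1 hv0
      obtain ⟨c, hc⟩ := h1 v hv1 hv0
      refine ⟨c, fun a hta ha => ?_⟩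
      rw [← hc a hta ha]
      refine Finset.sum_congr rfl fun k hk => ?_
      congr 1
      refine Finset.sum_congr rfl fun b hb => ?_
      show ((ent NT k a b : ℕ) : A) * v b = ((slot w (M b) (40 * a + 19 - k) : ℕ) : A) * v b
      rw [chkTab_sound hM (Finset.mem_range.1 hk) ha (Finset.mem_range.1 hb)]
    · right
      intro v hv1 hv0
      obtain ⟨c, hc⟩ := h1 v hv1 hv0
      refine ⟨c, fun a hta ha => ?_⟩
      rw [← hc a hta ha]
      refine Finset.sum_congr rfl fun k hk => ?_
      congr 1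
      refine Finset.sum_congr rfl fun b hb => ?_
      show ((ent NT k b a : ℕ) : A) * v b = ((slot w (M' b) (40 * a + 19 - k) : ℕ) : A) * v b
      rw [chkTab'_sound hM' (Finset.mem_range.1 hk) (Finset.mem_range.1 hb) ha]
  · intro k hk
    rw [← hz ⟨k, hk⟩, Finset.sum_range]
    refine Finset.sum_congr rfl fun i _ => ?_
    rw [Finset.sum_range]
    refine Finset.sum_congr rfl fun j _ => ?_
    simp

/-! ### convenience forms for generated files -/

/-- all packed columns have slots at most `q` -/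
def chkGM (w q : ℕ) (L : List ℕ) : Bool :=
  List.rec (motive := fun _ => Bool) true
    (fun x _ ih => Bool.rec (motive := fun _ => Bool) false ih (slotsLe w q 400 x)) L

theorem chkGM_sound {w q : ℕ} : ∀ {L : List ℕ}, chkGM w q L = true →
    ∀ b, GM w q (L.getD b 0) := by
  intro L
  induction L with
  | nil => intro _ b i; rw [List.getD_nil, slot_zero]; exact Nat.zero_le _
  | cons x L ih =>
    intro h
    have h1 : chkGM w q (x :: L) = (slotsLe w q 400 x && chkGM w q L) := by
      show Bool.rec (motive := fun _ => Bool) false (chkGM w q L) (slotsLe w q 400 x) = _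
      cases slotsLe w q 400 x <;> rfl
    rw [h1, Bool.and_eq_true] at h
    intro b
    cases b with
    | zero => exact (slotsLe_sound 400 x h.1).1
    | succ b => exact ih h.2 b

theorem cellOK_of_check' {A : Type*} [CommRing A] {p w q mask D : ℕ} {M : ℕ → ℕ} {s t : ℕ}
    {W S I n z : ℕ} {T : Tr} {Ms : List ℕ}
    (hM : ∀ b, GM w q (M b)) (hw : 0 < w) (hp : (p : A) = 0) (hm : GC w q 20 mask)
    (hs : s < 10) (ht : t < 10) (hgood : good mask T D = true)
    (hb : (D + (9 - s) + 1) * (20 * (q * q)) < 2 ^ w)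
    (hW : W = 2 ^ w) (hS : S = w * 40) (hI : I = w * (40 * t + 19)) (hn : n = 9 - t)
    (hz : M s = z) (hMs : (List.range' (s + 1) (9 - s)).map M = Ms)
    (hchk : chk1 p W S n I (mulT z T Ms) = true) :
    CellOK (fun k a b => (slot w (M b) (40 * a + 19 - k) : A)) s t := by
  subst hW hS hI hn hz hMs
  exact cellOK_of_check hM hw hp hm hs ht hgood hb hchk

/-- kernel evaluation of a Boolean equation `b = true` -/
elab "krefl" : tactic => do
  let g ← Lean.Elab.Tactic.getMainGoal
  g.assign (Lean.mkApp2 (Lean.mkConst ``Eq.refl [Lean.Level.one]) (Lean.mkConst ``Bool)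
    (Lean.mkConst ``Bool.true))

end Crest.Agent.R345.Cert
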