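import Mathlib

-- ▼ part R345/Kron
section

/-!
# Kronecker substitution for elements of `ℤ[θ]` (row 345)

An integer polynomial `P` with small coefficients is represented by the natural number
`P(b) mod m`, where `m = f(b)` and `f` is a monic integer polynomial with root `θ`.
If the representative is `0 mod m` then `P(θ) = 0`.
-/

set_option autoImplicit false

namespace Crest.Agent.R345

open Polynomial

/-- The `l¹` norm of an integer polynomial. -/
noncomputable def l1 (P : ℤ[X]) : ℕ := ∑ i ∈ Finset.range (P.natDegree + 1), (P.coeff i).natAbs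

theorem l1_eq (P : ℤ[X]) (n : ℕ) (hn : P.natDegree < n) :
    l1 P = ∑ i ∈ Finset.range n, (P.coeff i).natAbs := by
  unfold l1
  refine Finset.sum_subset (fun i hi => ?_) (fun i _ hi => ?_)
  · rw [Finset.mem_range] at *; omega
  · rw [Finset.mem_range] at hi
    rw [coeff_eq_zero_of_natDegree_lt (by omega), Int.natAbs_zero]

theorem l1_zero : l1 0 = 0 := by simp [l1]

theorem l1_add_le (P Q : ℤ[X]) : l1 (P + Q) ≤ l1 P + l1 Q := by
  set n := max (max P.natDegree Q.natDegree) (P + Q).natDegree + 1 with hn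
  rw [l1_eq (P + Q) n (by omega), l1_eq P n (by omega), l1_eq Q n (by omega),
    ← Finset.sum_add_distrib]
  refine Finset.sum_le_sum fun i _ => ?_
  rw [coeff_add]
  exact Int.natAbs_add_le _ _

theorem l1_neg (P : ℤ[X]) : l1 (-P) = l1 P := by
  unfold l1
  rw [natDegree_neg]
  exact Finset.sum_congr rfl fun i _ => by rw [coeff_neg, Int.natAbs_neg]

theorem l1_sub_le (P Q : ℤ[X]) : l1 (P - Q) ≤ l1 P + l1 Q := by
  rw [sub_eq_add_neg, ← l1_neg Q]
  exact l1_add_le _ _

theorem l1_sum_le {ι : Type*} (s : Finset ι) (P : ι → ℤ[X]) :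
    l1 (∑ i ∈ s, P i) ≤ ∑ i ∈ s, l1 (P i) := by
  classical
  induction s using Finset.induction_on with
  | empty => simp [l1_zero]
  | insert a s ha ih =>
    rw [Finset.sum_insert ha, Finset.sum_insert ha]
    exact (l1_add_le _ _).trans (Nat.add_le_add_left ih _)

theorem l1_monomial_mul_le (n : ℕ) (c : ℤ) (Q : ℤ[X]) :
    l1 (monomial n c * Q) ≤ c.natAbs * l1 Q := by
  have hdeg : (monomial n c * Q).natDegree < n + (Q.natDegree + 1) := by
    refine lt_of_le_of_lt natDegree_mul_le ?_
    have := natDegree_monomial_le (R := ℤ) (m := n) c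
    omega
  rw [l1_eq _ _ hdeg, Finset.sum_range_add]
  have h1 : ∑ i ∈ Finset.range n, ((monomial n c * Q).coeff i).natAbs = 0 := by
    refine Finset.sum_eq_zero fun i hi => ?_
    rw [Finset.mem_range] at hi
    rw [← C_mul_X_pow_eq_monomial, mul_assoc, coeff_C_mul, mul_comm (X ^ n), coeff_mul_X_pow',
      if_neg (by omega), mul_zero, Int.natAbs_zero]
  rw [h1, zero_add]
  unfold l1
  rw [Finset.mul_sum]
  refine Finset.sum_le_sum fun i _ => ?_
  rw [← C_mul_X_pow_eq_monomial, mul_assoc, coeff_C_mul, mul_comm (X ^ n), coeff_mul_X_pow',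
    if_pos (by omega), Nat.add_sub_cancel_left, Int.natAbs_mul]

theorem l1_mul_le (P Q : ℤ[X]) : l1 (P * Q) ≤ l1 P * l1 Q := by
  conv_lhs => rw [P.as_sum_range, Finset.sum_mul]
  refine (l1_sum_le _ _).trans ?_
  unfold l1
  rw [Finset.sum_mul]
  exact Finset.sum_le_sum fun i _ => l1_monomial_mul_le _ _ _

theorem natAbs_eval_le (P : ℤ[X]) (b n : ℕ) (hb : 1 ≤ b) (hn : P.natDegree ≤ n) :
    (P.eval (b : ℤ)).natAbs ≤ l1 P * b ^ n := by
  rw [eval_eq_sum_range' (Nat.lt_succ_of_le hn), l1_eq P (n + 1) (by omega), Finset.sum_mul]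
  refine (Int.natAbs_sum_le _ _).trans ?_
  refine Finset.sum_le_sum fun i hi => ?_
  rw [Finset.mem_range] at hi
  rw [Int.natAbs_mul, Int.natAbs_pow, Int.natAbs_natCast]
  exact Nat.mul_le_mul_left _ (Nat.pow_le_pow_right hb (by omega))

/-- A nonzero polynomial with `l¹` norm less than `b` does not vanish at `b`. -/
theorem eval_ne_zero_of_l1_lt (P : ℤ[X]) (b : ℕ) (hP : P ≠ 0) (hb : l1 P < b) :
    P.eval (b : ℤ) ≠ 0 := by
  intro h0
  set n := P.natDegree with hn
  have hlead : P.coeff n ≠ 0 := by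
    rw [hn]
    exact leadingCoeff_ne_zero.2 hP
  rw [eval_eq_sum_range, Finset.sum_range_succ, ← hn] at h0
  have h1 : (P.coeff n * (b : ℤ) ^ n).natAbs =
      (∑ i ∈ Finset.range n, P.coeff i * (b : ℤ) ^ i).natAbs := by
    rw [← Int.natAbs_neg (∑ i ∈ Finset.range n, P.coeff i * (b : ℤ) ^ i)]
    congr 1
    linarith
  rw [Int.natAbs_mul, Int.natAbs_pow, Int.natAbs_natCast] at h1
  have hb1 : 1 ≤ b := by omega
  have hge : b ^ n ≤ (P.coeff n).natAbs * b ^ n :=
    Nat.le_mul_of_pos_left _ (Int.natAbs_pos.2 hlead)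
  have hsplit : l1 P = ∑ i ∈ Finset.range n, (P.coeff i).natAbs + (P.coeff n).natAbs := by
    unfold l1
    rw [Finset.sum_range_succ, ← hn]
  rcases Nat.eq_zero_or_pos n with hn0 | hnpos
  · rw [hn0] at h1
    simp only [pow_zero, mul_one, Finset.range_zero, Finset.sum_empty, Int.natAbs_zero] at h1
    rw [hn0] at hlead
    exact hlead (Int.natAbs_eq_zero.1 h1)
  · have hle : (∑ i ∈ Finset.range n, P.coeff i * (b : ℤ) ^ i).natAbs ≤
        (∑ i ∈ Finset.range n, (P.coeff i).natAbs) * b ^ (n - 1) := by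
      rw [Finset.sum_mul]
      refine (Int.natAbs_sum_le _ _).trans (Finset.sum_le_sum fun i hi => ?_)
      rw [Finset.mem_range] at hi
      rw [Int.natAbs_mul, Int.natAbs_pow, Int.natAbs_natCast]
      exact Nat.mul_le_mul_left _ (Nat.pow_le_pow_right hb1 (by omega))
    have hlt : (∑ i ∈ Finset.range n, (P.coeff i).natAbs) * b ^ (n - 1) < b ^ n := by
      have : b ^ n = b * b ^ (n - 1) := by
        rw [← pow_succ']
        congr 1
        omega
      rw [this]
      refine Nat.mul_lt_mul_of_pos_right ?_ (pow_pos (by omega) _)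
      omega
    omega

/-- Size of the remainder. -/
theorem l1_modByMonic_le (f : ℤ[X]) (hf : f.Monic) (n : ℕ) :
    ∀ P : ℤ[X], P.natDegree < n → l1 (P %ₘ f) ≤ l1 P * l1 f ^ n := by
  have hf1 : 1 ≤ l1 f := by
    unfold l1
    rw [Finset.sum_range_succ]
    have : (f.coeff f.natDegree).natAbs = 1 := by
      have := hf.coeff_natDegree
      rw [this]; rfl
    omega
  induction n with
  | zero => intro P hP; omega
  | succ n ih =>
    intro P hP
    rcases Nat.lt_or_ge P.natDegree f.natDegree with hlt | hge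
    · rw [(modByMonic_eq_self_iff hf).2 (degree_lt_degree hlt)]
      exact Nat.le_mul_of_pos_right _ (pow_pos hf1 _)
    · rcases Nat.lt_or_ge P.natDegree n with hlt | hge'
      · refine (ih P hlt).trans ?_
        rw [pow_succ, ← mul_assoc]
        exact Nat.le_mul_of_pos_right _ hf1
      · have hn : P.natDegree = n := by omega
        rcases eq_or_ne f.natDegree 0 with hf0 | hf0
        · have : f = 1 := by
            rw [← hf.natDegree_eq_zero]
            exact hf0
          rw [this, modByMonic_one, l1_zero]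
          exact Nat.zero_le _
        set c := P.coeff n with hc
        set Q := P - monomial (n - f.natDegree) c * f with hQ
        have hdegM : (monomial (n - f.natDegree) c * f).natDegree ≤ n := by
          refine natDegree_mul_le.trans ?_
          have := natDegree_monomial_le (R := ℤ) (m := n - f.natDegree) c
          omega
        have hQdeg : Q.natDegree < n := by
          have h1 : Q.natDegree ≤ n := (natDegree_sub_le _ _).trans (by omega)
          have h2 : Q.coeff n = 0 := by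
            rw [hQ, coeff_sub, ← C_mul_X_pow_eq_monomial, mul_assoc, coeff_C_mul,
              mul_comm (X ^ _), coeff_mul_X_pow', if_pos (by omega)]
            have : n - (n - f.natDegree) = f.natDegree := by omega
            rw [this, hf.coeff_natDegree, mul_one, ← hc, sub_self]
          refine lt_of_le_of_ne h1 fun h3 => ?_
          have h4 : Q.leadingCoeff = 0 := by rw [leadingCoeff, h3, h2]
          have h5 : Q = 0 := leadingCoeff_eq_zero.1 h4
          rw [h5, natDegree_zero] at h3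
          omega
        have hmod : Q %ₘ f = P %ₘ f := by
          rw [hQ, sub_modByMonic, mul_comm, (modByMonic_eq_zero_iff_dvd hf).2 (dvd_mul_right _ _),
            sub_zero]
        have hl : l1 Q ≤ l1 P * l1 f := by
          -- coefficients
          have e1 : l1 Q ≤ (l1 P - c.natAbs) + c.natAbs * (l1 f - 1) := by
            have hle : Q.natDegree < n := hQdeg
            rw [l1_eq Q n hle]
            have hP' : l1 P = ∑ i ∈ Finset.range n, (P.coeff i).natAbs + c.natAbs := by
              rw [l1_eq P (n + 1) (by omega), Finset.sum_range_succ]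
            have hM : l1 (monomial (n - f.natDegree) c * f) =
                ∑ i ∈ Finset.range n, ((monomial (n - f.natDegree) c * f).coeff i).natAbs +
                  c.natAbs := by
              rw [l1_eq _ (n + 1) (by omega), Finset.sum_range_succ]
              congr 1
              rw [← C_mul_X_pow_eq_monomial, mul_assoc, coeff_C_mul,
                mul_comm (X ^ _), coeff_mul_X_pow', if_pos (by omega)]
              have : n - (n - f.natDegree) = f.natDegree := by omega
              rw [this, hf.coeff_natDegree, mul_one]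
            have hM2 := l1_monomial_mul_le (n - f.natDegree) c f
            have hsum : ∑ i ∈ Finset.range n, (Q.coeff i).natAbs ≤
                ∑ i ∈ Finset.range n, (P.coeff i).natAbs +
                ∑ i ∈ Finset.range n, ((monomial (n - f.natDegree) c * f).coeff i).natAbs := by
              rw [← Finset.sum_add_distrib]
              refine Finset.sum_le_sum fun i _ => ?_
              rw [hQ, coeff_sub]
              exact Int.natAbs_sub_le _ _
            have hexp : c.natAbs * l1 f = c.natAbs * (l1 f - 1) + c.natAbs := by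
              conv_lhs => rw [show l1 f = (l1 f - 1) + 1 by omega, Nat.mul_add, Nat.mul_one]
            omega
          have e2 : c.natAbs ≤ l1 P := by
            rw [l1_eq P (n + 1) (by omega), Finset.sum_range_succ]
            omega
          have e3 : l1 P * l1 f = (l1 P - c.natAbs) * l1 f + c.natAbs * l1 f := by
            rw [← Nat.add_mul]
            congr 1
            omega
          have e4 : l1 P - c.natAbs ≤ (l1 P - c.natAbs) * l1 f := Nat.le_mul_of_pos_right _ hf1
          have e5 : c.natAbs * (l1 f - 1) ≤ c.natAbs * l1 f := Nat.mul_le_mul_left _ (by omega)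
          omega
        rw [← hmod]
        refine (ih Q hQdeg).trans ?_
        calc l1 Q * l1 f ^ n ≤ (l1 P * l1 f) * l1 f ^ n := Nat.mul_le_mul_right _ hl
          _ = l1 P * l1 f ^ (n + 1) := by rw [pow_succ]; ring

/-- **Kronecker substitution modulo `f(b)`.** -/
theorem dvd_of_eval_dvd (f : ℤ[X]) (hf : f.Monic) (hfd : 0 < f.natDegree) (b n : ℕ) (P : ℤ[X])
    (hP : P.natDegree < n) (hb : l1 P * l1 f ^ n + l1 f < b)
    (h : f.eval (b : ℤ) ∣ P.eval (b : ℤ)) : f ∣ P := by
  rw [← modByMonic_eq_zero_iff_dvd hf]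
  by_contra hR
  set R := P %ₘ f with hRdef
  have hl : l1 R ≤ l1 P * l1 f ^ n := l1_modByMonic_le f hf n P hP
  have hRb : R.eval (b : ℤ) ≠ 0 := eval_ne_zero_of_l1_lt R b hR (by omega)
  have hdeg : R.natDegree ≤ f.natDegree - 1 := by
    have h1 := degree_modByMonic_lt P hf
    have h2 : R.natDegree < f.natDegree := natDegree_lt_natDegree hR (by rw [hRdef]; exact h1)
    omega
  have hRdvd : f.eval (b : ℤ) ∣ R.eval (b : ℤ) := by
    have : R = P - f * (P /ₘ f) := by
      rw [hRdef, modByMonic_eq_sub_mul_div]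
    rw [this, eval_sub, eval_mul]
    exact dvd_sub h (dvd_mul_right _ _)
  have hb1 : 1 ≤ b := by omega
  have hupper : (R.eval (b : ℤ)).natAbs ≤ l1 R * b ^ (f.natDegree - 1) :=
    natAbs_eval_le R b _ hb1 hdeg
  have hlower : (b - l1 f) * b ^ (f.natDegree - 1) ≤ (f.eval (b : ℤ)).natAbs := by
    have h1 : f.eval (b : ℤ) = (b : ℤ) ^ f.natDegree + f.eraseLead.eval (b : ℤ) := by
      conv_lhs => rw [← f.eraseLead_add_C_mul_X_pow, eval_add, hf.leadingCoeff]
      simp [add_comm]
    have h2 : (f.eraseLead.eval (b : ℤ)).natAbs ≤ l1 f * b ^ (f.natDegree - 1) := by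
      have h3 : l1 f.eraseLead ≤ l1 f := by
        rw [l1_eq f.eraseLead (f.natDegree + 1)
          (lt_of_le_of_lt (eraseLead_natDegree_le _) (by omega))]
        unfold l1
        refine Finset.sum_le_sum fun i _ => ?_
        rw [eraseLead_coeff]
        split_ifs
        · simp
        · exact le_rfl
      refine (natAbs_eval_le _ b _ hb1 (eraseLead_natDegree_le _)).trans ?_
      exact Nat.mul_le_mul_right _ h3
    have h4 : ((b : ℤ) ^ f.natDegree).natAbs = b * b ^ (f.natDegree - 1) := by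
      rw [Int.natAbs_pow, Int.natAbs_natCast, ← pow_succ']
      congr 1
      omega
    have h5 : ((b : ℤ) ^ f.natDegree).natAbs ≤
        (f.eval (b : ℤ)).natAbs + (f.eraseLead.eval (b : ℤ)).natAbs := by
      have : (b : ℤ) ^ f.natDegree = f.eval (b : ℤ) - f.eraseLead.eval (b : ℤ) := by
        rw [h1]; ring
      rw [this]
      exact Int.natAbs_sub_le _ _
    rw [Nat.sub_mul]
    omega
  have hle : (f.eval (b : ℤ)).natAbs ≤ (R.eval (b : ℤ)).natAbs := by
    have := Int.natAbs_dvd_natAbs.2 hRdvd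
    exact Nat.le_of_dvd (Int.natAbs_pos.2 hRb) this
  have hlt : l1 R * b ^ (f.natDegree - 1) < (b - l1 f) * b ^ (f.natDegree - 1) := by
    refine Nat.mul_lt_mul_of_pos_right ?_ (pow_pos (by omega) _)
    omega
  omega

end Crest.Agent.R345
end

-- ▼ part R345/NFBasic

/-!
# Packed arithmetic in `ℤ[θ]` (row 345)
-/

set_option autoImplicit false

namespace Crest.Agent.R345

open Polynomial

/-- Value of a coefficient list at `θ`. -/
noncomputable def evL (θ : ℝ) : List ℤ → ℝ
  | [] => 0
  | c :: cs => (c : ℝ) + θ * evL θ cs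

/-- The polynomial of a coefficient list. -/
noncomputable def poL : List ℤ → ℤ[X]
  | [] => 0
  | c :: cs => C c + X * poL cs

/-- Packed value of a coefficient list, as an integer. -/
def pkI (b : ℤ) : List ℤ → ℤ
  | [] => 0
  | c :: cs => c + b * pkI b cs

/-- `l¹` norm of a coefficient list. -/
def l1L : List ℤ → ℕ
  | [] => 0
  | c :: cs => c.natAbs + l1L cs

/-- Packed value modulo `m`. -/
def pk (b m : ℕ) (cs : List ℤ) : ℕ := (pkI b cs % m).toNat

/-- Dot product of lists of natural numbers. -/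
def ndot (xs : List ℕ) : List ℕ → ℕ :=
  @List.rec ℕ (fun _ => List ℕ → ℕ) (fun _ => 0)
    (fun x _ ih ys => Nat.add (Nat.mul x (@List.rec ℕ (fun _ => ℕ) 0 (fun y _ _ => y) ys))
      (ih (@List.rec ℕ (fun _ => List ℕ) [] (fun _ ys' _ => ys') ys))) xs

theorem ndot_nil (ys : List ℕ) : ndot [] ys = 0 := rfl

theorem ndot_cons_nil (x : ℕ) (xs : List ℕ) : ndot (x :: xs) [] = ndot xs [] := by
  change x * 0 + ndot xs [] = _
  rw [Nat.mul_zero, Nat.zero_add]

theorem ndot_cons_cons (x : ℕ) (xs : List ℕ) (y : ℕ) (ys : List ℕ) :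
    ndot (x :: xs) (y :: ys) = x * y + ndot xs ys := rfl

/-- `x` represents the real number `z`. -/
def Rep (θ : ℝ) (b m L n x : ℕ) (z : ℝ) : Prop :=
  ∃ P : ℤ[X], l1 P ≤ L ∧ P.natDegree ≤ n ∧ (m : ℤ) ∣ (x : ℤ) - P.eval (b : ℤ) ∧ aeval θ P = z

section

variable {θ : ℝ} {b m : ℕ}

theorem l1_C_le (c : ℤ) : l1 (C c) ≤ c.natAbs := by
  unfold l1
  rw [natDegree_C, Finset.sum_range_one, coeff_C_zero]

theorem l1_X_mul_le (P : ℤ[X]) : l1 (X * P) ≤ l1 P := by
  have h : l1 (X : ℤ[X]) ≤ 1 := by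
    unfold l1
    rw [natDegree_X, Finset.sum_range_succ, Finset.sum_range_one, coeff_X_zero, coeff_X_one]
    simp
  refine (l1_mul_le _ _).trans ?_
  calc l1 (X : ℤ[X]) * l1 P ≤ 1 * l1 P := Nat.mul_le_mul_right _ h
    _ = l1 P := one_mul _

theorem l1_poL_le (cs : List ℤ) : l1 (poL cs) ≤ l1L cs := by
  induction cs with
  | nil => simp [poL, l1L, l1_zero]
  | cons c cs ih =>
    refine (l1_add_le _ _).trans (Nat.add_le_add (l1_C_le c) ((l1_X_mul_le _).trans ih))

theorem natDegree_poL_le (cs : List ℤ) : (poL cs).natDegree ≤ cs.length := by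
  induction cs with
  | nil => simp [poL]
  | cons c cs ih =>
    refine (natDegree_add_le _ _).trans (max_le (by simp) ?_)
    refine natDegree_mul_le.trans ?_
    have := natDegree_X_le (R := ℤ)
    simp only [List.length_cons]
    omega

theorem eval_poL (cs : List ℤ) (b : ℤ) : (poL cs).eval b = pkI b cs := by
  induction cs with
  | nil => simp [poL, pkI]
  | cons c cs ih => simp [poL, pkI, ih]

theorem aeval_poL (cs : List ℤ) (θ : ℝ) : aeval θ (poL cs) = evL θ cs := by
  induction cs with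
  | nil => simp [poL, evL]
  | cons c cs ih => simp [poL, evL, ih]

theorem Rep.of_list (hm : 0 < m) (cs : List ℤ) (L n : ℕ) (hL : l1L cs ≤ L) (hn : cs.length ≤ n) :
    Rep θ b m L n (pk b m cs) (evL θ cs) := by
  refine ⟨poL cs, (l1_poL_le cs).trans hL, (natDegree_poL_le cs).trans hn, ?_, aeval_poL cs θ⟩
  rw [eval_poL]
  unfold pk
  have hm' : (m : ℤ) ≠ 0 := by exact_mod_cast hm.ne'
  rw [Int.toNat_of_nonneg (Int.emod_nonneg _ hm')]
  have := Int.emod_def (pkI b cs) m
  rw [this]
  exact ⟨-(pkI b cs / m), by ring⟩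

theorem Rep.zero (L n : ℕ) : Rep θ b m L n 0 0 :=
  ⟨0, by rw [l1_zero]; exact Nat.zero_le _, by simp, by simp, by simp⟩

theorem Rep.mono {L n L' n' x : ℕ} {z : ℝ} (h : Rep θ b m L n x z) (hL : L ≤ L') (hn : n ≤ n') :
    Rep θ b m L' n' x z := by
  obtain ⟨P, h1, h2, h3, h4⟩ := h
  exact ⟨P, h1.trans hL, h2.trans hn, h3, h4⟩

theorem Rep.add {L₁ L₂ n x y : ℕ} {z w : ℝ} (h : Rep θ b m L₁ n x z) (h' : Rep θ b m L₂ n y w) :
    Rep θ b m (L₁ + L₂) n (x + y) (z + w) := by
  obtain ⟨P, h1, h2, h3, h4⟩ := h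
  obtain ⟨Q, k1, k2, k3, k4⟩ := h'
  refine ⟨P + Q, (l1_add_le _ _).trans (Nat.add_le_add h1 k1),
    (natDegree_add_le _ _).trans (max_le h2 k2), ?_, by rw [map_add, h4, k4]⟩
  rw [eval_add]
  push_cast
  have e : (x : ℤ) + y - (P.eval (b : ℤ) + Q.eval (b : ℤ)) =
      (x - P.eval (b : ℤ)) + (y - Q.eval (b : ℤ)) := by ring
  rw [e]
  exact dvd_add h3 k3

theorem Rep.mul {L₁ L₂ n₁ n₂ x y : ℕ} {z w : ℝ} (h : Rep θ b m L₁ n₁ x z)
    (h' : Rep θ b m L₂ n₂ y w) : Rep θ b m (L₁ * L₂) (n₁ + n₂) (x * y) (z * w) := by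
  obtain ⟨P, h1, h2, h3, h4⟩ := h
  obtain ⟨Q, k1, k2, k3, k4⟩ := h'
  refine ⟨P * Q, (l1_mul_le _ _).trans (Nat.mul_le_mul h1 k1),
    natDegree_mul_le.trans (Nat.add_le_add h2 k2), ?_, by rw [map_mul, h4, k4]⟩
  rw [eval_mul]
  push_cast
  have : (x : ℤ) * y - P.eval (b : ℤ) * Q.eval (b : ℤ) =
      (x - P.eval (b : ℤ)) * y + P.eval (b : ℤ) * (y - Q.eval (b : ℤ)) := by ring
  rw [this]
  exact dvd_add (Dvd.dvd.mul_right h3 _) (Dvd.dvd.mul_left k3 _)

theorem Rep.mod {L n x : ℕ} {z : ℝ} (h : Rep θ b m L n x z) : Rep θ b m L n (x % m) z := by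
  obtain ⟨P, h1, h2, h3, h4⟩ := h
  refine ⟨P, h1, h2, ?_, h4⟩
  have h5 : ((x % m : ℕ) : ℤ) = (x : ℤ) - m * ((x / m : ℕ) : ℤ) := by
    have := Nat.mod_add_div x m
    push_cast
    have h6 : (x : ℤ) = (x : ℤ) % m + m * (x / m : ℤ) := by exact_mod_cast this.symm
    linarith
  rw [h5]
  have : (x : ℤ) - m * ((x / m : ℕ) : ℤ) - P.eval (b : ℤ) =
      (x - P.eval (b : ℤ)) - m * ((x / m : ℕ) : ℤ) := by ring
  rw [this]
  exact dvd_sub h3 (dvd_mul_right _ _)

/-- Equality test. -/
theorem Rep.eq_of_mod {f : ℤ[X]} (hf : f.Monic) (hfd : 0 < f.natDegree) (hθ : aeval θ f = 0)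
    (hm : (m : ℤ) = |f.eval (b : ℤ)|) {L₁ L₂ n x y : ℕ} {z w : ℝ}
    (h : Rep θ b m L₁ n x z) (h' : Rep θ b m L₂ n y w)
    (hb : (L₁ + L₂) * l1 f ^ (n + 1) + l1 f < b) (hxy : x % m = y % m) : z = w := by
  obtain ⟨P, h1, h2, h3, h4⟩ := h
  obtain ⟨Q, k1, k2, k3, k4⟩ := h'
  have hdvd : f.eval (b : ℤ) ∣ (P - Q).eval (b : ℤ) := by
    rw [← abs_dvd, ← hm, eval_sub]
    have hxy' : (m : ℤ) ∣ (x : ℤ) - y := by
      have := (Nat.modEq_iff_dvd (n := m) (a := y) (b := x)).1 hxy.symm
      exact this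
    have e : P.eval (b : ℤ) - Q.eval (b : ℤ) =
        ((x : ℤ) - y) - (x - P.eval (b : ℤ)) + (y - Q.eval (b : ℤ)) := by ring
    rw [e]
    exact dvd_add (dvd_sub hxy' h3) k3
  have hl : l1 (P - Q) ≤ L₁ + L₂ := (l1_sub_le _ _).trans (Nat.add_le_add h1 k1)
  have hd : (P - Q).natDegree < n + 1 :=
    Nat.lt_succ_of_le ((natDegree_sub_le _ _).trans (max_le h2 k2))
  have hfP := dvd_of_eval_dvd f hf hfd b (n + 1) (P - Q) hd
    (lt_of_le_of_lt (Nat.add_le_add_right (Nat.mul_le_mul_right _ hl) _) hb) hdvd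
  obtain ⟨R, hR⟩ := hfP
  have : aeval θ (P - Q) = 0 := by rw [hR, map_mul, hθ, zero_mul]
  rw [map_sub, h4, k4] at this
  exact sub_eq_zero.1 this

/-- A list representing the first `N` values of a function. -/
def RepL (θ : ℝ) (b m L n : ℕ) (xs : List ℕ) (N : ℕ) (a : ℕ → ℝ) : Prop :=
  xs.length = N ∧ ∀ i < N, Rep θ b m L n (xs.getD i 0) (a i)

theorem RepL.ndot {L₁ L₂ n₁ n₂ : ℕ} {xs ys : List ℕ} {N : ℕ} {a c : ℕ → ℝ}
    (hx : RepL θ b m L₁ n₁ xs N a) (hy : RepL θ b m L₂ n₂ ys N c) :
    Rep θ b m (N * (L₁ * L₂)) (n₁ + n₂) (ndot xs ys) (∑ i ∈ Finset.range N, a i * c i) := by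
  obtain ⟨hxl, hx⟩ := hx
  obtain ⟨hyl, hy⟩ := hy
  induction xs generalizing ys N a c with
  | nil =>
    subst hxl
    simp only [List.length_nil, Finset.range_zero, Finset.sum_empty, ndot_nil]
    exact Rep.zero _ _
  | cons x xs ih =>
    cases ys with
    | nil => rw [List.length_nil] at hyl; rw [List.length_cons] at hxl; omega
    | cons y ys =>
      obtain ⟨N, rfl⟩ : ∃ N', N = N' + 1 := ⟨xs.length, by rw [← hxl]; rfl⟩
      rw [List.length_cons] at hxl hyl
      rw [ndot_cons_cons, Finset.sum_range_succ', add_comm (∑ k ∈ Finset.range N, _)]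
      have h0 : Rep θ b m (L₁ * L₂) (n₁ + n₂) (x * y) (a 0 * c 0) :=
        (hx 0 (by omega)).mul (hy 0 (by omega))
      have h1 := ih (ys := ys) (N := N) (a := fun i => a (i + 1)) (c := fun i => c (i + 1))
        (by omega) (fun i hi => hx (i + 1) (by omega)) (by omega)
        (fun i hi => hy (i + 1) (by omega))
      have := h0.add h1
      rw [show L₁ * L₂ + N * (L₁ * L₂) = (N + 1) * (L₁ * L₂) by ring] at this
      exact this

theorem RepL.of_map {L n : ℕ} {α : Type*} {l : List α} {N : ℕ} (hl : l.length = N)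
    {g : α → ℕ} {a : ℕ → ℝ} {d : α} (h : ∀ i < N, Rep θ b m L n (g (l.getD i d)) (a i)) :
    RepL θ b m L n (l.map g) N a := by
  refine ⟨by rw [List.length_map, hl], fun i hi => ?_⟩
  have hi' : i < l.length := by omega
  have := h i hi
  rw [List.getD_eq_getElem _ _ hi'] at this
  rw [List.getD_eq_getElem _ _ (by rw [List.length_map]; exact hi'), List.getElem_map]
  exact this

end

end Crest.Agent.R345
private theorem rz_8e1de0297e : type_of% @_root_.Crest.Agent.R345.evL.eq_def := @_root_.Crest.Agent.R345.evL.eq_def -- L14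
private theorem rz_529632d55a : type_of% @_root_.Crest.Agent.R345.evL.eq_1 := @_root_.Crest.Agent.R345.evL.eq_1 -- L14
private theorem rz_ab5c3d2cd7 : type_of% @_root_.Crest.Agent.R345.l1L.eq_def := @_root_.Crest.Agent.R345.l1L.eq_def -- L29
private theorem rz_eae4189815 : type_of% @_root_.Crest.Agent.R345.l1L.eq_1 := @_root_.Crest.Agent.R345.l1L.eq_1 -- L29
private theorem rz_912aece276 : type_of% @_root_.Crest.Agent.R345.pkI.eq_def := @_root_.Crest.Agent.R345.pkI.eq_def -- L24
private theorem rz_14681ae2fa : type_of% @_root_.Crest.Agent.R345.pkI.eq_1 := @_root_.Crest.Agent.R345.pkI.eq_1 -- L24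
private theorem rz_5cb54d1d71 : type_of% @_root_.Crest.Agent.R345.poL.eq_def := @_root_.Crest.Agent.R345.poL.eq_def -- L19
private theorem rz_40e9278edd : type_of% @_root_.Crest.Agent.R345.poL.eq_1 := @_root_.Crest.Agent.R345.poL.eq_1 -- L19
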