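import Crest.Agent.R345.InfraBasic
import Crest.Agent.R345.NFBasic
import Mathlib.LinearAlgebra.Matrix.Gershgorin
import Mathlib

-- ▼ part R345/InfraChoi
section

/-!
# Infrastructure for PPT maps (row 345), part 2

The map with a given Choi matrix, complete positivity and PPT from positive semidefinite Choi
matrices, the Choi matrix of a composition, and the range criterion.
-/

set_option autoImplicit false
set_option linter.unusedSectionVars false

namespace Crest.Agent.R345

open Crest.Quantum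
open scoped ComplexOrder Kronecker

section General

variable {d e f : Type*} [Fintype d] [Fintype e] [Fintype f]
  [DecidableEq d] [DecidableEq e] [DecidableEq f]

/-- The linear map with Choi matrix `C`. -/
def ofChoi (C : Matrix (d × e) (d × e) ℂ) : Matrix d d ℂ → Matrix e e ℂ :=
  fun X => Matrix.of fun i j => ∑ a, ∑ b, X a b * C (a, i) (b, j)

/-- Partial transposition in the second factor. -/
def ptrans (C : Matrix (d × e) (d × e) ℂ) : Matrix (d × e) (d × e) ℂ :=
  Matrix.of fun p q => C (p.1, q.2) (q.1, p.2)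

theorem ofChoi_isLinearMap (C : Matrix (d × e) (d × e) ℂ) : IsLinearMap ℂ (ofChoi C) := by
  constructor
  · intro X Y
    ext i j
    simp [ofChoi, add_mul, Finset.sum_add_distrib]
  · intro c X
    ext i j
    simp [ofChoi, Finset.mul_sum, mul_assoc]

theorem choiMatrix_ofChoi (C : Matrix (d × e) (d × e) ℂ) : choiMatrix (ofChoi C) = C := by
  ext ⟨a, i⟩ ⟨b, j⟩
  simp only [choiMatrix, ofChoi, Matrix.of_apply, Matrix.single_apply]
  rw [Finset.sum_eq_single a, Finset.sum_eq_single b]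
  · simp
  · intro y _ hy
    simp [Ne.symm hy]
  · simp
  · intro x _ hx
    simp [Ne.symm hx]
  · simp

theorem ofChoi_choiMatrix {Φ : Matrix d d ℂ → Matrix e e ℂ} (hΦ : IsLinearMap ℂ Φ) :
    ofChoi (choiMatrix Φ) = Φ := by
  funext X
  ext i j
  have hX : X = ∑ a, ∑ b, X a b • Matrix.single a b (1 : ℂ) := by
    conv_lhs => rw [Matrix.matrix_eq_sum_single X]
    simp [Matrix.smul_single]
  have h2 : Φ X = ∑ a, ∑ b, X a b • Φ (Matrix.single a b (1 : ℂ)) := by
    conv_lhs => rw [hX]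
    have h3 : ∀ (ι : Type _) (s : Finset ι) (F : ι → Matrix d d ℂ),
        Φ (∑ i ∈ s, F i) = ∑ i ∈ s, Φ (F i) := fun ι s F => map_sum (hΦ.mk' Φ) F s
    rw [h3]
    refine Finset.sum_congr rfl fun a _ => ?_
    rw [h3]
    refine Finset.sum_congr rfl fun b _ => ?_
    rw [hΦ.map_smul]
  rw [h2]
  simp [ofChoi, choiMatrix, Matrix.sum_apply]

/-- `id ⊗ ofChoi C` as a compression of a Kronecker product. -/
theorem blockwise_ofChoi {k : Type*} [Fintype k] [DecidableEq k] (C : Matrix (d × e) (d × e) ℂ)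
    (M : Matrix (k × d) (k × d) ℂ) :
    blockwise (k := k) (ofChoi C) M =
      (Matrix.of fun (p : (k × d) × (d × e)) (q : k × e) =>
        if p.1.1 = q.1 ∧ p.2.2 = q.2 ∧ p.1.2 = p.2.1 then (1 : ℂ) else 0).conjTranspose *
      (M ⊗ₖ C) *
      (Matrix.of fun (p : (k × d) × (d × e)) (q : k × e) =>
        if p.1.1 = q.1 ∧ p.2.2 = q.2 ∧ p.1.2 = p.2.1 then (1 : ℂ) else 0) := by
  ext ⟨s, i⟩ ⟨t, j⟩
  have key : ∀ (F : k → d → d → e → ℂ) (s : k) (i : e),
      (∑ x : k, ∑ y : d, ∑ z : d, ∑ w : e,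
        if (x = s ∧ w = i ∧ y = z) then F x y z w else 0) = ∑ y : d, F s y y i := by
    intro F s i
    rw [Finset.sum_eq_single s]
    · refine Finset.sum_congr rfl fun y _ => ?_
      rw [Finset.sum_eq_single y, Finset.sum_eq_single i]
      · simp
      · intro w _ hw
        simp [hw]
      · simp
      · intro z _ hz
        simp [Ne.symm hz]
      · simp
    · intro x _ hx
      simp [hx]
    · simp
  simp only [blockwise, block, ofChoi, Matrix.of_apply, Matrix.mul_apply,
    Matrix.conjTranspose_apply, Matrix.kroneckerMap_apply, Fintype.sum_prod_type]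
  simp only [mul_ite, mul_one, mul_zero]
  rw [key]
  have h2 : ∀ y : d, (∑ x : k, ∑ x_1 : d, ∑ x_2 : d, ∑ x_3 : e,
      star (if x = s ∧ x_3 = i ∧ x_1 = x_2 then (1 : ℂ) else 0) *
        (M (x, x_1) (t, y) * C (x_2, x_3) (y, j))) =
      ∑ a : d, M (s, a) (t, y) * C (a, i) (y, j) := by
    intro y
    rw [← key (fun x x_1 x_2 x_3 => M (x, x_1) (t, y) * C (x_2, x_3) (y, j)) s i]
    refine Finset.sum_congr rfl fun x _ => Finset.sum_congr rfl fun x1 _ =>
      Finset.sum_congr rfl fun x2 _ => Finset.sum_congr rfl fun x3 _ => ?_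
    split_ifs <;> simp
  rw [Finset.sum_comm]
  exact Finset.sum_congr rfl fun y _ => (h2 y).symm

theorem cp_ofChoi {C : Matrix (d × e) (d × e) ℂ} (hC : C.PosSemidef) :
    IsCompletelyPositive (ofChoi C) := by
  intro k M hM
  rw [blockwise_ofChoi]
  exact (hM.kronecker hC).conjTranspose_mul_mul_same _

theorem transpose_ofChoi (C : Matrix (d × e) (d × e) ℂ) :
    (fun M => (ofChoi C M).transpose) = ofChoi (ptrans C) := by
  funext M
  ext i j
  simp [ofChoi, ptrans]

/-- **PPT from the Choi matrix and its partial transpose.** -/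
theorem ppt_ofChoi {C : Matrix (d × e) (d × e) ℂ} (hC : C.PosSemidef)
    (hC' : (ptrans C).PosSemidef) : IsPPT (ofChoi C) := by
  refine ⟨cp_ofChoi hC, ?_⟩
  rw [transpose_ofChoi]
  exact cp_ofChoi hC'

theorem cp_of_choiMatrix {Φ : Matrix d d ℂ → Matrix e e ℂ} (hlin : IsLinearMap ℂ Φ)
    (h : (choiMatrix Φ).PosSemidef) : IsCompletelyPositive Φ := by
  rw [← ofChoi_choiMatrix hlin]
  exact cp_ofChoi h

theorem ppt_of_choiMatrix {Φ : Matrix d d ℂ → Matrix e e ℂ} (hlin : IsLinearMap ℂ Φ)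
    (h : (choiMatrix Φ).PosSemidef) (h' : (ptrans (choiMatrix Φ)).PosSemidef) : IsPPT Φ := by
  rw [← ofChoi_choiMatrix hlin]
  exact ppt_ofChoi h h'

/-- The Choi matrix of a composition (link product). -/
theorem choiMatrix_comp_ofChoi (C₂ : Matrix (e × f) (e × f) ℂ) (C₁ : Matrix (d × e) (d × e) ℂ)
    (p q : d × f) :
    choiMatrix (ofChoi C₂ ∘ ofChoi C₁) p q =
      ∑ x, ∑ y, C₁ (p.1, x) (q.1, y) * C₂ (x, p.2) (y, q.2) := by
  have h : ∀ x y, ofChoi C₁ (Matrix.single p.1 q.1 1) x y = C₁ (p.1, x) (q.1, y) := by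
    intro x y
    have := congrFun (congrFun (choiMatrix_ofChoi C₁) (p.1, x)) (q.1, y)
    simpa [choiMatrix] using this
  simp only [choiMatrix, Function.comp, Matrix.of_apply]
  simp only [ofChoi, Matrix.of_apply]
  refine Finset.sum_congr rfl fun x _ => Finset.sum_congr rfl fun y _ => ?_
  rw [← h x y]
  simp [ofChoi]

/-! ### Separability of the Choi matrix and the range criterion -/

/-- The Choi matrix is `id ⊗ Φ` applied to the (unnormalised) maximally entangled matrix. -/
theorem choiMatrix_eq_blockwise {n : ℕ} (Φ : Matrix (Fin n) (Fin n) ℂ → Matrix e e ℂ) :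
    choiMatrix Φ = blockwise (k := Fin n) Φ
      (Matrix.of fun p q : Fin n × Fin n => if p.1 = p.2 ∧ q.1 = q.2 then (1 : ℂ) else 0) := by
  ext ⟨s, i⟩ ⟨t, j⟩
  simp only [choiMatrix, blockwise, Matrix.of_apply]
  rfl

theorem maxEnt_posSemidef (n : ℕ) :
    (Matrix.of fun p q : Fin n × Fin n => if p.1 = p.2 ∧ q.1 = q.2 then (1 : ℂ) else 0).PosSemidef := by
  have h : (Matrix.of fun p q : Fin n × Fin n => if p.1 = p.2 ∧ q.1 = q.2 then (1 : ℂ) else 0) =
      Matrix.vecMulVec (fun p : Fin n × Fin n => if p.1 = p.2 then (1 : ℂ) else 0)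
        (star fun p : Fin n × Fin n => if p.1 = p.2 then (1 : ℂ) else 0) := by
    ext p q
    simp only [Matrix.of_apply, Matrix.vecMulVec_apply, Pi.star_apply]
    by_cases h1 : p.1 = p.2 <;> by_cases h2 : q.1 = q.2 <;> simp [h1, h2]
  rw [h]
  exact Matrix.posSemidef_vecMulVec_self_star _

/-- If `Φ` (with input system `Fin n`) is entanglement breaking, its Choi matrix is separable. -/
theorem separable_choiMatrix_of_eb {n : ℕ} {Φ : Matrix (Fin n) (Fin n) ℂ → Matrix e e ℂ}
    (hΦ : IsEntanglementBreaking Φ) : IsSeparable (choiMatrix Φ) := by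
  rw [choiMatrix_eq_blockwise]
  exact hΦ n _ (maxEnt_posSemidef n)

end General

end Crest.Agent.R345
end

-- ▼ part R345/InfraRange
section

/-!
# Infrastructure for PPT maps (row 345), part 3

The range criterion: if the Choi matrix of a map with input `Fin n` is nonzero and its range
contains no nonzero product vector, then the map is not entanglement breaking.  Also the
criterion by a block-positive witness.
-/

set_option autoImplicit false
set_option linter.unusedSectionVars false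

namespace Crest.Agent.R345

open Crest.Quantum
open scoped ComplexOrder Kronecker

section Range

variable {n : Type*} [Fintype n] [DecidableEq n]

/-- A Hermitian matrix solves `C y = w` as soon as `w` is orthogonal to its kernel. -/
theorem exists_mulVec_eq_of_orthogonal_ker {C : Matrix n n ℂ} (hC : C.IsHermitian) (w : n → ℂ)
    (h : ∀ z, C.mulVec z = 0 → star z ⬝ᵥ w = 0) : ∃ y, C.mulVec y = w := by
  have hsym : (Matrix.toEuclideanLin C).IsSymmetric := Matrix.isSymmetric_toEuclideanLin_iff.mpr hC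
  have hrange : (Matrix.toEuclideanLin C).range = (Matrix.toEuclideanLin C).kerᗮ := by
    rw [← hsym.orthogonal_range, Submodule.orthogonal_orthogonal]
  have hw : (WithLp.toLp 2 w : EuclideanSpace ℂ n) ∈ (Matrix.toEuclideanLin C).kerᗮ := by
    rw [Submodule.mem_orthogonal]
    intro u hu
    have hu' : C.mulVec (WithLp.ofLp u) = 0 := by
      have := congrArg WithLp.ofLp (LinearMap.mem_ker.mp hu)
      simpa [Matrix.toLpLin_apply] using this
    have := h _ hu'
    rw [EuclideanSpace.inner_eq_star_dotProduct]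
    rw [dotProduct_comm]
    exact this
  rw [← hrange] at hw
  obtain ⟨y, hy⟩ := hw
  refine ⟨WithLp.ofLp y, ?_⟩
  have := congrArg WithLp.ofLp hy
  simpa [Matrix.toLpLin_apply] using this

/-- For positive semidefinite summands, `P w ∈ range (∑ i, P i)`. -/
theorem exists_mulVec_sum_eq {ι : Type*} [Fintype ι] (P : ι → Matrix n n ℂ)
    (hP : ∀ i, (P i).PosSemidef) (i : ι) (w : n → ℂ) :
    ∃ y, (∑ j, P j).mulVec y = (P i).mulVec w := by
  have hsum : (∑ j, P j).PosSemidef := Matrix.posSemidef_sum _ fun j _ => hP j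
  refine exists_mulVec_eq_of_orthogonal_ker hsum.1 _ fun z hz => ?_
  have h0 : star z ⬝ᵥ (∑ j, P j).mulVec z = 0 := by rw [hz, dotProduct_zero]
  have h1 : ∑ j, star z ⬝ᵥ (P j).mulVec z = 0 := by
    rw [← h0, Matrix.sum_mulVec, dotProduct_sum]
  have h2 : star z ⬝ᵥ (P i).mulVec z = 0 := by
    have := (Finset.sum_eq_zero_iff_of_nonneg fun j _ => (hP j).dotProduct_mulVec_nonneg z).mp h1
    exact this i (Finset.mem_univ i)
  have h3 : (P i).mulVec z = 0 := ((hP i).dotProduct_mulVec_zero_iff z).mp h2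
  have h4 : Matrix.vecMul (star z) (P i) = 0 := by
    have := congrArg star h3
    rw [Matrix.star_mulVec, (hP i).1.eq, star_zero] at this
    exact this
  rw [Matrix.dotProduct_mulVec, h4, zero_dotProduct]

end Range

section Separable

variable {k d : Type*} [Fintype k] [Fintype d] [DecidableEq k] [DecidableEq d]

theorem kronecker_mulVec_prod (A : Matrix k k ℂ) (B : Matrix d d ℂ) (x : k → ℂ) (y : d → ℂ) :
    (A ⊗ₖ B).mulVec (fun p => x p.1 * y p.2) = fun p => A.mulVec x p.1 * B.mulVec y p.2 := by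
  funext p
  simp only [Matrix.mulVec, dotProduct, Matrix.kroneckerMap_apply, Fintype.sum_prod_type,
    Finset.sum_mul_sum]
  refine Finset.sum_congr rfl fun a _ => Finset.sum_congr rfl fun b _ => ?_
  ring

theorem exists_mulVec_ne_zero {A : Matrix k k ℂ} (hA : A ≠ 0) : ∃ x, A.mulVec x ≠ 0 := by
  by_contra hcon
  push Not at hcon
  apply hA
  ext i j
  have := congrFun (hcon (Pi.single j 1)) i
  simpa using this

/-- A nonzero separable matrix has a nonzero product vector in its range. -/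
theorem exists_product_of_separable {M : Matrix (k × d) (k × d) ℂ} (hM : IsSeparable M)
    (h0 : M ≠ 0) : ∃ u : k → ℂ, ∃ v : d → ℂ, u ≠ 0 ∧ v ≠ 0 ∧
      ∃ w, M.mulVec w = fun p => u p.1 * v p.2 := by
  obtain ⟨r, A, B, hA, hB, rfl⟩ := hM
  have : ∃ i, A i ⊗ₖ B i ≠ 0 := by
    by_contra hcon
    push Not at hcon
    exact h0 (Finset.sum_eq_zero fun i _ => hcon i)
  obtain ⟨i, hi⟩ := this
  have hAi : A i ≠ 0 := by
    rintro h
    exact hi (by rw [h, Matrix.zero_kronecker])
  have hBi : B i ≠ 0 := by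
    rintro h
    exact hi (by rw [h, Matrix.kronecker_zero])
  obtain ⟨x, hx⟩ := exists_mulVec_ne_zero hAi
  obtain ⟨y, hy⟩ := exists_mulVec_ne_zero hBi
  refine ⟨(A i).mulVec x, (B i).mulVec y, hx, hy, ?_⟩
  obtain ⟨w, hw⟩ := exists_mulVec_sum_eq (fun j => A j ⊗ₖ B j)
    (fun j => (hA j).kronecker (hB j)) i (fun p => x p.1 * y p.2)
  exact ⟨w, by rw [hw, kronecker_mulVec_prod]⟩

/-- **Range criterion.** -/
theorem not_separable_of_productFree {M : Matrix (k × d) (k × d) ℂ} (h0 : M ≠ 0)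
    (h : ∀ u : k → ℂ, ∀ v : d → ℂ, (∃ w, M.mulVec w = fun p => u p.1 * v p.2) → u = 0 ∨ v = 0) :
    ¬ IsSeparable M := by
  intro hM
  obtain ⟨u, v, hu, hv, hw⟩ := exists_product_of_separable hM h0
  rcases h u v hw with h | h
  · exact hu h
  · exact hv h

end Separable

/-- **Range criterion for maps.**  If the Choi matrix of `Φ` is nonzero and its range contains no
nonzero product vector then `Φ` is not entanglement breaking. -/
theorem not_eb_of_productFree {n : ℕ} {e : Type*} [Fintype e] [DecidableEq e]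
    {Φ : Matrix (Fin n) (Fin n) ℂ → Matrix e e ℂ} (h0 : choiMatrix Φ ≠ 0)
    (h : ∀ u : Fin n → ℂ, ∀ v : e → ℂ,
      (∃ w, (choiMatrix Φ).mulVec w = fun p => u p.1 * v p.2) → u = 0 ∨ v = 0) :
    ¬ IsEntanglementBreaking Φ := fun hΦ =>
  not_separable_of_productFree h0 h (separable_choiMatrix_of_eb hΦ)

section Witness

variable {k d : Type*} [Fintype k] [Fintype d] [DecidableEq k] [DecidableEq d]

/-- `W` is block positive: nonnegative on product vectors. -/
def BlockPositive (W : Matrix (k × d) (k × d) ℂ) : Prop :=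
  ∀ (u : k → ℂ) (v : d → ℂ),
    0 ≤ (star (fun p : k × d => u p.1 * v p.2) ⬝ᵥ W.mulVec (fun p : k × d => u p.1 * v p.2)).re

theorem posSemidef_eq_sum_vecMulVec {A : Matrix k k ℂ} (hA : A.PosSemidef) :
    ∃ x : k → k → ℂ, A = ∑ i, Matrix.vecMulVec (x i) (star (x i)) := by
  obtain ⟨B, rfl⟩ : ∃ B : Matrix k k ℂ, A = B.conjTranspose * B := by
    open scoped MatrixOrder in
    obtain ⟨B, hB⟩ := CStarAlgebra.nonneg_iff_eq_star_mul_self.mp hA.nonneg
    exact ⟨B, hB⟩
  refine ⟨fun i a => star (B i a), ?_⟩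
  ext a b
  simp [Matrix.mul_apply, Matrix.sum_apply, Matrix.vecMulVec_apply]

theorem trace_mul_vecMulVec (W : Matrix k k ℂ) (x : k → ℂ) :
    (W * Matrix.vecMulVec x (star x)).trace = star x ⬝ᵥ W.mulVec x := by
  rw [Matrix.mul_vecMulVec, Matrix.trace_vecMulVec, dotProduct_comm]

theorem re_trace_nonneg_of_separable {W M : Matrix (k × d) (k × d) ℂ} (hW : BlockPositive W)
    (hM : IsSeparable M) : 0 ≤ (W * M).trace.re := by
  obtain ⟨r, A, B, hA, hB, rfl⟩ := hM
  rw [Matrix.mul_sum, Matrix.trace_sum, Complex.re_sum]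
  refine Finset.sum_nonneg fun i _ => ?_
  obtain ⟨x, hx⟩ := posSemidef_eq_sum_vecMulVec (hA i)
  obtain ⟨y, hy⟩ := posSemidef_eq_sum_vecMulVec (hB i)
  have : A i ⊗ₖ B i = ∑ a, ∑ b, Matrix.vecMulVec (fun p : k × d => x a p.1 * y b p.2)
      (star fun p : k × d => x a p.1 * y b p.2) := by
    ext p q
    rw [hx, hy]
    simp only [Matrix.kroneckerMap_apply, Matrix.sum_apply, Matrix.vecMulVec_apply, Pi.star_apply,
      Finset.sum_mul_sum, star_mul']
    refine Finset.sum_congr rfl fun a _ => Finset.sum_congr rfl fun b _ => ?_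
    ring
  rw [this, Matrix.mul_sum, Matrix.trace_sum, Complex.re_sum]
  refine Finset.sum_nonneg fun a _ => ?_
  rw [Matrix.mul_sum, Matrix.trace_sum, Complex.re_sum]
  refine Finset.sum_nonneg fun b _ => ?_
  rw [trace_mul_vecMulVec]
  exact hW _ _

/-- **Witness criterion.** -/
theorem not_eb_of_witness {n : ℕ} {e : Type*} [Fintype e] [DecidableEq e]
    {Φ : Matrix (Fin n) (Fin n) ℂ → Matrix e e ℂ} {W : Matrix (Fin n × e) (Fin n × e) ℂ}
    (hW : BlockPositive W) (h : (W * choiMatrix Φ).trace.re < 0) :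
    ¬ IsEntanglementBreaking Φ := fun hΦ =>
  absurd (re_trace_nonneg_of_separable hW (separable_choiMatrix_of_eb hΦ)) (not_le.mpr h)

end Witness

end Crest.Agent.R345
end

-- ▼ part R345/InfraPad
section

/-!
# Infrastructure for PPT maps (row 345), part 4

Padding: a pair of PPT maps `M_a → M_b → M_c` whose composition has a nonzero Choi matrix with
product-free range gives such a pair on `M_10` (statement S0541).
-/

set_option autoImplicit false
set_option linter.unusedSectionVars false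

namespace Crest.Agent.R345

open Crest.Quantum
open scoped ComplexOrder Kronecker

section Embed

variable {a n : Type*} [Fintype a] [Fintype n] [DecidableEq a] [DecidableEq n]

/-- The isometry `e_i ↦ e_{g i}` attached to a map of index types. -/
def embMat (g : a → n) : Matrix n a ℂ := Matrix.of fun x i => if x = g i then (1 : ℂ) else 0

theorem embMat_conjTranspose_mul {g : a → n} (hg : Function.Injective g) :
    (embMat g).conjTranspose * embMat g = 1 := by
  ext i j
  simp only [embMat, Matrix.mul_apply, Matrix.conjTranspose_apply, Matrix.of_apply,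
    Matrix.one_apply]
  rw [Finset.sum_eq_single (g i)]
  · by_cases h : i = j
    · simp [h]
    · have : g i ≠ g j := fun h' => h (hg h')
      simp [h, this]
  · intro x _ hx
    simp [hx]
  · simp

theorem embMat_conjTranspose_mul_eq_zero {b : Type*} [Fintype b] [DecidableEq b]
    {g : a → n} {g' : b → n} (h : ∀ i j, g i ≠ g' j) :
    (embMat g).conjTranspose * embMat g' = 0 := by
  ext i j
  simp only [embMat, Matrix.mul_apply, Matrix.conjTranspose_apply, Matrix.of_apply,
    Matrix.zero_apply]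
  refine Finset.sum_eq_zero fun x _ => ?_
  by_cases h1 : x = g i
  · subst h1
    simp [h i j]
  · simp [h1]

theorem adMap_embMat_conjTranspose_apply (g : a → n) (X : Matrix n n ℂ) (i j : a) :
    adMap (embMat g).conjTranspose X i j = X (g i) (g j) := by
  simp only [adMap, embMat, Matrix.mul_apply, Matrix.conjTranspose_conjTranspose,
    Matrix.conjTranspose_apply, Matrix.of_apply]
  rw [Finset.sum_eq_single (g j), Finset.sum_eq_single (g i)]
  · simp
  · intro x _ hx
    simp [hx]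
  · simp
  · intro x _ hx
    simp [hx]
  · simp

theorem adMap_embMat_apply {g : a → n} (hg : Function.Injective g) (X : Matrix a a ℂ) (i j : a) :
    adMap (embMat g) X (g i) (g j) = X i j := by
  simp only [adMap, embMat, Matrix.mul_apply, Matrix.conjTranspose_apply, Matrix.of_apply]
  rw [Finset.sum_eq_single j, Finset.sum_eq_single i]
  · simp
  · intro x _ hx
    have : g i ≠ g x := fun h => hx (hg h).symm
    simp [this]
  · simp
  · intro x _ hx
    have : g j ≠ g x := fun h => hx (hg h).symm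
    simp [this]
  · simp

theorem adMap_embMat_apply_left {g : a → n} (X : Matrix a a ℂ) {x : n}
    (hx : ∀ i, x ≠ g i) (y : n) : adMap (embMat g) X x y = 0 := by
  simp only [adMap, embMat, Matrix.mul_apply, Matrix.conjTranspose_apply, Matrix.of_apply]
  refine Finset.sum_eq_zero fun j _ => ?_
  rw [Finset.sum_eq_zero fun i _ => by simp [hx i], zero_mul]

theorem adMap_embMat_apply_right {g : a → n} (X : Matrix a a ℂ) (x : n) {y : n}
    (hy : ∀ i, y ≠ g i) : adMap (embMat g) X x y = 0 := by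
  simp only [adMap, embMat, Matrix.mul_apply, Matrix.conjTranspose_apply, Matrix.of_apply]
  refine Finset.sum_eq_zero fun j _ => ?_
  simp [hy j]

end Embed

theorem isLinearMap_comp {U V W : Type*} [AddCommMonoid U] [Module ℂ U] [AddCommMonoid V]
    [Module ℂ V] [AddCommMonoid W] [Module ℂ W] {Φ : V → W} {Ψ : U → V}
    (hΦ : IsLinearMap ℂ Φ) (hΨ : IsLinearMap ℂ Ψ) : IsLinearMap ℂ (Φ ∘ Ψ) :=
  ⟨fun x y => by simp [Function.comp, hΨ.map_add, hΦ.map_add],
    fun c x => by simp [Function.comp, hΨ.map_smul, hΦ.map_smul]⟩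

section Pad

variable {a b n m : Type*} [Fintype a] [Fintype b] [Fintype n] [Fintype m]
  [DecidableEq a] [DecidableEq b] [DecidableEq n] [DecidableEq m]

/-- Pad a map `M_a → M_b` to a map `M_n → M_m`, through index maps `a → n` and `b → m`:
restrict the input to the corner `a` and put the output in the corner `b`. -/
def padMap (g : a → n) (h : b → m) (Φ : Matrix a a ℂ → Matrix b b ℂ) :
    Matrix n n ℂ → Matrix m m ℂ :=
  adMap (embMat h) ∘ Φ ∘ adMap (embMat g).conjTranspose

theorem padMap_isLinearMap (g : a → n) (h : b → m) {Φ : Matrix a a ℂ → Matrix b b ℂ}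
    (hΦ : IsLinearMap ℂ Φ) : IsLinearMap ℂ (padMap g h Φ) :=
  isLinearMap_comp (adMap_isLinearMap _) (isLinearMap_comp hΦ (adMap_isLinearMap _))

theorem padMap_ppt (g : a → n) (h : b → m) {Φ : Matrix a a ℂ → Matrix b b ℂ}
    (hΦ : IsPPT Φ) : IsPPT (padMap g h Φ) :=
  ppt_adMap_comp _ (ppt_comp_cp hΦ (cp_adMap _))

theorem adMap_conjTranspose_comp_adMap {g : a → n} (hg : Function.Injective g) :
    (adMap (embMat g).conjTranspose ∘ adMap (embMat g) : Matrix a a ℂ → Matrix a a ℂ) = id := by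
  funext X
  have h := embMat_conjTranspose_mul hg
  simp only [Function.comp, adMap, Matrix.conjTranspose_conjTranspose, id]
  calc (embMat g).conjTranspose * (embMat g * X * (embMat g).conjTranspose) * embMat g
      = ((embMat g).conjTranspose * embMat g) * X * ((embMat g).conjTranspose * embMat g) := by
        simp only [Matrix.mul_assoc]
    _ = X := by rw [h, Matrix.one_mul, Matrix.mul_one]

theorem padMap_comp {c l : Type*} [Fintype c] [Fintype l] [DecidableEq c] [DecidableEq l]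
    {g : a → n} {h : b → m} {k : c → l} (hh : Function.Injective h)
    (Φ₁ : Matrix a a ℂ → Matrix b b ℂ) (Φ₂ : Matrix b b ℂ → Matrix c c ℂ) :
    padMap h k Φ₂ ∘ padMap g h Φ₁ = padMap g k (Φ₂ ∘ Φ₁) := by
  have := adMap_conjTranspose_comp_adMap hh
  calc padMap h k Φ₂ ∘ padMap g h Φ₁
      = adMap (embMat k) ∘ Φ₂ ∘ (adMap (embMat h).conjTranspose ∘ adMap (embMat h)) ∘ Φ₁ ∘
          adMap (embMat g).conjTranspose := rfl
    _ = padMap g k (Φ₂ ∘ Φ₁) := by rw [this]; rfl

theorem map_zero_of_linear {Φ : Matrix a a ℂ → Matrix b b ℂ} (hΦ : IsLinearMap ℂ Φ) : Φ 0 = 0 := by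
  have := hΦ.map_smul 0 0
  simpa using this

/-- Choi matrix of the padded map on the corner. -/
theorem choiMatrix_padMap_apply {g : a → n} {h : b → m} (hg : Function.Injective g)
    (hh : Function.Injective h) (Φ : Matrix a a ℂ → Matrix b b ℂ) (i j : a) (x y : b) :
    choiMatrix (padMap g h Φ) (g i, h x) (g j, h y) = choiMatrix Φ (i, x) (j, y) := by
  simp only [choiMatrix, Matrix.of_apply, padMap, Function.comp]
  rw [adMap_embMat_apply hh]
  congr 2
  ext s t
  rw [adMap_embMat_conjTranspose_apply]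
  simp [Matrix.single_apply, hg.eq_iff]

theorem choiMatrix_padMap_eq_zero_left {g : a → n} {h : b → m}
    {Φ : Matrix a a ℂ → Matrix b b ℂ} (hΦ : IsLinearMap ℂ Φ) (p q : n × m)
    (hp : (∀ i, p.1 ≠ g i) ∨ (∀ i, p.2 ≠ h i)) :
    choiMatrix (padMap g h Φ) p q = 0 := by
  simp only [choiMatrix, Matrix.of_apply, padMap, Function.comp]
  rcases hp with hp | hp
  · have : adMap (embMat g).conjTranspose (Matrix.single p.1 q.1 (1 : ℂ)) = 0 := by
      ext s t
      rw [adMap_embMat_conjTranspose_apply]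
      simp [hp s]
    rw [this, map_zero_of_linear hΦ]
    simp [adMap]
  · exact adMap_embMat_apply_left _ hp _

theorem choiMatrix_padMap_eq_zero_right {g : a → n} {h : b → m}
    {Φ : Matrix a a ℂ → Matrix b b ℂ} (hΦ : IsLinearMap ℂ Φ) (p q : n × m)
    (hq : (∀ i, q.1 ≠ g i) ∨ (∀ i, q.2 ≠ h i)) :
    choiMatrix (padMap g h Φ) p q = 0 := by
  simp only [choiMatrix, Matrix.of_apply, padMap, Function.comp]
  rcases hq with hq | hq
  · have : adMap (embMat g).conjTranspose (Matrix.single p.1 q.1 (1 : ℂ)) = 0 := by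
      ext s t
      rw [adMap_embMat_conjTranspose_apply]
      simp [hq t]
    rw [this, map_zero_of_linear hΦ]
    simp [adMap]
  · exact adMap_embMat_apply_right _ _ hq

/-- Product-freeness of the range passes to the padded map. -/
theorem productFree_padMap {g : a → n} {h : b → m} (hg : Function.Injective g)
    (hh : Function.Injective h) {Φ : Matrix a a ℂ → Matrix b b ℂ} (hΦ : IsLinearMap ℂ Φ)
    (hfree : ∀ u : a → ℂ, ∀ v : b → ℂ,
      (∃ w, (choiMatrix Φ).mulVec w = fun p => u p.1 * v p.2) → u = 0 ∨ v = 0)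
    (u : n → ℂ) (v : m → ℂ)
    (hw : ∃ w, (choiMatrix (padMap g h Φ)).mulVec w = fun p => u p.1 * v p.2) :
    u = 0 ∨ v = 0 := by
  obtain ⟨w, hw⟩ := hw
  -- the product vector is supported on the corner
  have hsupp : ∀ p : n × m, ((∀ i, p.1 ≠ g i) ∨ (∀ i, p.2 ≠ h i)) → u p.1 * v p.2 = 0 := by
    intro p hp
    have h1 : (choiMatrix (padMap g h Φ)).mulVec w p = u p.1 * v p.2 := congrFun hw p
    rw [← h1]
    simp only [Matrix.mulVec, dotProduct]
    exact Finset.sum_eq_zero fun q _ => by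
      rw [choiMatrix_padMap_eq_zero_left hΦ p q hp, zero_mul]
  -- restricting to the corner
  have hcorner : (choiMatrix Φ).mulVec (fun q : a × b => w (g q.1, h q.2)) =
      fun p => u (g p.1) * v (h p.2) := by
    funext p
    have h1 : (choiMatrix (padMap g h Φ)).mulVec w (g p.1, h p.2) = u (g p.1) * v (h p.2) :=
      congrFun hw (g p.1, h p.2)
    rw [← h1]
    simp only [Matrix.mulVec, dotProduct]
    have hinj : Function.Injective fun q : a × b => (g q.1, h q.2) := by
      intro q q' hq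
      simp only [Prod.mk.injEq] at hq
      exact Prod.ext (hg hq.1) (hh hq.2)
    symm
    rw [← Finset.sum_subset (Finset.subset_univ (Finset.univ.image fun q : a × b => (g q.1, h q.2)))]
    · rw [Finset.sum_image fun x _ y _ hxy => hinj hxy]
      refine Finset.sum_congr rfl fun q _ => ?_
      rw [choiMatrix_padMap_apply hg hh]
    · intro q _ hq
      rw [choiMatrix_padMap_eq_zero_right hΦ _ q, zero_mul]
      by_contra hcon
      push Not at hcon
      obtain ⟨⟨i, hi⟩, ⟨j, hj⟩⟩ := hcon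
      exact hq (Finset.mem_image.mpr ⟨(i, j), Finset.mem_univ _, Prod.ext hi.symm hj.symm⟩)
  have hall : ∀ p : n × m, u p.1 * v p.2 = 0 := by
    intro p
    by_cases h1 : ∃ i, p.1 = g i
    · by_cases h2 : ∃ j, p.2 = h j
      · obtain ⟨i, hi⟩ := h1
        obtain ⟨j, hj⟩ := h2
        rcases hfree (fun i => u (g i)) (fun j => v (h j)) ⟨_, hcorner⟩ with h0 | h0
        · have := congrFun h0 i
          simp only [Pi.zero_apply] at this
          rw [hi, this, zero_mul]
        · have := congrFun h0 j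
          simp only [Pi.zero_apply] at this
          rw [hj, this, mul_zero]
      · push Not at h2
        exact hsupp p (Or.inr h2)
    · push Not at h1
      exact hsupp p (Or.inl h1)
  by_contra hcon
  push Not at hcon
  obtain ⟨x, hx⟩ := Function.ne_iff.mp hcon.1
  obtain ⟨y, hy⟩ := Function.ne_iff.mp hcon.2
  exact (mul_ne_zero hx hy) (hall (x, y))

theorem choiMatrix_padMap_ne_zero {g : a → n} {h : b → m} (hg : Function.Injective g)
    (hh : Function.Injective h) {Φ : Matrix a a ℂ → Matrix b b ℂ}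
    (h0 : choiMatrix Φ ≠ 0) : choiMatrix (padMap g h Φ) ≠ 0 := by
  intro hcon
  apply h0
  ext ⟨i, x⟩ ⟨j, y⟩
  rw [← choiMatrix_padMap_apply hg hh, hcon]
  rfl

end Pad

/-- **Padding lemma (S0541 from smaller systems).** -/
theorem s0541_of_pair {a b c : Type*} [Fintype a] [Fintype b] [Fintype c]
    [DecidableEq a] [DecidableEq b] [DecidableEq c]
    (ha : Fintype.card a ≤ 10) (hb : Fintype.card b ≤ 10) (hc : Fintype.card c ≤ 10)
    (Φ₁ : Matrix a a ℂ → Matrix b b ℂ) (Φ₂ : Matrix b b ℂ → Matrix c c ℂ)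
    (hl₁ : IsLinearMap ℂ Φ₁) (hl₂ : IsLinearMap ℂ Φ₂) (hp₁ : IsPPT Φ₁) (hp₂ : IsPPT Φ₂)
    (h0 : choiMatrix (Φ₂ ∘ Φ₁) ≠ 0)
    (hfree : ∀ u : a → ℂ, ∀ v : c → ℂ,
      (∃ w, (choiMatrix (Φ₂ ∘ Φ₁)).mulVec w = fun p => u p.1 * v p.2) → u = 0 ∨ v = 0) :
    ∃ Φ₁ Φ₂ : Matrix (Fin 10) (Fin 10) ℂ → Matrix (Fin 10) (Fin 10) ℂ,
      IsLinearMap ℂ Φ₁ ∧ IsLinearMap ℂ Φ₂ ∧ IsPPT Φ₁ ∧ IsPPT Φ₂ ∧
      choiMatrix (Φ₂ ∘ Φ₁) ≠ 0 ∧
      (∀ u v : Fin 10 → ℂ, (∃ w, (choiMatrix (Φ₂ ∘ Φ₁)).mulVec w = fun p => u p.1 * v p.2) →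
        u = 0 ∨ v = 0) ∧
      ¬ IsEntanglementBreaking (Φ₂ ∘ Φ₁) := by
  obtain ⟨ga, hga⟩ : ∃ g : a → Fin 10, Function.Injective g := by
    obtain ⟨g⟩ := (Function.Embedding.nonempty_iff_card_le (α := a) (β := Fin 10)).mpr (by simpa)
    exact ⟨g, g.injective⟩
  obtain ⟨gb, hgb⟩ : ∃ g : b → Fin 10, Function.Injective g := by
    obtain ⟨g⟩ := (Function.Embedding.nonempty_iff_card_le (α := b) (β := Fin 10)).mpr (by simpa)
    exact ⟨g, g.injective⟩
  obtain ⟨gc, hgc⟩ : ∃ g : c → Fin 10, Function.Injective g := by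
    obtain ⟨g⟩ := (Function.Embedding.nonempty_iff_card_le (α := c) (β := Fin 10)).mpr (by simpa)
    exact ⟨g, g.injective⟩
  have hcomp := padMap_comp (g := ga) (h := gb) (k := gc) hgb Φ₁ Φ₂
  have hl : IsLinearMap ℂ (Φ₂ ∘ Φ₁) := isLinearMap_comp hl₂ hl₁
  have hne : choiMatrix (padMap gb gc Φ₂ ∘ padMap ga gb Φ₁) ≠ 0 := by
    rw [hcomp]
    exact choiMatrix_padMap_ne_zero hga hgc h0
  have hfree' : ∀ u v : Fin 10 → ℂ,
      (∃ w, (choiMatrix (padMap gb gc Φ₂ ∘ padMap ga gb Φ₁)).mulVec w =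
        fun p => u p.1 * v p.2) → u = 0 ∨ v = 0 := by
    rw [hcomp]
    exact productFree_padMap hga hgc hl hfree
  exact ⟨padMap ga gb Φ₁, padMap gb gc Φ₂, padMap_isLinearMap _ _ hl₁, padMap_isLinearMap _ _ hl₂,
    padMap_ppt _ _ hp₁, padMap_ppt _ _ hp₂, hne, hfree', not_eb_of_productFree hne hfree'⟩

end Crest.Agent.R345
end

-- ▼ part R345/InfraChannel
section

/-!
# Infrastructure for PPT maps (row 345), part 5

From a pair of PPT maps on `M_10` whose composition is not entanglement breaking to a single PPT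
channel on `M_21 = M_(10+10+1)` whose square is not entanglement breaking (statement S0540).
-/

set_option autoImplicit false
set_option linter.unusedSectionVars false

namespace Crest.Agent.R345

open Crest.Quantum
open scoped ComplexOrder Kronecker

section Functional

variable {n : Type*} [Fintype n] [DecidableEq n]

/-- A positive semidefinite matrix is bounded by its trace. -/
theorem trace_smul_one_sub_posSemidef {P : Matrix n n ℂ} (hP : P.PosSemidef) :
    (P.trace • (1 : Matrix n n ℂ) - P).PosSemidef := by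
  have hPh := hP.1
  have htr : P.trace = ((∑ i, hPh.eigenvalues i : ℝ) : ℂ) := by
    rw [hPh.trace_eq_sum_eigenvalues]
    simp
  -- diagonalise
  have hspec := hPh.spectral_theorem
  set U := (hPh.eigenvectorUnitary : Matrix n n ℂ) with hU
  have hUU : U * star U = 1 := (Matrix.mem_unitaryGroup_iff).mp hPh.eigenvectorUnitary.2
  have hP' : P = U * Matrix.diagonal (RCLike.ofReal ∘ hPh.eigenvalues) * star U := by
    conv_lhs => rw [hspec]
    rfl
  have h1 : P.trace • (1 : Matrix n n ℂ) - P =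
      U * Matrix.diagonal (fun i => ((∑ j, hPh.eigenvalues j - hPh.eigenvalues i : ℝ) : ℂ)) *
        U.conjTranspose := by
    have h2 : Matrix.diagonal (fun i => ((∑ j, hPh.eigenvalues j - hPh.eigenvalues i : ℝ) : ℂ)) =
        P.trace • (1 : Matrix n n ℂ) - Matrix.diagonal (RCLike.ofReal ∘ hPh.eigenvalues) := by
      ext i j
      by_cases hij : i = j
      · subst hij
        simp [htr]
      · simp [hij]
    rw [h2, Matrix.mul_sub, Matrix.sub_mul]
    congr 1
    rw [Matrix.mul_smul, Matrix.mul_one, Matrix.smul_mul]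
    congr 1
    exact hUU.symm
  rw [h1]
  refine Matrix.PosSemidef.mul_mul_conjTranspose_same ?_ _
  refine Matrix.PosSemidef.diagonal fun i => ?_
  have : 0 ≤ ∑ j, hPh.eigenvalues j - hPh.eigenvalues i := by
    rw [sub_nonneg]
    exact Finset.single_le_sum (f := hPh.eigenvalues) (fun j _ => hP.eigenvalues_nonneg j)
      (Finset.mem_univ i)
  simpa using (Complex.zero_le_real.mpr this)

end Functional

section Completion

variable {n : Type*} [Fintype n] [DecidableEq n]

/-- The trace of the block of the Choi matrix. -/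
def trMat (Θ : Matrix n n ℂ → Matrix n n ℂ) : Matrix n n ℂ :=
  Matrix.of fun a b => (Θ (Matrix.single a b 1)).trace

theorem trMat_posSemidef {m : ℕ} {Θ : Matrix (Fin m) (Fin m) ℂ → Matrix (Fin m) (Fin m) ℂ}
    (hΘ : IsCompletelyPositive Θ) : (trMat Θ).PosSemidef := by
  have hC : (choiMatrix Θ).PosSemidef := by
    rw [choiMatrix_eq_blockwise]
    exact hΘ m _ (maxEnt_posSemidef m)
  have : trMat Θ = ∑ i, (choiMatrix Θ).submatrix (fun a => (a, i)) (fun a => (a, i)) := by
    ext a b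
    simp [trMat, Matrix.sum_apply, Matrix.trace, choiMatrix]
  rw [this]
  exact Matrix.posSemidef_sum _ fun i _ => hC.submatrix _

/-- `X ↦ ε Θ(X) + (Tr X - ε Tr Θ(X)) E_zz`. -/
noncomputable def completion (ε : ℝ) (z : n) (Θ : Matrix n n ℂ → Matrix n n ℂ) :
    Matrix n n ℂ → Matrix n n ℂ :=
  fun X => (ε : ℂ) • Θ X + (X.trace - (ε : ℂ) * (Θ X).trace) • Matrix.single z z (1 : ℂ)

theorem completion_isLinearMap (ε : ℝ) (z : n) {Θ : Matrix n n ℂ → Matrix n n ℂ}
    (hΘ : IsLinearMap ℂ Θ) : IsLinearMap ℂ (completion ε z Θ) := by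
  constructor
  · intro X Y
    simp only [completion, hΘ.map_add, Matrix.trace_add, smul_add]
    module
  · intro c X
    simp only [completion, hΘ.map_smul, Matrix.trace_smul, smul_eq_mul]
    module

theorem completion_trace (ε : ℝ) (z : n) (Θ : Matrix n n ℂ → Matrix n n ℂ) :
    IsTracePreserving (completion ε z Θ) := by
  intro X
  simp [completion, Matrix.trace_add, Matrix.trace_smul]

theorem exists_completion {m : ℕ} (z : Fin m)
    {Θ : Matrix (Fin m) (Fin m) ℂ → Matrix (Fin m) (Fin m) ℂ}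
    (hlin : IsLinearMap ℂ Θ) (hppt : IsPPT Θ) :
    ∃ ε : ℝ, 0 < ε ∧ IsChannel (completion ε z Θ) ∧ IsPPT (completion ε z Θ) := by
  have hQ := trMat_posSemidef hppt.1
  have hc0 : 0 ≤ (trMat Θ).trace := hQ.trace_nonneg
  obtain ⟨c, hc⟩ : ∃ c : ℝ, (trMat Θ).trace = (c : ℂ) := ⟨_, (Complex.eq_re_of_ofReal_le hc0)⟩
  have hc' : 0 ≤ c := by
    rw [hc] at hc0
    exact_mod_cast hc0
  set ε : ℝ := 1 / (c + 1) with hε
  have hεpos : 0 < ε := by positivity
  -- the functional part
  let τ : Matrix (Fin m) (Fin m) ℂ → Matrix (Fin m) (Fin m) ℂ := fun X =>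
    (X.trace - (ε : ℂ) * (Θ X).trace) • Matrix.single z z (1 : ℂ)
  have hτlin : IsLinearMap ℂ τ := by
    constructor
    · intro X Y
      simp only [τ, hlin.map_add, Matrix.trace_add]
      module
    · intro c X
      simp only [τ, hlin.map_smul, Matrix.trace_smul, smul_eq_mul]
      module
  have hD : ((1 : Matrix (Fin m) (Fin m) ℂ) - (ε : ℂ) • trMat Θ).PosSemidef := by
    have h1 := (trace_smul_one_sub_posSemidef hQ).smul
      (show (0 : ℂ) ≤ ((ε : ℝ) : ℂ) by exact_mod_cast hεpos.le)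
    have h2 : (0 : ℂ) ≤ ((1 - ε * c : ℝ) : ℂ) := by
      have : 0 ≤ 1 - ε * c := by
        have : 1 - ε * c = ε := by
          rw [hε]
          field_simp
          ring
        rw [this]
        exact hεpos.le
      exact_mod_cast this
    have h3 := (Matrix.PosSemidef.one (n := Fin m) (R := ℂ)).smul h2
    have h4 := h1.add h3
    have h5 : (1 : Matrix (Fin m) (Fin m) ℂ) - (ε : ℂ) • trMat Θ =
        ((ε : ℝ) : ℂ) • ((trMat Θ).trace • (1 : Matrix (Fin m) (Fin m) ℂ) - trMat Θ) +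
          ((1 - ε * c : ℝ) : ℂ) • (1 : Matrix (Fin m) (Fin m) ℂ) := by
      rw [hc]
      push_cast
      module
    rw [h5]
    exact h4
  have hchoi : choiMatrix τ =
      ((1 : Matrix (Fin m) (Fin m) ℂ) - (ε : ℂ) • trMat Θ) ⊗ₖ Matrix.single z z (1 : ℂ) := by
    ext ⟨a, i⟩ ⟨b, j⟩
    simp only [choiMatrix, τ, Matrix.of_apply, Matrix.smul_apply, Matrix.kroneckerMap_apply,
      Matrix.sub_apply, trMat, smul_eq_mul]
    congr 2
    by_cases hab : a = b
    · subst hab
      simp
    · simp [hab, Matrix.trace_single_eq_of_ne]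
  have hE : (Matrix.single z z (1 : ℂ)).PosSemidef := by
    have : Matrix.single z z (1 : ℂ) =
        Matrix.diagonal (fun i => if i = z then (1 : ℂ) else 0) := by
      ext i j
      by_cases hij : i = j
      · subst hij
        by_cases hiz : i = z
        · subst hiz; simp
        · simp [hiz, Ne.symm hiz]
      · by_cases hiz : z = i
        · subst hiz
          simp [hij]
        · simp [hiz, hij]
    rw [this]
    refine Matrix.PosSemidef.diagonal fun i => ?_
    by_cases hiz : i = z <;> simp [hiz]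
  have hτcp : IsCompletelyPositive τ := by
    refine cp_of_choiMatrix hτlin ?_
    rw [hchoi]
    exact hD.kronecker hE
  have hτppt : IsPPT τ := by
    refine ⟨hτcp, ?_⟩
    have : (fun M => (τ M).transpose) = τ := by
      funext M
      simp [τ]
    rw [this]
    exact hτcp
  have hppt' : IsPPT (completion ε z Θ) := ppt_add (ppt_smul hppt hεpos.le) hτppt
  exact ⟨ε, hεpos, ⟨completion_isLinearMap ε z hlin, hppt'.1, completion_trace ε z Θ⟩, hppt'⟩

end Completion

theorem eb_smul {d e : Type*} [Fintype d] [Fintype e] [DecidableEq d] [DecidableEq e]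
    {Φ : Matrix d d ℂ → Matrix e e ℂ} (hΦ : IsEntanglementBreaking Φ) {c : ℝ} (hc : 0 ≤ c) :
    IsEntanglementBreaking (fun X => (c : ℂ) • Φ X) := by
  have := eb_postcomp (Φ := Φ) (Ψ := fun X : Matrix e e ℂ => (c : ℂ) • X)
    ⟨fun X Y => by simp, fun a X => by simp [smul_comm a]⟩
    (fun X hX => hX.smul (by exact_mod_cast hc)) hΦ
  exact this

/-- **S0540 from a pair of PPT maps on `M_10` with a composition that is not entanglement
breaking.** -/
theorem s0540_of_pair (Φ₁ Φ₂ : Matrix (Fin 10) (Fin 10) ℂ → Matrix (Fin 10) (Fin 10) ℂ)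
    (hl₁ : IsLinearMap ℂ Φ₁) (hl₂ : IsLinearMap ℂ Φ₂) (hp₁ : IsPPT Φ₁) (hp₂ : IsPPT Φ₂)
    (hne : ¬ IsEntanglementBreaking (Φ₂ ∘ Φ₁)) :
    ∃ Θ : Matrix (Fin 21) (Fin 21) ℂ → Matrix (Fin 21) (Fin 21) ℂ,
      IsChannel Θ ∧ IsPPT Θ ∧ ¬ IsEntanglementBreaking (Θ ∘ Θ) := by
  let e₁ : Fin 10 → Fin 21 := fun i => ⟨i.1, by omega⟩
  let e₂ : Fin 10 → Fin 21 := fun i => ⟨i.1 + 10, by omega⟩
  let z : Fin 21 := ⟨20, by omega⟩
  have he₁ : Function.Injective e₁ := fun i j h => by
    have := congrArg Fin.val h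
    simp only [e₁] at this
    exact Fin.ext this
  have he₂ : Function.Injective e₂ := fun i j h => by
    have := congrArg Fin.val h
    simp only [e₂] at this
    exact Fin.ext (by omega)
  have he₁₂ : ∀ i j, e₁ i ≠ e₂ j := fun i j h => by
    have := congrArg Fin.val h
    simp only [e₁, e₂] at this
    omega
  have he₁z : ∀ i, z ≠ e₁ i := fun i h => by
    have := congrArg Fin.val h
    simp only [e₁, z] at this
    omega
  have he₂z : ∀ i, z ≠ e₂ i := fun i h => by
    have := congrArg Fin.val h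
    simp only [e₂, z] at this
    omega
  let Θ₀ : Matrix (Fin 21) (Fin 21) ℂ → Matrix (Fin 21) (Fin 21) ℂ := fun X =>
    padMap e₂ e₁ Φ₂ X + padMap e₁ e₂ Φ₁ X
  have hlin₀ : IsLinearMap ℂ Θ₀ := by
    have h1 := padMap_isLinearMap e₂ e₁ hl₂
    have h2 := padMap_isLinearMap e₁ e₂ hl₁
    constructor
    · intro X Y
      simp only [Θ₀, h1.map_add, h2.map_add]
      abel
    · intro c X
      simp only [Θ₀, h1.map_smul, h2.map_smul, smul_add]
  have hppt₀ : IsPPT Θ₀ := ppt_add (padMap_ppt _ _ hp₂) (padMap_ppt _ _ hp₁)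
  obtain ⟨ε, hε, hchan, hppt⟩ := exists_completion z hlin₀ hppt₀
  refine ⟨completion ε z Θ₀, hchan, hppt, fun hEB => hne ?_⟩
  -- the corners of the completed map
  have c11 : ∀ Y : Matrix (Fin 10) (Fin 10) ℂ,
      adMap (embMat e₁).conjTranspose (adMap (embMat e₁) Y) = Y := fun Y =>
    congrFun (adMap_conjTranspose_comp_adMap he₁) Y
  have c22 : ∀ Y : Matrix (Fin 10) (Fin 10) ℂ,
      adMap (embMat e₂).conjTranspose (adMap (embMat e₂) Y) = Y := fun Y =>
    congrFun (adMap_conjTranspose_comp_adMap he₂) Y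
  have c12 : ∀ Y : Matrix (Fin 10) (Fin 10) ℂ,
      adMap (embMat e₁).conjTranspose (adMap (embMat e₂) Y) = 0 := fun Y => by
    ext i j
    rw [adMap_embMat_conjTranspose_apply, adMap_embMat_apply_left _ (he₁₂ i)]
    rfl
  have c21 : ∀ Y : Matrix (Fin 10) (Fin 10) ℂ,
      adMap (embMat e₂).conjTranspose (adMap (embMat e₁) Y) = 0 := fun Y => by
    ext i j
    rw [adMap_embMat_conjTranspose_apply, adMap_embMat_apply_left _ (fun k => (he₁₂ k i).symm)]
    rfl
  have cz1 : adMap (embMat e₁).conjTranspose (Matrix.single z z (1 : ℂ)) = 0 := by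
    ext i j
    rw [adMap_embMat_conjTranspose_apply]
    simp [he₁z i]
  have cz2 : adMap (embMat e₂).conjTranspose (Matrix.single z z (1 : ℂ)) = 0 := by
    ext i j
    rw [adMap_embMat_conjTranspose_apply]
    simp [he₂z i]
  have l1 := adMap_isLinearMap (embMat e₁).conjTranspose
  have l2 := adMap_isLinearMap (embMat e₂).conjTranspose
  have r1 : ∀ X, adMap (embMat e₁).conjTranspose (completion ε z Θ₀ X) =
      (ε : ℂ) • Φ₂ (adMap (embMat e₂).conjTranspose X) := by
    intro X
    simp only [completion, Θ₀, l1.map_add, l1.map_smul, padMap, Function.comp, c11, c12, cz1]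
    simp
  have r2 : ∀ X, adMap (embMat e₂).conjTranspose (completion ε z Θ₀ X) =
      (ε : ℂ) • Φ₁ (adMap (embMat e₁).conjTranspose X) := by
    intro X
    simp only [completion, Θ₀, l2.map_add, l2.map_smul, padMap, Function.comp, c22, c21, cz2]
    simp
  have hEB2 := eb_adMap_comp (embMat e₁).conjTranspose (eb_comp_cp hEB (cp_adMap (embMat e₁)))
  have heq : (adMap (embMat e₁).conjTranspose ∘ (completion ε z Θ₀ ∘ completion ε z Θ₀) ∘
      adMap (embMat e₁)) = fun Y => ((ε * ε : ℝ) : ℂ) • (Φ₂ ∘ Φ₁) Y := by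
    funext Y
    simp only [Function.comp]
    rw [r1, r2, c11, hl₂.map_smul, smul_smul]
    push_cast
    rfl
  rw [heq] at hEB2
  have hfin := eb_smul hEB2 (c := (ε * ε)⁻¹) (by positivity)
  have : (fun X => (((ε * ε)⁻¹ : ℝ) : ℂ) • ((fun Y => ((ε * ε : ℝ) : ℂ) • (Φ₂ ∘ Φ₁) Y) X)) =
      Φ₂ ∘ Φ₁ := by
    funext X
    have h0 : (((ε * ε)⁻¹ : ℝ) : ℂ) * ((ε * ε : ℝ) : ℂ) = 1 := by
      rw [← Complex.ofReal_mul, inv_mul_cancel₀ (by positivity)]
      simp
    simp only [smul_smul, h0, one_smul]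
  rw [this] at hfin
  exact hfin

end Crest.Agent.R345
end

-- ▼ part R345/InfraMain
section

/-!
# Infrastructure for PPT maps (row 345), part 6: summary statements

`S541Data a b c` is the data needed for both statements of row 345: two linear PPT maps
`M_a → M_b → M_c` with index types of cardinality at most `10` whose composition has a nonzero
Choi matrix with product-free range.
-/

set_option autoImplicit false
set_option linter.unusedSectionVars false

namespace Crest.Agent.R345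

open Crest.Quantum
open scoped ComplexOrder Kronecker

/-- The conclusion of S0541. -/
def Concl541 : Prop :=
  ∃ Φ₁ Φ₂ : Matrix (Fin 10) (Fin 10) ℂ → Matrix (Fin 10) (Fin 10) ℂ,
    IsLinearMap ℂ Φ₁ ∧ IsLinearMap ℂ Φ₂ ∧ IsPPT Φ₁ ∧ IsPPT Φ₂ ∧
    choiMatrix (Φ₂ ∘ Φ₁) ≠ 0 ∧
    (∀ u v : Fin 10 → ℂ, (∃ w, (choiMatrix (Φ₂ ∘ Φ₁)).mulVec w = fun p => u p.1 * v p.2) →
      u = 0 ∨ v = 0) ∧
    ¬ IsEntanglementBreaking (Φ₂ ∘ Φ₁)

/-- The conclusion of S0540. -/
def Concl540 : Prop :=
  ∃ Θ : Matrix (Fin 21) (Fin 21) ℂ → Matrix (Fin 21) (Fin 21) ℂ,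
    IsChannel Θ ∧ IsPPT Θ ∧ ¬ IsEntanglementBreaking (Θ ∘ Θ)

/-- S0541 implies S0540. -/
theorem concl540_of_concl541 (h : Concl541) : Concl540 := by
  obtain ⟨Φ₁, Φ₂, hl₁, hl₂, hp₁, hp₂, -, -, hne⟩ := h
  exact s0540_of_pair Φ₁ Φ₂ hl₁ hl₂ hp₁ hp₂ hne

section Main

variable {a b c : Type*} [Fintype a] [Fintype b] [Fintype c]
  [DecidableEq a] [DecidableEq b] [DecidableEq c]

/-- Both statements from a pair of PPT maps on small systems. -/
theorem concl541_of_maps
    (ha : Fintype.card a ≤ 10) (hb : Fintype.card b ≤ 10) (hc : Fintype.card c ≤ 10)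
    (Φ₁ : Matrix a a ℂ → Matrix b b ℂ) (Φ₂ : Matrix b b ℂ → Matrix c c ℂ)
    (hl₁ : IsLinearMap ℂ Φ₁) (hl₂ : IsLinearMap ℂ Φ₂) (hp₁ : IsPPT Φ₁) (hp₂ : IsPPT Φ₂)
    (h0 : choiMatrix (Φ₂ ∘ Φ₁) ≠ 0)
    (hfree : ∀ u : a → ℂ, ∀ v : c → ℂ,
      (∃ w, (choiMatrix (Φ₂ ∘ Φ₁)).mulVec w = fun p => u p.1 * v p.2) → u = 0 ∨ v = 0) :
    Concl541 :=
  s0541_of_pair ha hb hc Φ₁ Φ₂ hl₁ hl₂ hp₁ hp₂ h0 hfree

/-- The range of a Hermitian matrix is orthogonal to its kernel: product-freeness of the range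
follows from product-freeness of the orthogonal complement of a family of kernel vectors. -/
theorem productFree_of_kernel {ι : Type*} {C : Matrix (a × c) (a × c) ℂ} (hC : C.IsHermitian)
    (r : ι → a × c → ℂ) (hr : ∀ j, C.mulVec (r j) = 0)
    (h : ∀ u : a → ℂ, ∀ v : c → ℂ,
      (∀ j, star (r j) ⬝ᵥ (fun p : a × c => u p.1 * v p.2) = 0) → u = 0 ∨ v = 0)
    (u : a → ℂ) (v : c → ℂ) (hw : ∃ w, C.mulVec w = fun p => u p.1 * v p.2) : u = 0 ∨ v = 0 := by
  obtain ⟨w, hw⟩ := hw
  refine h u v fun j => ?_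
  rw [← hw, Matrix.dotProduct_mulVec]
  have : Matrix.vecMul (star (r j)) C = 0 := by
    have := congrArg star (hr j)
    rw [Matrix.star_mulVec, hC.eq, star_zero] at this
    exact this
  rw [this, zero_dotProduct]

/-- The pair given by two Choi matrices `C₁` (on `a × b`) and `C₂` (on `b × c`).  The composed
Choi matrix is the link product
`C (a, c) (a', c') = ∑ x y, C₁ (a, x) (a', y) * C₂ (x, c) (y, c')`. -/
theorem concl541_of_choi
    (ha : Fintype.card a ≤ 10) (hb : Fintype.card b ≤ 10) (hc : Fintype.card c ≤ 10)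
    (C₁ : Matrix (a × b) (a × b) ℂ) (C₂ : Matrix (b × c) (b × c) ℂ)
    (h₁ : C₁.PosSemidef) (h₁' : (ptrans C₁).PosSemidef)
    (h₂ : C₂.PosSemidef) (h₂' : (ptrans C₂).PosSemidef)
    (h0 : (Matrix.of fun p q : a × c => ∑ x, ∑ y, C₁ (p.1, x) (q.1, y) * C₂ (x, p.2) (y, q.2)) ≠ 0)
    (hfree : ∀ u : a → ℂ, ∀ v : c → ℂ,
      (∃ w, (Matrix.of fun p q : a × c =>
        ∑ x, ∑ y, C₁ (p.1, x) (q.1, y) * C₂ (x, p.2) (y, q.2)).mulVec w =
          fun p => u p.1 * v p.2) → u = 0 ∨ v = 0) :
    Concl541 := by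
  have hchoi : choiMatrix (ofChoi C₂ ∘ ofChoi C₁) =
      Matrix.of fun p q : a × c => ∑ x, ∑ y, C₁ (p.1, x) (q.1, y) * C₂ (x, p.2) (y, q.2) := by
    ext p q
    rw [choiMatrix_comp_ofChoi]
    rfl
  refine concl541_of_maps ha hb hc (ofChoi C₁) (ofChoi C₂) (ofChoi_isLinearMap _)
    (ofChoi_isLinearMap _) (ppt_ofChoi h₁ h₁') (ppt_ofChoi h₂ h₂') ?_ ?_
  · rw [hchoi]; exact h0
  · rw [hchoi]; exact hfree

end Main

end Crest.Agent.R345
end

-- ▼ part R345/Gram
section

/-!
# Pairs given by weighted Kraus data with transposition invariance (row 345)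
-/

set_option autoImplicit false
set_option linter.unusedSectionVars false

namespace Crest.Agent.R345

open Crest.Quantum
open scoped ComplexOrder Kronecker

section Gram

variable {a b c : Type*} [Fintype a] [Fintype b] [Fintype c]
  [DecidableEq a] [DecidableEq b] [DecidableEq c]

/-- The Choi matrix `∑ k, d k |V k⟩⟨V k|`. -/
noncomputable def gramChoi {κ : Type*} [Fintype κ] (d : κ → ℝ) (V : κ → a → b → ℂ) :
    Matrix (a × b) (a × b) ℂ :=
  Matrix.of fun p q => ∑ k, (d k : ℂ) * V k p.1 p.2 * star (V k q.1 q.2)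

theorem gramChoi_posSemidef {κ : Type*} [Fintype κ] (d : κ → ℝ) (hd : ∀ k, 0 ≤ d k)
    (V : κ → a → b → ℂ) : (gramChoi d V).PosSemidef := by
  have h : gramChoi d V = ∑ k, (d k : ℂ) •
      Matrix.vecMulVec (fun p : a × b => V k p.1 p.2) (star fun p : a × b => V k p.1 p.2) := by
    ext p q
    rw [Matrix.sum_apply]
    simp only [gramChoi, Matrix.of_apply, Matrix.smul_apply, Matrix.vecMulVec_apply, smul_eq_mul,
      Pi.star_apply]
    exact Finset.sum_congr rfl fun k _ => by ring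
  rw [h]
  refine Matrix.posSemidef_sum _ fun k _ => ?_
  refine (Matrix.posSemidef_vecMulVec_self_star _).smul ?_
  exact_mod_cast hd k

/-- Invariance under transposition of the output factor. -/
theorem ptrans_gramChoi_right {κ : Type*} [Fintype κ] (d : κ → ℝ) (V : κ → a → b → ℂ)
    (hT : ∀ x y i j, ∑ k, (d k : ℂ) * V k x i * star (V k y j) =
      ∑ k, (d k : ℂ) * V k x j * star (V k y i)) :
    ptrans (gramChoi d V) = gramChoi d V := by
  ext p q
  simp only [ptrans, gramChoi, Matrix.of_apply]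
  exact (hT p.1 q.1 p.2 q.2).symm

/-- Invariance under transposition of the input factor. -/
theorem ptrans_gramChoi_left {κ : Type*} [Fintype κ] (d : κ → ℝ) (V : κ → a → b → ℂ)
    (hT : ∀ i j x y, ∑ k, (d k : ℂ) * V k i x * star (V k j y) =
      ∑ k, (d k : ℂ) * V k j x * star (V k i y)) :
    ptrans (gramChoi d V) = (gramChoi d V).transpose := by
  ext p q
  simp only [ptrans, gramChoi, Matrix.of_apply, Matrix.transpose_apply]
  exact hT p.1 q.1 q.2 p.2

variable {κ₁ κ₂ : Type*} [Fintype κ₁] [Fintype κ₂]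

/-- The link product of two Gram-Choi matrices. -/
theorem link_gramChoi (d₁ : κ₁ → ℝ) (V : κ₁ → a → b → ℂ) (d₂ : κ₂ → ℝ) (W : κ₂ → b → c → ℂ)
    (p q : a × c) :
    ∑ x, ∑ y, gramChoi d₁ V (p.1, x) (q.1, y) * gramChoi d₂ W (x, p.2) (y, q.2) =
      ∑ k, ∑ l, (d₁ k : ℂ) * (d₂ l : ℂ) * (∑ x, V k p.1 x * W l x p.2) *
        star (∑ y, V k q.1 y * W l y q.2) := by
  simp only [gramChoi, Matrix.of_apply]
  have h1 : ∀ x y, (∑ k, (d₁ k : ℂ) * V k p.1 x * star (V k q.1 y)) *
      (∑ l, (d₂ l : ℂ) * W l x p.2 * star (W l y q.2)) =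
      ∑ k, ∑ l, ((d₁ k : ℂ) * V k p.1 x * star (V k q.1 y)) *
        ((d₂ l : ℂ) * W l x p.2 * star (W l y q.2)) := by
    intro x y
    rw [Finset.sum_mul]
    exact Finset.sum_congr rfl fun k _ => by rw [Finset.mul_sum]
  simp_rw [h1]
  have h2 : ∑ x, ∑ y, ∑ k, ∑ l, ((d₁ k : ℂ) * V k p.1 x * star (V k q.1 y)) *
        ((d₂ l : ℂ) * W l x p.2 * star (W l y q.2)) =
      ∑ k, ∑ l, ∑ x, ∑ y, ((d₁ k : ℂ) * V k p.1 x * star (V k q.1 y)) *
        ((d₂ l : ℂ) * W l x p.2 * star (W l y q.2)) := by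
    have e1 : ∀ x, ∑ y, ∑ k, ∑ l, ((d₁ k : ℂ) * V k p.1 x * star (V k q.1 y)) *
        ((d₂ l : ℂ) * W l x p.2 * star (W l y q.2)) =
        ∑ k, ∑ l, ∑ y, ((d₁ k : ℂ) * V k p.1 x * star (V k q.1 y)) *
        ((d₂ l : ℂ) * W l x p.2 * star (W l y q.2)) := by
      intro x
      rw [Finset.sum_comm]
      exact Finset.sum_congr rfl fun k _ => Finset.sum_comm
    simp_rw [e1]
    rw [Finset.sum_comm]
    exact Finset.sum_congr rfl fun k _ => Finset.sum_comm
  rw [h2]
  refine Finset.sum_congr rfl fun k _ => Finset.sum_congr rfl fun l _ => ?_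
  rw [star_sum, mul_assoc, Finset.sum_mul_sum, Finset.mul_sum]
  refine Finset.sum_congr rfl fun x _ => ?_
  rw [Finset.mul_sum]
  refine Finset.sum_congr rfl fun y _ => ?_
  rw [star_mul']
  ring

/-- **Main entry point (Gram form).** -/
theorem concl541_of_gram
    (ha : Fintype.card a ≤ 10) (hb : Fintype.card b ≤ 10) (hc : Fintype.card c ≤ 10)
    (d₁ : κ₁ → ℝ) (hd₁ : ∀ k, 0 ≤ d₁ k) (V : κ₁ → a → b → ℂ)
    (d₂ : κ₂ → ℝ) (hd₂ : ∀ k, 0 ≤ d₂ k) (W : κ₂ → b → c → ℂ)
    (hT₁ : ∀ i j x y, ∑ k, (d₁ k : ℂ) * V k i x * star (V k j y) =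
      ∑ k, (d₁ k : ℂ) * V k j x * star (V k i y))
    (hT₂ : ∀ x y i j, ∑ k, (d₂ k : ℂ) * W k x i * star (W k y j) =
      ∑ k, (d₂ k : ℂ) * W k x j * star (W k y i))
    {ι : Type*} (N : ι → a → c → ℂ)
    (hN : ∀ t k l, ∑ i, ∑ j, N t i j * ∑ x, V k i x * W l x j = 0)
    (hfree : ∀ (u : a → ℂ) (v : c → ℂ),
      (∀ t, ∑ i, ∑ j, N t i j * u i * v j = 0) → u = 0 ∨ v = 0)
    (h0 : ∃ k l, 0 < d₁ k ∧ 0 < d₂ l ∧ ∃ i j, ∑ x, V k i x * W l x j ≠ 0) :
    Concl541 := by
  classical
  have hform : (Matrix.of fun p q : a × c =>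
      ∑ x, ∑ y, gramChoi d₁ V (p.1, x) (q.1, y) * gramChoi d₂ W (x, p.2) (y, q.2)) =
      Matrix.of fun p q : a × c => ∑ k, ∑ l, (d₁ k : ℂ) * (d₂ l : ℂ) *
        (∑ x, V k p.1 x * W l x p.2) * star (∑ y, V k q.1 y * W l y q.2) := by
    ext p q
    simp only [Matrix.of_apply]
    exact link_gramChoi d₁ V d₂ W p q
  refine concl541_of_choi ha hb hc (gramChoi d₁ V) (gramChoi d₂ W)
    (gramChoi_posSemidef d₁ hd₁ V) ?_ (gramChoi_posSemidef d₂ hd₂ W) ?_ ?_ ?_
  · rw [ptrans_gramChoi_left d₁ V hT₁]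
    exact (gramChoi_posSemidef d₁ hd₁ V).transpose
  · rw [ptrans_gramChoi_right d₂ W hT₂]
    exact gramChoi_posSemidef d₂ hd₂ W
  · rw [hform]
    intro h
    obtain ⟨k₀, l₀, hk₀, hl₀, i₀, j₀, hij⟩ := h0
    have hdiag := congrFun (congrFun h (i₀, j₀)) (i₀, j₀)
    simp only [Matrix.of_apply, Matrix.zero_apply] at hdiag
    have hre : ∑ k, ∑ l, d₁ k * d₂ l * Complex.normSq (∑ x, V k i₀ x * W l x j₀) = 0 := by
      have := congrArg Complex.re hdiag
      rw [Complex.zero_re, Complex.re_sum] at this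
      rw [← this]
      refine Finset.sum_congr rfl fun k _ => ?_
      rw [Complex.re_sum]
      refine Finset.sum_congr rfl fun l _ => ?_
      rw [mul_assoc ((d₁ k : ℂ) * (d₂ l : ℂ)), Complex.star_def, Complex.mul_conj]
      rw [← Complex.ofReal_mul, ← Complex.ofReal_mul, Complex.ofReal_re]
    have hnn : ∀ k ∈ (Finset.univ : Finset κ₁),
        0 ≤ ∑ l, d₁ k * d₂ l * Complex.normSq (∑ x, V k i₀ x * W l x j₀) := fun k _ =>
      Finset.sum_nonneg fun l _ =>
        mul_nonneg (mul_nonneg (hd₁ k) (hd₂ l)) (Complex.normSq_nonneg _)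
    have h1 := (Finset.sum_eq_zero_iff_of_nonneg hnn).1 hre k₀ (Finset.mem_univ _)
    have hnn2 : ∀ l ∈ (Finset.univ : Finset κ₂),
        0 ≤ d₁ k₀ * d₂ l * Complex.normSq (∑ x, V k₀ i₀ x * W l x j₀) := fun l _ =>
      mul_nonneg (mul_nonneg (hd₁ k₀) (hd₂ l)) (Complex.normSq_nonneg _)
    have h2 := (Finset.sum_eq_zero_iff_of_nonneg hnn2).1 h1 l₀ (Finset.mem_univ _)
    have h3 : Complex.normSq (∑ x, V k₀ i₀ x * W l₀ x j₀) = 0 := by
      rcases mul_eq_zero.1 h2 with h | h
      · rcases mul_eq_zero.1 h with h | h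
        · exact absurd h hk₀.ne'
        · exact absurd h hl₀.ne'
      · exact h
    exact hij (Complex.normSq_eq_zero.1 h3)
  · rw [hform]
    rintro u v ⟨w, hw⟩
    refine hfree u v fun t => ?_
    have hw' : ∀ i j, u i * v j = ∑ q : a × c, (∑ k, ∑ l, (d₁ k : ℂ) * (d₂ l : ℂ) *
        (∑ x, V k i x * W l x j) * star (∑ y, V k q.1 y * W l y q.2)) * w q := by
      intro i j
      have := congrFun hw (i, j)
      simp only [Matrix.mulVec, dotProduct, Matrix.of_apply] at this
      exact this.symm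
    have hw2 : ∀ i j, u i * v j = ∑ k, ∑ l, (∑ x, V k i x * W l x j) *
        ((d₁ k : ℂ) * (d₂ l : ℂ) * ∑ q : a × c, star (∑ y, V k q.1 y * W l y q.2) * w q) := by
      intro i j
      rw [hw' i j]
      have e1 : ∀ q : a × c, (∑ k, ∑ l, (d₁ k : ℂ) * (d₂ l : ℂ) *
          (∑ x, V k i x * W l x j) * star (∑ y, V k q.1 y * W l y q.2)) * w q =
          ∑ k, ∑ l, (d₁ k : ℂ) * (d₂ l : ℂ) *
          (∑ x, V k i x * W l x j) * star (∑ y, V k q.1 y * W l y q.2) * w q := by
        intro q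
        rw [Finset.sum_mul]
        refine Finset.sum_congr rfl fun k _ => ?_
        rw [Finset.sum_mul]
      rw [Finset.sum_congr rfl fun q _ => e1 q, Finset.sum_comm]
      refine Finset.sum_congr rfl fun k _ => ?_
      rw [Finset.sum_comm]
      refine Finset.sum_congr rfl fun l _ => ?_
      rw [Finset.mul_sum Finset.univ (fun q : a × c => star (∑ y, V k q.1 y * W l y q.2) * w q),
        Finset.mul_sum Finset.univ (fun q : a × c => (d₁ k : ℂ) * (d₂ l : ℂ) *
          (star (∑ y, V k q.1 y * W l y q.2) * w q))]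
      refine Finset.sum_congr rfl fun q _ => ?_
      ring
    have h3 : ∀ i j, N t i j * u i * v j = ∑ k, ∑ l, (N t i j * ∑ x, V k i x * W l x j) *
        ((d₁ k : ℂ) * (d₂ l : ℂ) * ∑ q : a × c, star (∑ y, V k q.1 y * W l y q.2) * w q) := by
      intro i j
      rw [mul_assoc, hw2 i j, Finset.mul_sum]
      refine Finset.sum_congr rfl fun k _ => ?_
      rw [Finset.mul_sum]
      refine Finset.sum_congr rfl fun l _ => ?_
      ring
    simp_rw [h3]
    have h4 : ∀ i, ∑ j, ∑ k, ∑ l, (N t i j * ∑ x, V k i x * W l x j) *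
        ((d₁ k : ℂ) * (d₂ l : ℂ) * ∑ q : a × c, star (∑ y, V k q.1 y * W l y q.2) * w q) =
        ∑ k, ∑ l, ∑ j, (N t i j * ∑ x, V k i x * W l x j) *
        ((d₁ k : ℂ) * (d₂ l : ℂ) * ∑ q : a × c, star (∑ y, V k q.1 y * W l y q.2) * w q) := by
      intro i
      rw [Finset.sum_comm]
      exact Finset.sum_congr rfl fun k _ => Finset.sum_comm
    simp_rw [h4]
    rw [Finset.sum_comm]
    refine Finset.sum_eq_zero fun k _ => ?_
    rw [Finset.sum_comm]
    refine Finset.sum_eq_zero fun l _ => ?_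
    simp_rw [← Finset.sum_mul]
    rw [hN t k l, zero_mul]

end Gram

end Crest.Agent.R345
end

-- ▼ part R345/GramH
section

/-!
# Pairs given by Gram data `J = ∑ H k l |V k⟩⟨V l|` with `H` positive definite (row 345)
-/

set_option autoImplicit false
set_option linter.unusedSectionVars false

namespace Crest.Agent.R345

open Crest.Quantum
open scoped ComplexOrder Kronecker MatrixOrder

section GramH

variable {a b c : Type*} [Fintype a] [Fintype b] [Fintype c]
  [DecidableEq a] [DecidableEq b] [DecidableEq c]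

variable {κ₁ κ₂ : Type*} [Fintype κ₁] [Fintype κ₂] [DecidableEq κ₁] [DecidableEq κ₂]

/-- Square root decomposition in coordinates, with inverse. -/
theorem exists_sqrt_coords {κ : Type*} [Fintype κ] [DecidableEq κ] (H : Matrix κ κ ℂ)
    (hH : H.PosDef) : ∃ A A' : Matrix κ κ ℂ,
      (∀ k l, H k l = ∑ e, A k e * star (A l e)) ∧ (∀ k l, ∑ e, A k e * A' e l = if k = l then 1 else 0) := by
  obtain ⟨B, hB⟩ := CStarAlgebra.nonneg_iff_eq_star_mul_self.mp hH.posSemidef.nonneg
  have hU : IsUnit (star B * B) := by rw [← hB]; exact hH.isUnit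
  have hdet : IsUnit (star B).det := by
    rw [Matrix.isUnit_iff_isUnit_det, Matrix.det_mul] at hU
    exact isUnit_of_mul_isUnit_left hU
  refine ⟨star B, (star B)⁻¹, ?_, ?_⟩
  · intro k l
    conv_lhs => rw [hB]
    rw [Matrix.mul_apply]
    refine Finset.sum_congr rfl fun e _ => ?_
    rw [Matrix.star_apply, Matrix.star_apply, star_star]
  · intro k l
    have := Matrix.mul_nonsing_inv (star B) hdet
    have h2 := congrFun (congrFun this k) l
    rw [Matrix.mul_apply] at h2
    rw [h2, Matrix.one_apply]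

/-- Transposition invariance for the transformed vectors. -/
theorem gramH_transf {κ : Type*} [Fintype κ] [DecidableEq κ] (H : Matrix κ κ ℂ) (A : Matrix κ κ ℂ)
    (hA : ∀ k l, H k l = ∑ e, A k e * star (A l e)) (v w : κ → ℂ) :
    ∑ e, (∑ k, A k e * v k) * star (∑ k, A k e * w k) = ∑ k, ∑ l, H k l * v k * star (w l) := by
  have e1 : ∀ e, (∑ k, A k e * v k) * star (∑ k, A k e * w k) =
      ∑ k, ∑ l, A k e * star (A l e) * v k * star (w l) := by
    intro e
    rw [star_sum, Finset.sum_mul_sum]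
    refine Finset.sum_congr rfl fun k _ => Finset.sum_congr rfl fun l _ => ?_
    rw [star_mul']
    ring
  simp_rw [e1]
  rw [Finset.sum_comm]
  refine Finset.sum_congr rfl fun k _ => ?_
  rw [Finset.sum_comm]
  refine Finset.sum_congr rfl fun l _ => ?_
  rw [hA k l, Finset.sum_mul, Finset.sum_mul]

/-- **Main entry point (Gram form with Hermitian weights).** -/
theorem concl541_of_gramH
    (ha : Fintype.card a ≤ 10) (hb : Fintype.card b ≤ 10) (hc : Fintype.card c ≤ 10)
    (H₁ : Matrix κ₁ κ₁ ℂ) (hH₁ : H₁.PosDef) (V : κ₁ → a → b → ℂ)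
    (H₂ : Matrix κ₂ κ₂ ℂ) (hH₂ : H₂.PosDef) (W : κ₂ → b → c → ℂ)
    (hT₁ : ∀ i j x y, ∑ k, ∑ l, H₁ k l * V k i x * star (V l j y) =
      ∑ k, ∑ l, H₁ k l * V k j x * star (V l i y))
    (hT₂ : ∀ x y i j, ∑ k, ∑ l, H₂ k l * W k x i * star (W l y j) =
      ∑ k, ∑ l, H₂ k l * W k x j * star (W l y i))
    {ι : Type*} (N : ι → a → c → ℂ)
    (hN : ∀ t k l, ∑ i, ∑ j, N t i j * ∑ x, V k i x * W l x j = 0)
    (hfree : ∀ (u : a → ℂ) (v : c → ℂ),
      (∀ t, ∑ i, ∑ j, N t i j * u i * v j = 0) → u = 0 ∨ v = 0)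
    (h0 : ∃ k l, ∃ i j, ∑ x, V k i x * W l x j ≠ 0) :
    Concl541 := by
  classical
  obtain ⟨A₁, A₁', hA₁, hA₁'⟩ := exists_sqrt_coords H₁ hH₁
  obtain ⟨A₂, A₂', hA₂, hA₂'⟩ := exists_sqrt_coords H₂ hH₂
  have key : ∀ (e : κ₁) (f : κ₂) (i : a) (j : c),
      ∑ x, (∑ k, A₁ k e * V k i x) * (∑ l, A₂ l f * W l x j) =
      ∑ k, ∑ l, A₁ k e * A₂ l f * ∑ x, V k i x * W l x j := by
    intro e f i j
    have e1 : ∀ x, (∑ k, A₁ k e * V k i x) * (∑ l, A₂ l f * W l x j) =
        ∑ k, ∑ l, A₁ k e * A₂ l f * (V k i x * W l x j) := by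
      intro x
      rw [Finset.sum_mul_sum]
      exact Finset.sum_congr rfl fun k _ => Finset.sum_congr rfl fun l _ => by ring
    simp_rw [e1]
    rw [Finset.sum_comm]
    refine Finset.sum_congr rfl fun k _ => ?_
    rw [Finset.sum_comm]
    exact Finset.sum_congr rfl fun l _ => by rw [Finset.mul_sum]
  refine concl541_of_gram ha hb hc (fun _ => 1) (fun _ => zero_le_one)
    (fun e i x => ∑ k, A₁ k e * V k i x)
    (fun _ => 1) (fun _ => zero_le_one) (fun f x j => ∑ l, A₂ l f * W l x j)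
    ?_ ?_ N ?_ hfree ?_
  · intro i j x y
    have h := hT₁ i j x y
    rw [← gramH_transf H₁ A₁ hA₁ (fun k => V k i x) (fun l => V l j y),
      ← gramH_transf H₁ A₁ hA₁ (fun k => V k j x) (fun l => V l i y)] at h
    simpa using h
  · intro x y i j
    have h := hT₂ x y i j
    rw [← gramH_transf H₂ A₂ hA₂ (fun k => W k x i) (fun l => W l y j),
      ← gramH_transf H₂ A₂ hA₂ (fun k => W k x j) (fun l => W l y i)] at h
    simpa using h
  · intro t e f
    simp_rw [key]
    have e2 : ∀ i j, N t i j * ∑ k, ∑ l, A₁ k e * A₂ l f * ∑ x, V k i x * W l x j =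
        ∑ k, ∑ l, A₁ k e * A₂ l f * (N t i j * ∑ x, V k i x * W l x j) := by
      intro i j
      rw [Finset.mul_sum]
      refine Finset.sum_congr rfl fun k _ => ?_
      rw [Finset.mul_sum]
      exact Finset.sum_congr rfl fun l _ => by ring
    simp_rw [e2]
    have e3 : ∀ i, ∑ j, ∑ k, ∑ l, A₁ k e * A₂ l f * (N t i j * ∑ x, V k i x * W l x j) =
        ∑ k, ∑ l, ∑ j, A₁ k e * A₂ l f * (N t i j * ∑ x, V k i x * W l x j) := by
      intro i
      rw [Finset.sum_comm]
      exact Finset.sum_congr rfl fun k _ => Finset.sum_comm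
    simp_rw [e3]
    rw [Finset.sum_comm]
    refine Finset.sum_eq_zero fun k _ => ?_
    rw [Finset.sum_comm]
    refine Finset.sum_eq_zero fun l _ => ?_
    have h := hN t k l
    calc ∑ i, ∑ j, A₁ k e * A₂ l f * (N t i j * ∑ x, V k i x * W l x j)
        = A₁ k e * A₂ l f * ∑ i, ∑ j, N t i j * ∑ x, V k i x * W l x j := by
          rw [Finset.mul_sum]
          exact Finset.sum_congr rfl fun i _ => by rw [Finset.mul_sum]
      _ = 0 := by rw [h, mul_zero]
  · by_contra hcon
    push Not at hcon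
    obtain ⟨k₀, l₀, i, j, hne⟩ := h0
    apply hne
    have h1 : ∀ e f, ∑ x, (∑ k, A₁ k e * V k i x) * (∑ l, A₂ l f * W l x j) = 0 := fun e f =>
      hcon e f zero_lt_one zero_lt_one i j
    have hV : ∀ k x, V k i x = ∑ e, A₁' e k * ∑ k', A₁ k' e * V k' i x := by
      intro k x
      have : ∑ e, A₁' e k * ∑ k', A₁ k' e * V k' i x =
          ∑ k', (∑ e, A₁ k' e * A₁' e k) * V k' i x := by
        simp_rw [Finset.mul_sum, Finset.sum_mul]
        rw [Finset.sum_comm]
        exact Finset.sum_congr rfl fun k' _ => Finset.sum_congr rfl fun e _ => by ring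
      rw [this]
      simp_rw [hA₁']
      simp
    have hW : ∀ l x, W l x j = ∑ f, A₂' f l * ∑ l', A₂ l' f * W l' x j := by
      intro l x
      have : ∑ f, A₂' f l * ∑ l', A₂ l' f * W l' x j =
          ∑ l', (∑ f, A₂ l' f * A₂' f l) * W l' x j := by
        simp_rw [Finset.mul_sum, Finset.sum_mul]
        rw [Finset.sum_comm]
        exact Finset.sum_congr rfl fun k' _ => Finset.sum_congr rfl fun e _ => by ring
      rw [this]
      simp_rw [hA₂']
      simp
    calc ∑ x, V k₀ i x * W l₀ x j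
        = ∑ x, (∑ e, A₁' e k₀ * ∑ k', A₁ k' e * V k' i x) *
            (∑ f, A₂' f l₀ * ∑ l', A₂ l' f * W l' x j) :=
          Finset.sum_congr rfl fun x _ => by rw [← hV, ← hW]
      _ = ∑ x, ∑ e, ∑ f, A₁' e k₀ * A₂' f l₀ *
            ((∑ k', A₁ k' e * V k' i x) * ∑ l', A₂ l' f * W l' x j) := by
          refine Finset.sum_congr rfl fun x _ => ?_
          rw [Finset.sum_mul_sum]
          exact Finset.sum_congr rfl fun e _ => Finset.sum_congr rfl fun f _ => by ring
      _ = ∑ e, ∑ f, A₁' e k₀ * A₂' f l₀ *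
            ∑ x, ((∑ k', A₁ k' e * V k' i x) * ∑ l', A₂ l' f * W l' x j) := by
          rw [Finset.sum_comm]
          refine Finset.sum_congr rfl fun e _ => ?_
          rw [Finset.sum_comm]
          exact Finset.sum_congr rfl fun f _ => by rw [Finset.mul_sum]
      _ = 0 := by simp [h1]

end GramH

end Crest.Agent.R345
end

-- ▼ part R345/NFCheck
section

/-!
# Kernel checks for Gram pairs with entries in `ℤ[θ] + i ℤ[θ]` (row 345)
-/

set_option autoImplicit false
set_option linter.unusedSectionVars false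

namespace Crest.Agent.R345

open Polynomial

/-- `∀ i < n, f i`. -/
def allN (n : ℕ) (f : ℕ → Bool) : Bool := Nat.rec true (fun k ih => f k && ih) n

theorem allN_iff (n : ℕ) (f : ℕ → Bool) : allN n f = true ↔ ∀ i < n, f i = true := by
  induction n with
  | zero => simp [allN]
  | succ n ih =>
    have : allN (n + 1) f = (f n && allN n f) := rfl
    rw [this, Bool.and_eq_true, ih]
    constructor
    · rintro ⟨h1, h2⟩ i hi
      rcases Nat.lt_succ_iff_lt_or_eq.1 hi with h | rfl
      · exact h2 i h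
      · exact h1
    · intro h
      exact ⟨h n (Nat.lt_succ_self n), fun i hi => h i (Nat.lt_succ_of_lt hi)⟩

/-- Rows of a three-level array. -/
abbrev A3 := List (List (List (List ℤ)))

/-- Row. -/
def rowA (V : A3) (i x : ℕ) : List (List ℤ) := (V.getD i []).getD x []

/-- Entry. -/
def entA (V : A3) (i x k : ℕ) : List ℤ := (rowA V i x).getD k []

/-- Packed row. -/
def rowP (b m : ℕ) (V : A3) (i x : ℕ) : List ℕ := (rowA V i x).map (pk b m)

/-- Shape check: row lengths, coefficient list lengths, `l¹` norms. -/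
def shapeA (I X K D L : ℕ) (V : A3) : Bool :=
  allN I fun i => allN X fun x =>
    Nat.beq (rowA V i x).length K && (rowA V i x).all fun c =>
      Nat.ble c.length D && Nat.ble (l1L c) L

/-- Vector `U`. -/
def uvec (m r : ℕ) (A B : ℕ → List ℕ) (x y : List ℕ) : List ℕ :=
  (List.range r).map fun l => Nat.mod (Nat.add (ndot (A l) x) (ndot (B l) y)) m

/-- One comparison of the transposition check. -/
def cmpT (m : ℕ) (ur ui vr vi : ℕ → ℕ → List ℕ) (i j x y : ℕ) : Bool :=
  Nat.beq (Nat.mod (Nat.add (ndot (ur i x) (vr j y)) (ndot (ui i x) (vi j y))) m)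
    (Nat.mod (Nat.add (ndot (ur j x) (vr i y)) (ndot (ui j x) (vi i y))) m) &&
  Nat.beq (Nat.mod (Nat.add (ndot (ui i x) (vr j y)) (ndot (ur j x) (vi i y))) m)
    (Nat.mod (Nat.add (ndot (ui j x) (vr i y)) (ndot (ur i x) (vi j y))) m)

section

variable {θ : ℝ} {b m : ℕ}

/-- Data of a Hermitian-weighted family of vectors, in the layout `[i][x][k]`. -/
theorem rowP_repL (hm : 0 < m) {I X K D L : ℕ} {V : A3} (hV : shapeA I X K D L V = true)
    {i x : ℕ} (hi : i < I) (hx : x < X) :
    RepL θ b m L D (rowP b m V i x) K fun k => evL θ (entA V i x k) := by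
  have h1 := (allN_iff _ _).1 ((allN_iff _ _).1 hV i hi) x hx
  rw [Bool.and_eq_true, List.all_eq_true] at h1
  have hlen : (rowA V i x).length = K := Nat.eq_of_beq_eq_true h1.1
  refine RepL.of_map (d := []) hlen fun k hk => ?_
  have hmem : (rowA V i x).getD k [] ∈ rowA V i x := by
    rw [List.getD_eq_getElem _ _ (by omega)]
    exact List.getElem_mem _
  have h2 := h1.2 _ hmem
  rw [Bool.and_eq_true] at h2
  exact Rep.of_list hm _ L D (Nat.le_of_ble_eq_true h2.2) (Nat.le_of_ble_eq_true h2.1)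

theorem uvec_repL {L₁ L₂ n₁ n₂ r K : ℕ} {A B : ℕ → List ℕ} {x y : List ℕ}
    {a c : ℕ → ℕ → ℝ} {s t : ℕ → ℝ}
    (hA : ∀ l < r, RepL θ b m L₁ n₁ (A l) K (a l)) (hB : ∀ l < r, RepL θ b m L₁ n₁ (B l) K (c l))
    (hx : RepL θ b m L₂ n₂ x K s) (hy : RepL θ b m L₂ n₂ y K t) :
    RepL θ b m (2 * (K * (L₁ * L₂))) (n₁ + n₂) (uvec m r A B x y) r fun l =>
      ∑ k ∈ Finset.range K, a l k * s k + ∑ k ∈ Finset.range K, c l k * t k := by
  refine RepL.of_map (d := 0) List.length_range fun l hl => ?_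
  have hl' : (List.range r).getD l 0 = l := by
    rw [List.getD_eq_getElem _ _ (by rw [List.length_range]; exact hl), List.getElem_range]
  rw [hl']
  have h1 := (RepL.ndot (hA l hl) hx).add (RepL.ndot (hB l hl) hy)
  have h2 := h1.mod
  rw [show K * (L₁ * L₂) + K * (L₁ * L₂) = 2 * (K * (L₁ * L₂)) by ring] at h2
  exact h2

end

end Crest.Agent.R345

namespace Crest.Agent.R345

open Polynomial

/-- Negated packed row. -/
def rowPn (b m : ℕ) (V : A3) (i x : ℕ) : List ℕ :=
  (rowA V i x).map fun c => pk b m (c.map Int.neg)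

theorem evL_neg (θ : ℝ) (cs : List ℤ) : evL θ (cs.map Int.neg) = -evL θ cs := by
  induction cs with
  | nil => simp [evL]
  | cons c cs ih =>
    change ((Int.neg c : ℤ) : ℝ) + θ * evL θ (cs.map Int.neg) = -((c : ℝ) + θ * evL θ cs)
    rw [ih]
    have : ((Int.neg c : ℤ) : ℝ) = -(c : ℝ) := by
      have h : Int.neg c = -c := rfl
      rw [h]; push_cast; ring
    rw [this]
    ring

theorem l1L_neg (cs : List ℤ) : l1L (cs.map Int.neg) = l1L cs := by
  induction cs with
  | nil => rfl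
  | cons c cs ih =>
    change (Int.neg c).natAbs + l1L (cs.map Int.neg) = c.natAbs + l1L cs
    rw [ih]
    have h : Int.neg c = -c := rfl
    rw [h, Int.natAbs_neg]

/-- Sum of `f j`, `j < n`. -/
def sumN (n : ℕ) (f : ℕ → ℕ) : ℕ := Nat.rec 0 (fun k ih => Nat.add (f k) ih) n

/-- The transposition check. -/
def checkTH (b m na nb r : ℕ) (HR HI VR VI : A3) : Bool :=
  allN na fun i => allN i fun j => allN nb fun x => allN nb fun y =>
    cmpT m
      (fun i x => uvec m r (rowP b m HR 0) (rowPn b m HI 0) (rowP b m VR i x) (rowP b m VI i x))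
      (fun i x => uvec m r (rowP b m HR 0) (rowP b m HI 0) (rowP b m VI i x) (rowP b m VR i x))
      (rowP b m VR) (rowP b m VI) i j x y

/-- The annihilation check; `N` in layout `[t][j][i]`, `V` in layout `[k][x][i]`, `W` in layout
`[l][j][x]`. -/
def checkNH (b m nb nc t₀ nt r₁ r₂ : ℕ) (N VR VI WR WI : A3) : Bool :=
  allN nt fun t => allN r₁ fun k => allN r₂ fun l =>
    (fun yr yi : ℕ → List ℕ =>
      Nat.beq (Nat.mod (sumN nc fun j => ndot (yr j) (rowP b m WR l j)) m)
        (Nat.mod (sumN nc fun j => ndot (yi j) (rowP b m WI l j)) m) &&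
      Nat.beq (Nat.mod (Nat.add (sumN nc fun j => ndot (yr j) (rowP b m WI l j))
        (sumN nc fun j => ndot (yi j) (rowP b m WR l j))) m) 0)
      (fun j => (List.range nb).map fun x =>
        Nat.mod (ndot (rowP b m N (t₀ + t) j) (rowP b m VR k x)) m)
      (fun j => (List.range nb).map fun x =>
        Nat.mod (ndot (rowP b m N (t₀ + t) j) (rowP b m VI k x)) m)

/-- Two layouts agree: `V i x k = V' k x i`. -/
def checkLay (I X K : ℕ) (V V' : A3) : Bool :=
  allN I fun i => allN X fun x => allN K fun k => entA V i x k == entA V' k x i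

section

variable {θ : ℝ} {b m : ℕ}

theorem rowPn_repL (hm : 0 < m) {I X K D L : ℕ} {V : A3} (hV : shapeA I X K D L V = true)
    {i x : ℕ} (hi : i < I) (hx : x < X) :
    RepL θ b m L D (rowPn b m V i x) K fun k => -evL θ (entA V i x k) := by
  have h1 := (allN_iff _ _).1 ((allN_iff _ _).1 hV i hi) x hx
  rw [Bool.and_eq_true, List.all_eq_true] at h1
  have hlen : (rowA V i x).length = K := Nat.eq_of_beq_eq_true h1.1
  refine RepL.of_map (d := []) hlen fun k hk => ?_
  have hmem : (rowA V i x).getD k [] ∈ rowA V i x := by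
    rw [List.getD_eq_getElem _ _ (by omega)]
    exact List.getElem_mem _
  have h2 := h1.2 _ hmem
  rw [Bool.and_eq_true] at h2
  have := Rep.of_list (θ := θ) (b := b) hm (((rowA V i x).getD k []).map Int.neg) L D
    (by rw [l1L_neg]; exact Nat.le_of_ble_eq_true h2.2)
    (by rw [List.length_map]; exact Nat.le_of_ble_eq_true h2.1)
  rw [evL_neg] at this
  exact this

theorem Rep.sumN {L n N : ℕ} {f : ℕ → ℕ} {a : ℕ → ℝ} (h : ∀ j < N, Rep θ b m L n (f j) (a j)) :
    Rep θ b m (N * L) n (sumN N f) (∑ j ∈ Finset.range N, a j) := by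
  induction N with
  | zero =>
    simp only [Finset.range_zero, Finset.sum_empty]
    exact Rep.zero _ _
  | succ N ih =>
    rw [Finset.sum_range_succ, add_comm (∑ j ∈ Finset.range N, a j)]
    have h1 := (h N (Nat.lt_succ_self N)).add (ih fun j hj => h j (Nat.lt_succ_of_lt hj))
    rw [show L + N * L = (N + 1) * L by ring] at h1
    exact h1

/-- Complex entry. -/
noncomputable def cx (θ : ℝ) (VR VI : A3) (i x k : ℕ) : ℂ :=
  (evL θ (entA VR i x k) : ℂ) + (evL θ (entA VI i x k) : ℂ) * Complex.I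

theorem checkTH_sound {f : ℤ[X]} (hf : f.Monic) (hfd : 0 < f.natDegree) (hθ : aeval θ f = 0)
    (hm : (m : ℤ) = |f.eval (b : ℤ)|) (hm0 : 0 < m)
    {na nb r D LH LV : ℕ} {HR HI VR VI : A3}
    (hHR : shapeA 1 r r D LH HR = true) (hHI : shapeA 1 r r D LH HI = true)
    (hVR : shapeA na nb r D LV VR = true) (hVI : shapeA na nb r D LV VI = true)
    (hb : (2 * (2 * (r * ((2 * (r * (LH * LV))) * LV)))) * l1 f ^ (3 * D + 1) + l1 f < b)
    (h : checkTH b m na nb r HR HI VR VI = true)
    {i j x y : ℕ} (hi : i < na) (hj : j < na) (hx : x < nb) (hy : y < nb) :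
    ∑ k ∈ Finset.range r, ∑ l ∈ Finset.range r,
      cx θ HR HI 0 l k * cx θ VR VI i x k * star (cx θ VR VI j y l) =
    ∑ k ∈ Finset.range r, ∑ l ∈ Finset.range r,
      cx θ HR HI 0 l k * cx θ VR VI j x k * star (cx θ VR VI i y l) := by
  -- notation
  set hr : ℕ → ℕ → ℝ := fun l k => evL θ (entA HR 0 l k) with hhr
  set hi' : ℕ → ℕ → ℝ := fun l k => evL θ (entA HI 0 l k) with hhi
  set vr : ℕ → ℕ → ℕ → ℝ := fun i x k => evL θ (entA VR i x k) with hvr
  set vi : ℕ → ℕ → ℕ → ℝ := fun i x k => evL θ (entA VI i x k) with hvi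
  set ur : ℕ → ℕ → ℕ → ℝ := fun i x l =>
    ∑ k ∈ Finset.range r, hr l k * vr i x k + ∑ k ∈ Finset.range r, (-hi' l k) * vi i x k with hur
  set ui : ℕ → ℕ → ℕ → ℝ := fun i x l =>
    ∑ k ∈ Finset.range r, hr l k * vi i x k + ∑ k ∈ Finset.range r, hi' l k * vr i x k with hui
  have hsum : ∀ i x j y, ∑ k ∈ Finset.range r, ∑ l ∈ Finset.range r,
      cx θ HR HI 0 l k * cx θ VR VI i x k * star (cx θ VR VI j y l) =
      ((∑ l ∈ Finset.range r, ur i x l * vr j y l + ∑ l ∈ Finset.range r, ui i x l * vi j y l : ℝ) :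
        ℂ) + ((∑ l ∈ Finset.range r, ui i x l * vr j y l -
        ∑ l ∈ Finset.range r, ur i x l * vi j y l : ℝ) : ℂ) * Complex.I := by
    intro i x j y
    rw [Finset.sum_comm]
    push_cast
    rw [← Finset.sum_add_distrib, ← Finset.sum_sub_distrib, Finset.sum_mul,
      ← Finset.sum_add_distrib]
    refine Finset.sum_congr rfl fun l _ => ?_
    have e1 : ∑ k ∈ Finset.range r, cx θ HR HI 0 l k * cx θ VR VI i x k =
        ((ur i x l : ℝ) : ℂ) + ((ui i x l : ℝ) : ℂ) * Complex.I := by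
      simp only [hur, hui]
      push_cast
      rw [← Finset.sum_add_distrib, ← Finset.sum_add_distrib, Finset.sum_mul,
        ← Finset.sum_add_distrib]
      refine Finset.sum_congr rfl fun k _ => ?_
      simp only [cx, hhr, hhi, hvr, hvi]
      linear_combination ((evL θ (entA HI 0 l k) : ℂ) * (evL θ (entA VI i x k) : ℂ)) *
        Complex.I_mul_I
    rw [← Finset.sum_mul, e1]
    have e2 : star (cx θ VR VI j y l) =
        ((vr j y l : ℝ) : ℂ) - ((vi j y l : ℝ) : ℂ) * Complex.I := by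
      simp only [cx, hvr, hvi]
      rw [Complex.star_def, map_add, map_mul, Complex.conj_ofReal, Complex.conj_ofReal,
        Complex.conj_I]
      ring
    rw [e2]
    linear_combination (-((ui i x l : ℝ) : ℂ) * ((vi j y l : ℝ) : ℂ)) * Complex.I_mul_I
  -- representations
  have RHR : ∀ l < r, RepL θ b m LH D (rowP b m HR 0 l) r (hr l) := fun l hl =>
    rowP_repL hm0 hHR Nat.one_pos hl
  have RHI : ∀ l < r, RepL θ b m LH D (rowP b m HI 0 l) r (hi' l) := fun l hl =>
    rowP_repL hm0 hHI Nat.one_pos hl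
  have RHIn : ∀ l < r, RepL θ b m LH D (rowPn b m HI 0 l) r (fun k => -hi' l k) := fun l hl =>
    rowPn_repL hm0 hHI Nat.one_pos hl
  have RVR : ∀ i < na, ∀ x < nb, RepL θ b m LV D (rowP b m VR i x) r (vr i x) := fun i hi x hx =>
    rowP_repL hm0 hVR hi hx
  have RVI : ∀ i < na, ∀ x < nb, RepL θ b m LV D (rowP b m VI i x) r (vi i x) := fun i hi x hx =>
    rowP_repL hm0 hVI hi hx
  have RUR : ∀ i < na, ∀ x < nb, RepL θ b m (2 * (r * (LH * LV))) (D + D)
      (uvec m r (rowP b m HR 0) (rowPn b m HI 0) (rowP b m VR i x) (rowP b m VI i x)) r (ur i x) :=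
    fun i hi x hx => uvec_repL RHR RHIn (RVR i hi x hx) (RVI i hi x hx)
  have RUI : ∀ i < na, ∀ x < nb, RepL θ b m (2 * (r * (LH * LV))) (D + D)
      (uvec m r (rowP b m HR 0) (rowP b m HI 0) (rowP b m VI i x) (rowP b m VR i x)) r (ui i x) :=
    fun i hi x hx => uvec_repL RHR RHI (RVI i hi x hx) (RVR i hi x hx)
  have key : ∀ i < na, ∀ j < i, ∀ x < nb, ∀ y < nb,
      (∑ l ∈ Finset.range r, ur i x l * vr j y l + ∑ l ∈ Finset.range r, ui i x l * vi j y l =
        ∑ l ∈ Finset.range r, ur j x l * vr i y l + ∑ l ∈ Finset.range r, ui j x l * vi i y l) ∧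
      (∑ l ∈ Finset.range r, ui i x l * vr j y l + ∑ l ∈ Finset.range r, ur j x l * vi i y l =
        ∑ l ∈ Finset.range r, ui j x l * vr i y l + ∑ l ∈ Finset.range r, ur i x l * vi j y l) := by
    intro i hi j hji x hx y hy
    have hj : j < na := by omega
    have h1 := (allN_iff _ _).1 ((allN_iff _ _).1 ((allN_iff _ _).1 ((allN_iff _ _).1 h i hi) j
      hji) x hx) y hy
    rw [cmpT, Bool.and_eq_true] at h1
    have hdeg : D + D + D + 1 = 3 * D + 1 := by ring
    refine ⟨?_, ?_⟩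
    · refine Rep.eq_of_mod hf hfd hθ hm
        ((RepL.ndot (RUR i hi x hx) (RVR j hj y hy)).add (RepL.ndot (RUI i hi x hx) (RVI j hj y hy)))
        ((RepL.ndot (RUR j hj x hx) (RVR i hi y hy)).add (RepL.ndot (RUI j hj x hx) (RVI i hi y hy)))
        ?_ (Nat.eq_of_beq_eq_true h1.1)
      rw [hdeg]
      refine lt_of_le_of_lt (le_of_eq ?_) hb
      ring
    · refine Rep.eq_of_mod hf hfd hθ hm
        ((RepL.ndot (RUI i hi x hx) (RVR j hj y hy)).add (RepL.ndot (RUR j hj x hx) (RVI i hi y hy)))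
        ((RepL.ndot (RUI j hj x hx) (RVR i hi y hy)).add (RepL.ndot (RUR i hi x hx) (RVI j hj y hy)))
        ?_ (Nat.eq_of_beq_eq_true h1.2)
      rw [hdeg]
      refine lt_of_le_of_lt (le_of_eq ?_) hb
      ring
  rw [hsum, hsum]
  rcases lt_trichotomy i j with hlt | heq | hgt
  · obtain ⟨k1, k2⟩ := key j hj i hlt x hx y hy
    rw [k1]
    congr 2
    norm_cast
    linarith
  · subst heq; rfl
  · obtain ⟨k1, k2⟩ := key i hi j hgt x hx y hy
    rw [k1]
    congr 2
    norm_cast
    linarith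

end

end Crest.Agent.R345

namespace Crest.Agent.R345

open Polynomial

section

variable {θ : ℝ} {b m : ℕ}

theorem checkNH_sound {f : ℤ[X]} (hf : f.Monic) (hfd : 0 < f.natDegree) (hθ : aeval θ f = 0)
    (hm : (m : ℤ) = |f.eval (b : ℤ)|) (hm0 : 0 < m)
    {na nb nc t₀ nt NT r₁ r₂ D LN LV LW : ℕ} {N VR VI WR WI : A3}
    (hN : shapeA NT nc na D LN N = true)
    (hVR : shapeA r₁ nb na D LV VR = true) (hVI : shapeA r₁ nb na D LV VI = true)
    (hWR : shapeA r₂ nc nb D LW WR = true) (hWI : shapeA r₂ nc nb D LW WI = true)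
    (hb : 2 * (nc * (nb * ((na * (LN * LV)) * LW))) * l1 f ^ (3 * D + 1) + l1 f < b)
    (h : checkNH b m nb nc t₀ nt r₁ r₂ N VR VI WR WI = true)
    {t k l : ℕ} (ht : t < nt) (htN : t₀ + t < NT) (hk : k < r₁) (hl : l < r₂) :
    ∑ i ∈ Finset.range na, ∑ j ∈ Finset.range nc, (evL θ (entA N (t₀ + t) j i) : ℂ) *
      ∑ x ∈ Finset.range nb, cx θ VR VI k x i * cx θ WR WI l j x = 0 := by
  set T := t₀ + t with hT
  have RN : ∀ j < nc, RepL θ b m LN D (rowP b m N T j) na fun i => evL θ (entA N T j i) :=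
    fun j hj => rowP_repL hm0 hN htN hj
  have RVR : ∀ x < nb, RepL θ b m LV D (rowP b m VR k x) na fun i => evL θ (entA VR k x i) :=
    fun x hx => rowP_repL hm0 hVR hk hx
  have RVI : ∀ x < nb, RepL θ b m LV D (rowP b m VI k x) na fun i => evL θ (entA VI k x i) :=
    fun x hx => rowP_repL hm0 hVI hk hx
  have RWR : ∀ j < nc, RepL θ b m LW D (rowP b m WR l j) nb fun x => evL θ (entA WR l j x) :=
    fun j hj => rowP_repL hm0 hWR hl hj
  have RWI : ∀ j < nc, RepL θ b m LW D (rowP b m WI l j) nb fun x => evL θ (entA WI l j x) :=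
    fun j hj => rowP_repL hm0 hWI hl hj
  have RY : ∀ (V : A3), (∀ x < nb, RepL θ b m LV D (rowP b m V k x) na
      fun i => evL θ (entA V k x i)) → ∀ j < nc,
      RepL θ b m (na * (LN * LV)) (D + D) ((List.range nb).map fun x =>
        Nat.mod (ndot (rowP b m N T j) (rowP b m V k x)) m) nb
        fun x => ∑ i ∈ Finset.range na, evL θ (entA N T j i) * evL θ (entA V k x i) := by
    intro V RV j hj
    refine RepL.of_map (d := 0) List.length_range fun x hx => ?_
    have hx' : (List.range nb).getD x 0 = x := by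
      rw [List.getD_eq_getElem _ _ (by rw [List.length_range]; exact hx), List.getElem_range]
    rw [hx']
    exact (RepL.ndot (RN j hj) (RV x hx)).mod
  have h1 := (allN_iff _ _).1 ((allN_iff _ _).1 ((allN_iff _ _).1 h t ht) k hk) l hl
  simp only [Bool.and_eq_true] at h1
  obtain ⟨h1, h2⟩ := h1
  have e1 := Nat.eq_of_beq_eq_true h1
  have e2 := Nat.eq_of_beq_eq_true h2
  have hdeg : D + D + D + 1 = 3 * D + 1 := by ring
  set yr : ℕ → ℕ → ℝ := fun j x =>
    ∑ i ∈ Finset.range na, evL θ (entA N T j i) * evL θ (entA VR k x i) with hyr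
  set yi : ℕ → ℕ → ℝ := fun j x =>
    ∑ i ∈ Finset.range na, evL θ (entA N T j i) * evL θ (entA VI k x i) with hyi
  set wr : ℕ → ℕ → ℝ := fun j x => evL θ (entA WR l j x) with hwr
  set wi : ℕ → ℕ → ℝ := fun j x => evL θ (entA WI l j x) with hwi
  have k1 : ∑ j ∈ Finset.range nc, ∑ x ∈ Finset.range nb, yr j x * wr j x =
      ∑ j ∈ Finset.range nc, ∑ x ∈ Finset.range nb, yi j x * wi j x := by
    refine Rep.eq_of_mod hf hfd hθ hm
      (Rep.sumN fun j hj => RepL.ndot (RY VR RVR j hj) (RWR j hj))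
      (Rep.sumN fun j hj => RepL.ndot (RY VI RVI j hj) (RWI j hj)) ?_ e1
    rw [hdeg]
    refine lt_of_le_of_lt (le_of_eq ?_) hb
    ring
  have k2 : ∑ j ∈ Finset.range nc, ∑ x ∈ Finset.range nb, yr j x * wi j x +
      ∑ j ∈ Finset.range nc, ∑ x ∈ Finset.range nb, yi j x * wr j x = 0 := by
    have hz : Rep θ b m 0 (D + D + D) 0 0 := Rep.zero _ _
    refine Rep.eq_of_mod hf hfd hθ hm
      ((Rep.sumN fun j hj => RepL.ndot (RY VR RVR j hj) (RWI j hj)).add
        (Rep.sumN fun j hj => RepL.ndot (RY VI RVI j hj) (RWR j hj))) hz ?_ ?_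
    · rw [hdeg]
      refine lt_of_le_of_lt (le_of_eq ?_) hb
      ring
    · rw [Nat.zero_mod]
      exact e2
  -- conclusion
  have hswap : ∑ i ∈ Finset.range na, ∑ j ∈ Finset.range nc, (evL θ (entA N T j i) : ℂ) *
      ∑ x ∈ Finset.range nb, cx θ VR VI k x i * cx θ WR WI l j x =
      ∑ j ∈ Finset.range nc, ∑ x ∈ Finset.range nb,
        ((yr j x : ℂ) + (yi j x : ℂ) * Complex.I) * ((wr j x : ℂ) + (wi j x : ℂ) * Complex.I) := by
    rw [Finset.sum_comm]
    refine Finset.sum_congr rfl fun j _ => ?_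
    simp_rw [Finset.mul_sum]
    rw [Finset.sum_comm]
    refine Finset.sum_congr rfl fun x _ => ?_
    have e3 : ((yr j x : ℂ) + (yi j x : ℂ) * Complex.I) =
        ∑ i ∈ Finset.range na, (evL θ (entA N T j i) : ℂ) * cx θ VR VI k x i := by
      simp only [hyr, hyi, cx]
      push_cast
      rw [Finset.sum_mul, ← Finset.sum_add_distrib]
      exact Finset.sum_congr rfl fun i _ => by ring
    rw [e3, Finset.sum_mul]
    refine Finset.sum_congr rfl fun i _ => ?_
    simp only [cx, hwr, hwi]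
    ring
  rw [hswap]
  have hre : ∑ j ∈ Finset.range nc, ∑ x ∈ Finset.range nb,
        ((yr j x : ℂ) + (yi j x : ℂ) * Complex.I) * ((wr j x : ℂ) + (wi j x : ℂ) * Complex.I) =
      ((∑ j ∈ Finset.range nc, ∑ x ∈ Finset.range nb, yr j x * wr j x -
        ∑ j ∈ Finset.range nc, ∑ x ∈ Finset.range nb, yi j x * wi j x : ℝ) : ℂ) +
      ((∑ j ∈ Finset.range nc, ∑ x ∈ Finset.range nb, yr j x * wi j x +
        ∑ j ∈ Finset.range nc, ∑ x ∈ Finset.range nb, yi j x * wr j x : ℝ) : ℂ) * Complex.I := by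
    push_cast
    simp only [← Finset.sum_sub_distrib, ← Finset.sum_add_distrib, Finset.sum_mul]
    refine Finset.sum_congr rfl fun j _ => Finset.sum_congr rfl fun x _ => ?_
    linear_combination ((yi j x : ℂ) * (wi j x : ℂ)) * Complex.I_mul_I
  rw [hre, k1, k2]
  simp

theorem checkLay_sound {I X K : ℕ} {V V' : A3} (h : checkLay I X K V V' = true)
    {i x k : ℕ} (hi : i < I) (hx : x < X) (hk : k < K) : entA V i x k = entA V' k x i := by
  have h1 := (allN_iff _ _).1 ((allN_iff _ _).1 ((allN_iff _ _).1 h i hi) x hx) k hk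
  exact eq_of_beq h1

end

open scoped ComplexOrder MatrixOrder

/-- **Final assembly**: everything except positivity, product-freeness and non-vanishing is a
kernel check. Layouts: `VR/VI` `[i][x][k]`, `WR/WI` `[j][x][l]`, `VR'/VI'` `[k][x][i]`,
`WR'/WI'` `[l][j]`... given as `[l][x][j]` through `checkLay` and `[l][j][x]`. -/
theorem concl541_of_nf {θ : ℝ} (na nb nc r₁ r₂ nt : ℕ) (hna : na ≤ 10) (hnb : nb ≤ 10) (hnc : nc ≤ 10)
    (HR₁ HI₁ VR VI HR₂ HI₂ WR WI N VR' VI' WR' WI' : A3)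
    (hT₁ : ∀ i < na, ∀ j < na, ∀ x < nb, ∀ y < nb,
      ∑ k ∈ Finset.range r₁, ∑ l ∈ Finset.range r₁,
        cx θ HR₁ HI₁ 0 l k * cx θ VR VI i x k * star (cx θ VR VI j y l) =
      ∑ k ∈ Finset.range r₁, ∑ l ∈ Finset.range r₁,
        cx θ HR₁ HI₁ 0 l k * cx θ VR VI j x k * star (cx θ VR VI i y l))
    (hT₂ : ∀ i < nc, ∀ j < nc, ∀ x < nb, ∀ y < nb,
      ∑ k ∈ Finset.range r₂, ∑ l ∈ Finset.range r₂,
        cx θ HR₂ HI₂ 0 l k * cx θ WR WI i x k * star (cx θ WR WI j y l) =
      ∑ k ∈ Finset.range r₂, ∑ l ∈ Finset.range r₂,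
        cx θ HR₂ HI₂ 0 l k * cx θ WR WI j x k * star (cx θ WR WI i y l))
    (hLVR : checkLay na nb r₁ VR VR' = true) (hLVI : checkLay na nb r₁ VI VI' = true)
    (hLW : ∀ j < nc, ∀ x < nb, ∀ l < r₂, cx θ WR WI j x l = cx θ WR' WI' l j x)
    (hN : ∀ t < nt, ∀ k < r₁, ∀ l < r₂,
      ∑ i ∈ Finset.range na, ∑ j ∈ Finset.range nc, (evL θ (entA N t j i) : ℂ) *
        ∑ x ∈ Finset.range nb, cx θ VR' VI' k x i * cx θ WR' WI' l j x = 0)
    (hP₁ : (Matrix.of fun k l : Fin r₁ => cx θ HR₁ HI₁ 0 l k).PosDef)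
    (hP₂ : (Matrix.of fun k l : Fin r₂ => cx θ HR₂ HI₂ 0 l k).PosDef)
    (hfree : ∀ (u : Fin na → ℂ) (v : Fin nc → ℂ),
      (∀ t : Fin nt, ∑ i : Fin na, ∑ j : Fin nc, (evL θ (entA N t j i) : ℂ) * u i * v j = 0) →
        u = 0 ∨ v = 0)
    (hne : ∃ k < r₁, ∃ l < r₂, ∃ i < na, ∃ j < nc,
      ∑ x ∈ Finset.range nb, cx θ VR VI i x k * cx θ WR WI j x l ≠ 0) :
    Concl541 := by
  refine concl541_of_gramH (a := Fin na) (b := Fin nb) (c := Fin nc) (κ₁ := Fin r₁) (κ₂ := Fin r₂)
    (by simpa using hna) (by simpa using hnb) (by simpa using hnc)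
    _ hP₁ (fun k i x => cx θ VR VI i x k) _ hP₂ (fun l x j => cx θ WR WI j x l)
    ?_ ?_ (ι := Fin nt) (fun t i j => (evL θ (entA N t j i) : ℂ)) ?_ hfree ?_
  · intro i j x y
    have h := hT₁ i i.2 j j.2 x x.2 y y.2
    simp only [Finset.sum_range] at h
    simp only [Matrix.of_apply]
    exact h
  · intro x y i j
    have h := hT₂ i i.2 j j.2 x x.2 y y.2
    simp only [Finset.sum_range] at h
    simp only [Matrix.of_apply]
    exact h
  · intro t k l
    have h := hN t t.2 k k.2 l l.2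
    simp only [Finset.sum_range] at h
    rw [← h]
    refine Finset.sum_congr rfl fun i _ => Finset.sum_congr rfl fun j _ => ?_
    congr 1
    refine Finset.sum_congr rfl fun x _ => ?_
    rw [hLW j j.2 x x.2 l l.2]
    congr 1
    unfold cx
    rw [checkLay_sound hLVR i.2 x.2 k.2, checkLay_sound hLVI i.2 x.2 k.2]
  · obtain ⟨k, hk, l, hl, i, hi, j, hj, hs⟩ := hne
    refine ⟨⟨k, hk⟩, ⟨l, hl⟩, ⟨i, hi⟩, ⟨j, hj⟩, ?_⟩
    rw [Finset.sum_range] at hs
    exact hs

end Crest.Agent.R345
end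

-- ▼ part R345/PosCheck
section

/-!
# Positivity checks (row 345)
-/

set_option autoImplicit false
set_option linter.unusedSectionVars false

namespace Crest.Agent.R345

open scoped ComplexOrder MatrixOrder
open Matrix

theorem posDef_of_diagDom {n : ℕ} {M : Matrix (Fin n) (Fin n) ℂ} (hM : M.IsHermitian)
    (hd : ∀ i, ∑ j ∈ Finset.univ.erase i, ‖M i j‖ < (M i i).re) : M.PosDef := by
  rw [hM.posDef_iff_eigenvalues_pos]
  intro i
  have hev : Module.End.HasEigenvalue (Matrix.toLin' M) (hM.eigenvalues i : ℂ) := by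
    refine Module.End.hasEigenvalue_of_hasEigenvector
      (x := WithLp.ofLp (hM.eigenvectorBasis i)) ⟨?_, ?_⟩
    · rw [Module.End.mem_eigenspace_iff, Matrix.toLin'_apply]
      exact hM.mulVec_eigenvectorBasis i
    · intro h
      have h2 := hM.eigenvectorBasis.orthonormal.ne_zero i
      exact h2 ((WithLp.ofLp_eq_zero 2).1 h)
  obtain ⟨k, hk⟩ := eigenvalue_mem_ball hev
  have h1 := hd k
  rw [Metric.mem_closedBall, dist_eq_norm] at hk
  have h2 : ((M k k).re - hM.eigenvalues i) ≤ ‖(hM.eigenvalues i : ℂ) - M k k‖ := by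
    have h3 := Complex.abs_re_le_norm ((hM.eigenvalues i : ℂ) - M k k)
    rw [Complex.sub_re, Complex.ofReal_re] at h3
    have := neg_abs_le (hM.eigenvalues i - (M k k).re)
    linarith
  linarith

theorem posDef_of_congr {n : ℕ} {H P : Matrix (Fin n) (Fin n) ℂ} (hH : H.IsHermitian)
    (hd : ∀ i, ∑ j ∈ Finset.univ.erase i, ‖(P * H * Pᴴ) i j‖ < ((P * H * Pᴴ) i i).re) :
    H.PosDef := by
  have hM : (P * H * Pᴴ).IsHermitian := by
    unfold Matrix.IsHermitian
    rw [Matrix.conjTranspose_mul, Matrix.conjTranspose_mul, Matrix.conjTranspose_conjTranspose,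
      hH.eq, Matrix.mul_assoc]
  have hpd := posDef_of_diagDom hM hd
  have hu : IsUnit P := by
    have h1 := hpd.isUnit
    rw [Matrix.mul_assoc] at h1
    rw [Matrix.isUnit_iff_isUnit_det] at h1 ⊢
    rw [Matrix.det_mul] at h1
    exact isUnit_of_mul_isUnit_left h1
  exact (Matrix.IsUnit.posDef_star_right_conjugate_iff hu).1 hpd

/-! ### Horner enclosures -/

/-- Enclosure of `2^q * evL θ cs`, given an enclosure `[tl, th]` of `2^q θ`. -/
def horn (q : ℕ) (tl th : ℤ) : List ℤ → ℤ × ℤ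
  | [] => (0, 0)
  | c :: cs =>
    (c * 2 ^ q + (if 0 ≤ (horn q tl th cs).1 then tl * (horn q tl th cs).1
        else th * (horn q tl th cs).1) / 2 ^ q,
      c * 2 ^ q + ((if 0 ≤ (horn q tl th cs).2 then th * (horn q tl th cs).2
        else tl * (horn q tl th cs).2) / 2 ^ q + 1))

theorem horn_sound {q : ℕ} {tl th : ℤ} {θ : ℝ} (h0 : 0 ≤ tl) (h1 : (tl : ℝ) ≤ 2 ^ q * θ)
    (h2 : 2 ^ q * θ ≤ (th : ℝ)) (cs : List ℤ) :
    ((horn q tl th cs).1 : ℝ) ≤ 2 ^ q * evL θ cs ∧
      2 ^ q * evL θ cs ≤ ((horn q tl th cs).2 : ℝ) := by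
  induction cs with
  | nil => simp [horn, evL]
  | cons c cs ih =>
    obtain ⟨ih1, ih2⟩ := ih
    set lo := (horn q tl th cs).1 with hlo
    set hi := (horn q tl th cs).2 with hhi
    set w : ℝ := 2 ^ q * evL θ cs with hw
    set t : ℝ := 2 ^ q * θ with ht
    have hq : (0 : ℝ) < 2 ^ q := by positivity
    have h0' : (0 : ℝ) ≤ tl := by exact_mod_cast h0
    have e : 2 ^ q * evL θ (c :: cs) = c * 2 ^ q + t * w / 2 ^ q := by
      rw [evL, hw, ht]
      field_simp
    rw [e]
    constructor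
    · simp only [horn]
      rw [← hlo]
      push_cast
      have hX : ∀ X : ℤ, (X : ℝ) ≤ t * w → ((X / 2 ^ q : ℤ) : ℝ) ≤ t * w / 2 ^ q := by
        intro X hX
        rw [le_div_iff₀ hq]
        refine le_trans ?_ hX
        have := Int.ediv_mul_le X (show (2 ^ q : ℤ) ≠ 0 by positivity)
        exact_mod_cast this
      have := hX (if 0 ≤ lo then tl * lo else th * lo) (by
        split_ifs with hc
        · push_cast
          have hc' : (0 : ℝ) ≤ lo := by exact_mod_cast hc
          exact mul_le_mul h1 ih1 hc' (h0'.trans h1)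
        · push_cast
          have hc' : (lo : ℝ) ≤ 0 := by exact_mod_cast (not_le.1 hc).le
          calc (th : ℝ) * lo ≤ t * lo := mul_le_mul_of_nonpos_right h2 hc'
            _ ≤ t * w := mul_le_mul_of_nonneg_left ih1 (h0'.trans h1))
      linarith
    · simp only [horn]
      rw [← hhi]
      push_cast
      have hX : ∀ X : ℤ, t * w ≤ (X : ℝ) → t * w / 2 ^ q ≤ ((X / 2 ^ q : ℤ) : ℝ) + 1 := by
        intro X hX
        rw [div_le_iff₀ hq]
        refine le_trans hX ?_
        have := (Int.lt_ediv_add_one_mul_self X (show (0 : ℤ) < 2 ^ q by positivity)).le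
        exact_mod_cast this
      have := hX (if 0 ≤ hi then th * hi else tl * hi) (by
        split_ifs with hc
        · push_cast
          have hc' : (0 : ℝ) ≤ hi := by exact_mod_cast hc
          calc t * w ≤ t * hi := mul_le_mul_of_nonneg_left ih2 (h0'.trans h1)
            _ ≤ th * hi := mul_le_mul_of_nonneg_right h2 hc'
        · push_cast
          have hc' : (hi : ℝ) ≤ 0 := by exact_mod_cast (not_le.1 hc).le
          calc t * w ≤ t * hi := mul_le_mul_of_nonneg_left ih2 (h0'.trans h1)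
            _ ≤ tl * hi := mul_le_mul_of_nonpos_right h1 hc')
      linarith

/-! ### Integer sums -/

/-- `∑ i < n, f i` for integers. -/
def sumZ (n : ℕ) (f : ℕ → ℤ) : ℤ := Nat.rec 0 (fun k ih => ih + f k) n

theorem sumZ_eq (n : ℕ) (f : ℕ → ℤ) : sumZ n f = ∑ i ∈ Finset.range n, f i := by
  induction n with
  | zero => rfl
  | succ n ih =>
    rw [Finset.sum_range_succ, ← ih]
    rfl

/-- Entry of an integer matrix. -/
def ez (L : List (List ℤ)) (i j : ℕ) : ℤ := (L.getD i []).getD j 0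

/-- Real part of `∑ k l, P i k * H k l * conj (P j l)`. -/
def mre (r : ℕ) (A B PR PI : ℕ → ℕ → ℤ) (i j : ℕ) : ℤ :=
  sumZ r fun k => sumZ r fun l =>
    (PR i k * PR j l + PI i k * PI j l) * A k l - (PI i k * PR j l - PR i k * PI j l) * B k l

/-- Imaginary part of `∑ k l, P i k * H k l * conj (P j l)`. -/
def mim (r : ℕ) (A B PR PI : ℕ → ℕ → ℤ) (i j : ℕ) : ℤ :=
  sumZ r fun k => sumZ r fun l =>
    (PR i k * PR j l + PI i k * PI j l) * B k l + (PI i k * PR j l - PR i k * PI j l) * A k l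

/-- `l¹` norm of a row. -/
def nrow (r : ℕ) (PR PI : ℕ → ℕ → ℤ) (i : ℕ) : ℤ :=
  sumZ r fun k => (PR i k).natAbs + (PI i k).natAbs

/-- Diagonal dominance of row `i`. -/
def ddRow (r : ℕ) (E : ℤ) (A B PR PI : ℕ → ℕ → ℤ) (i : ℕ) : Bool :=
  decide ((sumZ r fun j => if j = i then 0 else
      ((mre r A B PR PI i j).natAbs : ℤ) + (mim r A B PR PI i j).natAbs) +
    2 * E * nrow r PR PI i * (sumZ r fun j => nrow r PR PI j) < mre r A B PR PI i i)

theorem posDef_of_ddRow {r : ℕ} {s : ℝ} (hs : 0 < s) {E : ℤ} (hE : 0 ≤ E)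
    (hr hi : ℕ → ℕ → ℝ) (A B PR PI : ℕ → ℕ → ℤ)
    (hA : ∀ k < r, ∀ l < r, |s * hr k l - A k l| ≤ E)
    (hB : ∀ k < r, ∀ l < r, |s * hi k l - B k l| ≤ E)
    (hsym : ∀ k < r, ∀ l < r, hr k l = hr l k) (hant : ∀ k < r, ∀ l < r, hi k l = -hi l k)
    (hdd : ∀ i < r, ddRow r E A B PR PI i = true) :
    (Matrix.of fun k l : Fin r => (hr k l : ℂ) + (hi k l : ℂ) * Complex.I).PosDef := by
  set H : Matrix (Fin r) (Fin r) ℂ :=
    Matrix.of fun k l : Fin r => (hr k l : ℂ) + (hi k l : ℂ) * Complex.I with hH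
  set P : Matrix (Fin r) (Fin r) ℂ :=
    Matrix.of fun i k : Fin r => (PR i k : ℂ) + (PI i k : ℂ) * Complex.I with hP
  have hHerm : H.IsHermitian := by
    ext k l
    rw [Matrix.conjTranspose_apply, hH, Matrix.of_apply, Matrix.of_apply,
      hsym k k.2 l l.2, hant k k.2 l l.2]
    simp
  refine posDef_of_congr (P := P) hHerm ?_
  have hent : ∀ i j, (P * H * Pᴴ) i j = ∑ k : Fin r, ∑ l : Fin r,
      P i k * star (P j l) * H k l := by
    intro i j
    rw [Matrix.mul_apply]
    simp_rw [Matrix.mul_apply, Finset.sum_mul, Matrix.conjTranspose_apply]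
    rw [Finset.sum_comm]
    exact Finset.sum_congr rfl fun k _ => Finset.sum_congr rfl fun l _ => by ring
  -- approximations
  have hMn : ∀ i j : Fin r, ((mre r A B PR PI i j : ℝ) : ℂ) +
      ((mim r A B PR PI i j : ℝ) : ℂ) * Complex.I =
      ∑ k : Fin r, ∑ l : Fin r, P i k * star (P j l) *
        ((A k l : ℂ) + (B k l : ℂ) * Complex.I) := by
    intro i j
    unfold mre mim
    simp only [sumZ_eq]
    push_cast
    simp only [Finset.sum_range, Finset.sum_mul, ← Finset.sum_add_distrib]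
    refine Finset.sum_congr rfl fun k _ => Finset.sum_congr rfl fun l _ => ?_
    simp only [hP, Matrix.of_apply, star_add, star_mul', star_intCast]
    rw [RCLike.star_def, Complex.conj_I]
    linear_combination ((PR i k : ℂ) * (PI j l) * (B k l) - (PI i k : ℂ) * (PR j l) * (B k l)
      + (PI i k : ℂ) * (PI j l) * (A k l)
      + (PI i k : ℂ) * (PI j l) * (B k l) * Complex.I) * Complex.I_mul_I
  have hN : ∀ i : Fin r, ∑ k : Fin r, ‖P i k‖ ≤ (nrow r PR PI i : ℝ) := by
    intro i
    unfold nrow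
    rw [sumZ_eq, Finset.sum_range]
    push_cast
    refine Finset.sum_le_sum fun k _ => ?_
    rw [hP, Matrix.of_apply]
    refine (norm_add_le _ _).trans (le_of_eq ?_)
    rw [norm_mul, Complex.norm_I, mul_one, Complex.norm_intCast, Complex.norm_intCast]
  have hdiff : ∀ i j : Fin r, ‖(s : ℂ) * (P * H * Pᴴ) i j -
      (((mre r A B PR PI i j : ℝ) : ℂ) + ((mim r A B PR PI i j : ℝ) : ℂ) * Complex.I)‖ ≤
      2 * E * nrow r PR PI i * nrow r PR PI j := by
    intro i j
    rw [hMn, hent, Finset.mul_sum, ← Finset.sum_sub_distrib]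
    simp_rw [Finset.mul_sum, ← Finset.sum_sub_distrib]
    calc ‖∑ k : Fin r, ∑ l : Fin r, ((s : ℂ) * (P i k * star (P j l) * H k l) -
          P i k * star (P j l) * ((A k l : ℂ) + (B k l : ℂ) * Complex.I))‖
        ≤ ∑ k : Fin r, ∑ l : Fin r, ‖P i k‖ * ‖P j l‖ * (2 * E) := by
          refine (norm_sum_le _ _).trans (Finset.sum_le_sum fun k _ => ?_)
          refine (norm_sum_le _ _).trans (Finset.sum_le_sum fun l _ => ?_)
          have e : (s : ℂ) * (P i k * star (P j l) * H k l) -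
              P i k * star (P j l) * ((A k l : ℂ) + (B k l : ℂ) * Complex.I) =
              P i k * star (P j l) * (((s * hr k l - A k l : ℝ) : ℂ) +
                ((s * hi k l - B k l : ℝ) : ℂ) * Complex.I) := by
            rw [hH, Matrix.of_apply]
            push_cast
            ring
          rw [e, norm_mul, norm_mul, norm_star]
          refine mul_le_mul_of_nonneg_left ?_ (by positivity)
          refine (norm_add_le _ _).trans ?_
          rw [norm_mul, Complex.norm_I, mul_one, Complex.norm_real, Complex.norm_real,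
            Real.norm_eq_abs, Real.norm_eq_abs]
          have := hA k k.2 l l.2
          have := hB k k.2 l l.2
          linarith
      _ = 2 * E * (∑ k : Fin r, ‖P i k‖) * (∑ l : Fin r, ‖P j l‖) := by
          simp_rw [← Finset.sum_mul, ← Finset.mul_sum]
          rw [← Finset.sum_mul]
          ring
      _ ≤ 2 * E * nrow r PR PI i * nrow r PR PI j := by
          have hE' : (0 : ℝ) ≤ E := by exact_mod_cast hE
          have h1 := hN i
          have h2 := hN j
          have h3 : 0 ≤ ∑ k : Fin r, ‖P i k‖ := Finset.sum_nonneg fun _ _ => norm_nonneg _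
          have h4 : 0 ≤ ∑ k : Fin r, ‖P j k‖ := Finset.sum_nonneg fun _ _ => norm_nonneg _
          exact mul_le_mul (mul_le_mul_of_nonneg_left h1 (by positivity)) h2 h4
            (mul_nonneg (by positivity) (h3.trans h1))
  intro i
  have h := of_decide_eq_true (hdd i i.2)
  have h' : ((sumZ r fun j => if j = i.1 then 0 else
      ((mre r A B PR PI i j).natAbs : ℤ) + (mim r A B PR PI i j).natAbs : ℤ) : ℝ) +
      2 * E * nrow r PR PI i * (sumZ r fun j => nrow r PR PI j : ℤ) <
      (mre r A B PR PI i i : ℝ) := by exact_mod_cast h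
  rw [sumZ_eq, sumZ_eq, Finset.sum_range, Finset.sum_range] at h'
  push_cast at h'
  have h3 : ∑ j ∈ Finset.univ.erase i, (|(mre r A B PR PI i j : ℝ)| +
      |(mim r A B PR PI i j : ℝ)|) =
      ∑ x : Fin r, if (x : ℕ) = i then (0 : ℝ) else
        |(mre r A B PR PI i x : ℝ)| + |(mim r A B PR PI i x : ℝ)| := by
    rw [← Finset.add_sum_erase _ _ (Finset.mem_univ i), if_pos rfl, zero_add]
    refine Finset.sum_congr rfl fun j hj => ?_
    rw [if_neg]
    intro hji
    exact (Finset.mem_erase.1 hj).1 (Fin.ext hji)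
  have h4 : ∑ j ∈ Finset.univ.erase i, (nrow r PR PI j : ℝ) + nrow r PR PI i =
      ∑ x : Fin r, (nrow r PR PI x : ℝ) := by
    rw [← Finset.add_sum_erase _ _ (Finset.mem_univ i), add_comm]
  have h5 : s * ∑ j ∈ Finset.univ.erase i, ‖(P * H * Pᴴ) i j‖ ≤
      ∑ j ∈ Finset.univ.erase i, (|(mre r A B PR PI i j : ℝ)| + |(mim r A B PR PI i j : ℝ)|) +
        2 * E * nrow r PR PI i * ∑ j ∈ Finset.univ.erase i, (nrow r PR PI j : ℝ) := by
    rw [Finset.mul_sum, Finset.mul_sum, ← Finset.sum_add_distrib]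
    refine Finset.sum_le_sum fun j _ => ?_
    have h6 := hdiff i j
    have h7 : ‖(s : ℂ) * (P * H * Pᴴ) i j‖ = s * ‖(P * H * Pᴴ) i j‖ := by
      rw [norm_mul, Complex.norm_real, Real.norm_eq_abs, abs_of_pos hs]
    rw [← h7]
    have h8 := norm_le_norm_add_norm_sub' ((s : ℂ) * (P * H * Pᴴ) i j)
      (((mre r A B PR PI i j : ℝ) : ℂ) + ((mim r A B PR PI i j : ℝ) : ℂ) * Complex.I)
    have h9 : ‖((mre r A B PR PI i j : ℝ) : ℂ) + ((mim r A B PR PI i j : ℝ) : ℂ) * Complex.I‖ ≤
        |(mre r A B PR PI i j : ℝ)| + |(mim r A B PR PI i j : ℝ)| := by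
      refine (norm_add_le _ _).trans (le_of_eq ?_)
      rw [norm_mul, Complex.norm_I, mul_one, Complex.norm_real, Complex.norm_real,
        Real.norm_eq_abs, Real.norm_eq_abs]
    linarith
  have h10 : (mre r A B PR PI i i : ℝ) - 2 * E * nrow r PR PI i * nrow r PR PI i ≤
      s * ((P * H * Pᴴ) i i).re := by
    have h6 := (Complex.abs_re_le_norm _).trans (hdiff i i)
    have h7 : ((s : ℂ) * (P * H * Pᴴ) i i -
      (((mre r A B PR PI i i : ℝ) : ℂ) + ((mim r A B PR PI i i : ℝ) : ℂ) * Complex.I)).re =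
      s * ((P * H * Pᴴ) i i).re - mre r A B PR PI i i := by
      rw [Complex.sub_re, Complex.re_ofReal_mul, Complex.add_re, Complex.ofReal_re,
        Complex.re_ofReal_mul, Complex.I_re, mul_zero, add_zero]
    rw [h7] at h6
    have := neg_abs_le (s * ((P * H * Pᴴ) i i).re - mre r A B PR PI i i)
    linarith
  rw [h3] at h5
  rw [← h4] at h'
  have h11 : s * ∑ j ∈ Finset.univ.erase i, ‖(P * H * Pᴴ) i j‖ < s * ((P * H * Pᴴ) i i).re := by
    refine lt_of_le_of_lt h5 (lt_of_lt_of_le ?_ h10)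
    linarith [mul_add (2 * (E : ℝ) * nrow r PR PI i)
      (∑ j ∈ Finset.univ.erase i, (nrow r PR PI j : ℝ)) (nrow r PR PI i)]
  exact lt_of_mul_lt_mul_left h11 hs.le

/-- `2^q * evL θ cs` is within `E` of `A`. -/
def nearL (q : ℕ) (tl th E A : ℤ) (cs : List ℤ) : Bool :=
  decide (A - E ≤ (horn q tl th cs).1) && decide ((horn q tl th cs).2 ≤ A + E)

theorem nearL_sound {q : ℕ} {tl th E A : ℤ} {θ : ℝ} (h0 : 0 ≤ tl) (h1 : (tl : ℝ) ≤ 2 ^ q * θ)
    (h2 : 2 ^ q * θ ≤ (th : ℝ)) {cs : List ℤ} (h : nearL q tl th E A cs = true) :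
    |2 ^ q * evL θ cs - A| ≤ E := by
  rw [nearL, Bool.and_eq_true] at h
  have a1 : ((A - E : ℤ) : ℝ) ≤ ((horn q tl th cs).1 : ℝ) := by
    exact_mod_cast of_decide_eq_true h.1
  have a2 : ((horn q tl th cs).2 : ℝ) ≤ ((A + E : ℤ) : ℝ) := by
    exact_mod_cast of_decide_eq_true h.2
  push_cast at a1 a2
  have h3 := horn_sound h0 h1 h2 cs
  rw [abs_le]
  constructor <;> linarith [h3.1, h3.2]

/-- Dot product of lists of integers. -/
def zdot (xs : List ℤ) : List ℤ → ℤ :=
  @List.rec ℤ (fun _ => List ℤ → ℤ) (fun _ => 0)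
    (fun x _ ih ys => Int.add (Int.mul x (@List.rec ℤ (fun _ => ℤ) 0 (fun y _ _ => y) ys))
      (ih (@List.rec ℤ (fun _ => List ℤ) [] (fun _ ys' _ => ys') ys))) xs

theorem zdot_eq (n : ℕ) (xs ys : List ℤ) (hx : xs.length ≤ n) :
    zdot xs ys = ∑ i ∈ Finset.range n, xs.getD i 0 * ys.getD i 0 := by
  induction xs generalizing n ys with
  | nil => simp [zdot]
  | cons x xs ih =>
    cases n with
    | zero => simp at hx
    | succ n =>
      rw [Finset.sum_range_succ']
      cases ys with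
      | nil =>
        have : zdot (x :: xs) [] = x * 0 + zdot xs [] := rfl
        rw [this, ih n [] (by simpa using hx)]
        simp
      | cons y ys =>
        have : zdot (x :: xs) (y :: ys) = x * y + zdot xs ys := rfl
        rw [this, ih n ys (by simpa using hx), add_comm]
        simp

/-- Row of an integer matrix. -/
def rz (L : List (List ℤ)) (i : ℕ) : List ℤ := L.getD i []

/-- Check of `U j k = ∑ l, H k l * conj (P j l)`. -/
def uCheck (r : ℕ) (AR AI PR PI UR UI : List (List ℤ)) : Bool :=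
  allN r fun j => Nat.ble (rz PR j).length r && Nat.ble (rz PI j).length r && allN r fun k =>
    decide (zdot (rz PR j) (rz AR k) + zdot (rz PI j) (rz AI k) = ez UR j k) &&
    decide (zdot (rz PR j) (rz AI k) - zdot (rz PI j) (rz AR k) = ez UI j k)

/-- Real part of an entry, in two steps. -/
def mre' (PR PI UR UI : List (List ℤ)) (i j : ℕ) : ℤ :=
  zdot (rz PR i) (rz UR j) - zdot (rz PI i) (rz UI j)

/-- Imaginary part of an entry, in two steps. -/
def mim' (PR PI UR UI : List (List ℤ)) (i j : ℕ) : ℤ :=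
  zdot (rz PR i) (rz UI j) + zdot (rz PI i) (rz UR j)

theorem mre'_eq {r : ℕ} {AR AI PR PI UR UI : List (List ℤ)}
    (h : uCheck r AR AI PR PI UR UI = true) {i j : ℕ} (hi : i < r) (hj : j < r) :
    mre' PR PI UR UI i j = mre r (ez AR) (ez AI) (ez PR) (ez PI) i j ∧
      mim' PR PI UR UI i j = mim r (ez AR) (ez AI) (ez PR) (ez PI) i j := by
  have hh := (allN_iff _ _).1 h
  have hlen : ∀ i < r, (rz PR i).length ≤ r ∧ (rz PI i).length ≤ r := by
    intro i hi
    have h1 := hh i hi
    simp only [Bool.and_eq_true] at h1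
    exact ⟨Nat.le_of_ble_eq_true h1.1.1, Nat.le_of_ble_eq_true h1.1.2⟩
  have hU : ∀ k < r, ez UR j k = (∑ l ∈ Finset.range r, ez PR j l * ez AR k l) +
        (∑ l ∈ Finset.range r, ez PI j l * ez AI k l) ∧
      ez UI j k = (∑ l ∈ Finset.range r, ez PR j l * ez AI k l) -
        (∑ l ∈ Finset.range r, ez PI j l * ez AR k l) := by
    intro k hk
    have h1 := hh j hj
    simp only [Bool.and_eq_true] at h1
    have h2 := (allN_iff _ _).1 h1.2 k hk
    simp only [Bool.and_eq_true, decide_eq_true_eq] at h2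
    obtain ⟨h3, h4⟩ := h2
    rw [zdot_eq r _ _ (hlen j hj).1, zdot_eq r _ _ (hlen j hj).2] at h3 h4
    exact ⟨h3.symm, h4.symm⟩
  constructor
  · unfold mre' mre
    rw [zdot_eq r _ _ (hlen i hi).1, zdot_eq r _ _ (hlen i hi).2]
    simp only [sumZ_eq]
    rw [← Finset.sum_sub_distrib]
    refine Finset.sum_congr rfl fun k hk => ?_
    have hk' := Finset.mem_range.1 hk
    change ez PR i k * ez UR j k - ez PI i k * ez UI j k = _
    rw [(hU k hk').1, (hU k hk').2, mul_add, mul_sub, Finset.mul_sum, Finset.mul_sum,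
      Finset.mul_sum, Finset.mul_sum, ← Finset.sum_add_distrib, ← Finset.sum_sub_distrib,
      ← Finset.sum_sub_distrib]
    exact Finset.sum_congr rfl fun l _ => by ring
  · unfold mim' mim
    rw [zdot_eq r _ _ (hlen i hi).1, zdot_eq r _ _ (hlen i hi).2]
    simp only [sumZ_eq]
    rw [← Finset.sum_add_distrib]
    refine Finset.sum_congr rfl fun k hk => ?_
    have hk' := Finset.mem_range.1 hk
    change ez PR i k * ez UI j k + ez PI i k * ez UR j k = _
    rw [(hU k hk').1, (hU k hk').2, mul_add, mul_sub, Finset.mul_sum, Finset.mul_sum,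
      Finset.mul_sum, Finset.mul_sum, ← Finset.sum_add_distrib, ← Finset.sum_sub_distrib,
      ← Finset.sum_add_distrib]
    exact Finset.sum_congr rfl fun l _ => by ring

/-- Diagonal dominance of row `i`, in two steps. -/
def ddRow' (r : ℕ) (E : ℤ) (PR PI UR UI : List (List ℤ)) (i : ℕ) : Bool :=
  decide ((sumZ r fun j => if j = i then 0 else
      ((mre' PR PI UR UI i j).natAbs : ℤ) + (mim' PR PI UR UI i j).natAbs) +
    2 * E * nrow r (ez PR) (ez PI) i * (sumZ r fun j => nrow r (ez PR) (ez PI) j) <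
      mre' PR PI UR UI i i)

theorem ddRow'_iff {r : ℕ} {E : ℤ} {AR AI PR PI UR UI : List (List ℤ)}
    (h : uCheck r AR AI PR PI UR UI = true) {i : ℕ} (hi : i < r)
    (hd : ddRow' r E PR PI UR UI i = true) :
    ddRow r E (ez AR) (ez AI) (ez PR) (ez PI) i = true := by
  unfold ddRow
  unfold ddRow' at hd
  rw [decide_eq_true_eq] at hd ⊢
  rw [(mre'_eq h hi hi).1] at hd
  refine lt_of_eq_of_lt ?_ hd
  congr 1
  rw [sumZ_eq, sumZ_eq]
  refine Finset.sum_congr rfl fun j hj => ?_
  rw [(mre'_eq h hi (Finset.mem_range.1 hj)).1, (mre'_eq h hi (Finset.mem_range.1 hj)).2]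

/-- Comparison of the data with the scaled approximations. -/
def nearCheck (q : ℕ) (tl th E : ℤ) (r : ℕ) (HR HI : A3) (AR AI : List (List ℤ)) : Bool :=
  allN r fun k => allN r fun l =>
    nearL q tl th E (ez AR k l) (entA HR 0 l k) && nearL q tl th E (ez AI k l) (entA HI 0 l k) &&
      (entA HR 0 l k == entA HR 0 k l) && (entA HI 0 l k == (entA HI 0 k l).map Int.neg)

/-- Positivity check for the Hermitian matrix with entries `HR [0][l][k] + i HI [0][l][k]`;
`AR`, `AI` are approximations scaled by `2^q`, `PR`, `PI` is a preconditioner. -/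
def posCheck (r : ℕ) (E : ℤ) (PR PI UR UI : List (List ℤ)) : Bool :=
  allN r fun i => ddRow' r E PR PI UR UI i

theorem posCheck_sound {q : ℕ} {tl th E : ℤ} {θ : ℝ} (h0 : 0 ≤ tl) (h1 : (tl : ℝ) ≤ 2 ^ q * θ)
    (h2 : 2 ^ q * θ ≤ (th : ℝ)) (hE : 0 ≤ E) {r : ℕ} {HR HI : A3}
    {AR AI PR PI UR UI : List (List ℤ)}
    (ha : nearCheck q tl th E r HR HI AR AI = true)
    (hu : uCheck r AR AI PR PI UR UI = true)
    (hb : posCheck r E PR PI UR UI = true) :
    (Matrix.of fun k l : Fin r => cx θ HR HI 0 l k).PosDef := by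
  have hk : ∀ k < r, ∀ l < r, _ := fun k hk l hl =>
    (allN_iff _ _).1 ((allN_iff _ _).1 ha k hk) l hl
  simp only [Bool.and_eq_true] at hk
  refine posDef_of_ddRow (s := 2 ^ q) (by positivity) hE (fun k l => evL θ (entA HR 0 l k))
    (fun k l => evL θ (entA HI 0 l k)) (ez AR) (ez AI) (ez PR) (ez PI) ?_ ?_ ?_ ?_
    fun i hi => ddRow'_iff hu hi ((allN_iff _ _).1 hb i hi)
  · exact fun k h l h' => nearL_sound h0 h1 h2 (hk k h l h').1.1.1
  · exact fun k h l h' => nearL_sound h0 h1 h2 (hk k h l h').1.1.2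
  · intro k h l h'
    rw [eq_of_beq (hk k h l h').1.2]
  · intro k h l h'
    rw [eq_of_beq (hk k h l h').2, evL_neg]

/-! ### Non-vanishing -/

/-- Sum of coefficient lists. -/
def addL : List ℤ → List ℤ → List ℤ
  | x :: xs, y :: ys => (x + y) :: addL xs ys
  | xs, [] => xs
  | [], ys => ys

/-- Scalar multiple of a coefficient list. -/
def smulL (a : ℤ) (xs : List ℤ) : List ℤ := xs.map fun x => a * x

/-- Product of coefficient lists. -/
def mulL : List ℤ → List ℤ → List ℤ
  | x :: xs, ys => addL (smulL x ys) (0 :: mulL xs ys)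
  | [], _ => []

theorem evL_addL (θ : ℝ) (xs ys : List ℤ) : evL θ (addL xs ys) = evL θ xs + evL θ ys := by
  induction xs generalizing ys with
  | nil => cases ys <;> simp [addL, evL]
  | cons x xs ih =>
    cases ys with
    | nil => simp [addL, evL]
    | cons y ys =>
      simp only [addL, evL, ih]
      push_cast
      ring

theorem evL_smulL (θ : ℝ) (a : ℤ) (xs : List ℤ) : evL θ (smulL a xs) = a * evL θ xs := by
  induction xs with
  | nil => simp [smulL, evL]
  | cons x xs ih =>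
    have : smulL a (x :: xs) = (a * x) :: smulL a xs := rfl
    rw [this]
    simp only [evL, ih]
    push_cast
    ring

theorem evL_mulL (θ : ℝ) (xs ys : List ℤ) : evL θ (mulL xs ys) = evL θ xs * evL θ ys := by
  induction xs with
  | nil => simp [mulL, evL]
  | cons x xs ih =>
    simp only [mulL, evL_addL, evL_smulL, evL, ih]
    push_cast
    ring

/-- Sum of coefficient lists over a range. -/
def sumLs (n : ℕ) (f : ℕ → List ℤ) : List ℤ := Nat.rec [] (fun k ih => addL ih (f k)) n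

theorem evL_sumLs (θ : ℝ) (n : ℕ) (f : ℕ → List ℤ) :
    evL θ (sumLs n f) = ∑ i ∈ Finset.range n, evL θ (f i) := by
  induction n with
  | zero => rfl
  | succ n ih =>
    rw [Finset.sum_range_succ, ← ih, ← evL_addL]
    rfl

/-- Non-vanishing of the real part of one entry of a product. -/
def neCheck (q : ℕ) (tl th : ℤ) (nb : ℕ) (VR VI WR WI : A3) (i k j l : ℕ) : Bool :=
  let z := horn q tl th (sumLs nb fun x => addL (mulL (entA VR i x k) (entA WR j x l))
    ((mulL (entA VI i x k) (entA WI j x l)).map Int.neg))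
  decide (0 < z.1) || decide (z.2 < 0)

theorem neCheck_sound {q : ℕ} {tl th : ℤ} {θ : ℝ} (h0 : 0 ≤ tl) (h1 : (tl : ℝ) ≤ 2 ^ q * θ)
    (h2 : 2 ^ q * θ ≤ (th : ℝ)) {nb : ℕ} {VR VI WR WI : A3} {i k j l : ℕ}
    (h : neCheck q tl th nb VR VI WR WI i k j l = true) :
    ∑ x ∈ Finset.range nb, cx θ VR VI i x k * cx θ WR WI j x l ≠ 0 := by
  intro hz
  have hre := congrArg Complex.re hz
  rw [Complex.re_sum, Complex.zero_re] at hre
  have e : ∑ x ∈ Finset.range nb, (cx θ VR VI i x k * cx θ WR WI j x l).re =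
      evL θ (sumLs nb fun x => addL (mulL (entA VR i x k) (entA WR j x l))
        ((mulL (entA VI i x k) (entA WI j x l)).map Int.neg)) := by
    rw [evL_sumLs]
    refine Finset.sum_congr rfl fun x _ => ?_
    rw [evL_addL, evL_neg, evL_mulL, evL_mulL]
    simp [cx]
    ring
  rw [e] at hre
  have h3 := horn_sound h0 h1 h2 (sumLs nb fun x => addL (mulL (entA VR i x k) (entA WR j x l))
    ((mulL (entA VI i x k) (entA WI j x l)).map Int.neg))
  rw [hre, mul_zero] at h3
  simp only [neCheck, Bool.or_eq_true, decide_eq_true_eq] at h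
  rcases h with h | h
  · exact absurd h (not_lt.2 (by exact_mod_cast h3.1))
  · exact absurd h (not_lt.2 (by exact_mod_cast h3.2))

end Crest.Agent.R345
private theorem rz_527eb165f7 : type_of% @_root_.Crest.Agent.R345.addL.eq_def := @_root_.Crest.Agent.R345.addL.eq_def -- L462
private theorem rz_86b697f875 : type_of% @_root_.Crest.Agent.R345.addL.eq_1 := @_root_.Crest.Agent.R345.addL.eq_1 -- L462
private theorem rz_7d39f30001 : type_of% @_root_.Crest.Agent.R345.horn.eq_def := @_root_.Crest.Agent.R345.horn.eq_def -- L57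
private theorem rz_22b86c23c6 : type_of% @_root_.Crest.Agent.R345.horn.eq_1 := @_root_.Crest.Agent.R345.horn.eq_1 -- L57
private theorem rz_e405c6bd1b : type_of% @_root_.Crest.Agent.R345.mulL.eq_def := @_root_.Crest.Agent.R345.mulL.eq_def -- L471
private theorem rz_33a484b295 : type_of% @_root_.Crest.Agent.R345.mulL.eq_1 := @_root_.Crest.Agent.R345.mulL.eq_1 -- L471
end

-- ▼ part R345/Residue
section

/-!
# Reduction of bilinear systems modulo a prime (row 345)

A finite system of bilinear forms with coefficients in a ring `A ⊆ ℂ` has no common zero `(u, v)`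
with `u ≠ 0`, `v ≠ 0` over `ℂ` as soon as its reduction has none over every field `k` receiving
`A` and killing a given proper ideal `I` of `A`.
-/

set_option autoImplicit false

namespace Crest.Agent.R345

open IsLocalRing

universe u

variable {K : Type u} [Field K]

/-- A valuation ring of `K` containing the image of `A` and centered over a proper ideal. -/
theorem exists_valuationSubring_over {A : Type*} [CommRing A] (φ : A →+* K) (I : Ideal A)
    (hI : I ⊔ RingHom.ker φ ≠ ⊤) :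
    ∃ B : ValuationSubring K, (∀ a, φ a ∈ B) ∧ ∀ a ∈ I, φ a ∈ B.nonunits := by
  have hsurj : Function.Surjective φ.rangeRestrict := φ.rangeRestrict_surjective
  have hne : I.map φ.rangeRestrict ≠ ⊤ := by
    intro h
    apply hI
    have h1 : (1 : φ.range) ∈ I.map φ.rangeRestrict := by rw [h]; trivial
    rw [Ideal.mem_map_iff_of_surjective _ hsurj] at h1
    obtain ⟨x, hx, hx1⟩ := h1
    rw [Ideal.eq_top_iff_one]
    have : (1 : A) = x + (1 - x) := by ring
    rw [this]
    refine Submodule.add_mem_sup hx ?_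
    rw [RingHom.mem_ker, map_sub, map_one]
    have := congrArg Subtype.val hx1
    simp only [RingHom.coe_rangeRestrict, OneMemClass.coe_one] at this
    rw [this, sub_self]
  obtain ⟨B, hB1, hB2⟩ := Ideal.image_subset_nonunits_valuationSubring _ hne
  refine ⟨B, fun a => hB1 ⟨a, rfl⟩, fun a ha => hB2 ?_⟩
  exact ⟨φ.rangeRestrict a, Ideal.mem_map_of_mem _ ha, rfl⟩

/-- Scaling a nonzero vector to a primitive one. -/
theorem exists_primitive (B : ValuationSubring K) {n : Type*} [Finite n] (u : n → K) (hu : u ≠ 0) :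
    ∃ (c : K) (w : n → B), c ≠ 0 ∧ (∀ i, (w i : K) = c * u i) ∧ ∃ i, w i = 1 := by
  obtain ⟨i₀, hi₀⟩ : ∃ i, u i ≠ 0 := by
    by_contra h
    push Not at h
    exact hu (funext h)
  have : Nonempty n := ⟨i₀⟩
  obtain ⟨m, hm⟩ := Finite.exists_max (fun i => B.valuation (u i))
  have hm0 : u m ≠ 0 := by
    intro h
    have := hm i₀
    simp only [h, map_zero, le_zero_iff, map_eq_zero] at this
    exact hi₀ this
  have hmem : ∀ i, (u m)⁻¹ * u i ∈ B := by
    intro i
    rw [← B.valuation_le_one_iff, map_mul, map_inv₀]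
    have hv : B.valuation (u m) ≠ 0 := by simpa using hm0
    calc (B.valuation (u m))⁻¹ * B.valuation (u i)
        ≤ (B.valuation (u m))⁻¹ * B.valuation (u m) := by gcongr; exact hm i
      _ = 1 := inv_mul_cancel₀ hv
  refine ⟨(u m)⁻¹, fun i => ⟨(u m)⁻¹ * u i, hmem i⟩, inv_ne_zero hm0, fun i => rfl, m, ?_⟩
  ext
  simp [inv_mul_cancel₀ hm0]

/-- **Reduction lemma.** -/
theorem noCommonZero_of_residue {A : Type*} [CommRing A] (φ : A →+* K) (I : Ideal A)
    (hI : I ⊔ RingHom.ker φ ≠ ⊤) {ι n m : Type*} [Fintype n] [Fintype m]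
    (N : ι → n → m → A)
    (h : ∀ (k : Type u) [Field k] (ψ : A →+* k), (∀ a ∈ I, ψ a = 0) → ∀ (u : n → k) (v : m → k),
      (∀ t, ∑ i, ∑ j, ψ (N t i j) * u i * v j = 0) → u = 0 ∨ v = 0)
    (u : n → K) (v : m → K) (hz : ∀ t, ∑ i, ∑ j, φ (N t i j) * u i * v j = 0) :
    u = 0 ∨ v = 0 := by
  classical
  by_contra hcon
  push Not at hcon
  obtain ⟨hu, hv⟩ := hcon
  obtain ⟨B, hB1, hB2⟩ := exists_valuationSubring_over φ I hI
  obtain ⟨c, u', hc, hu', i₁, hi₁⟩ := exists_primitive B u hu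
  obtain ⟨d, v', hd, hv', j₁, hj₁⟩ := exists_primitive B v hv
  let φB : A →+* B := φ.codRestrict B.toSubring hB1
  let ψ : A →+* ResidueField B := (residue B).comp φB
  have hψ : ∀ a ∈ I, ψ a = 0 := by
    intro a ha
    change residue B (φB a) = 0
    rw [residue_eq_zero_iff]
    have := hB2 a ha
    rw [ValuationSubring.mem_nonunits_iff_exists_mem_maximalIdeal] at this
    obtain ⟨ha', hmem⟩ := this
    exact hmem
  have hzB : ∀ t, ∑ i, ∑ j, φB (N t i j) * u' i * v' j = 0 := by
    intro t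
    apply Subtype.coe_injective
    have : (((∑ i, ∑ j, φB (N t i j) * u' i * v' j : B)) : K) =
        ∑ i, ∑ j, φ (N t i j) * (c * u i) * (d * v j) := by
      push_cast
      refine Finset.sum_congr rfl fun i _ => Finset.sum_congr rfl fun j _ => ?_
      rw [hu', hv']
      rfl
    change ((∑ i, ∑ j, φB (N t i j) * u' i * v' j : B) : K) = ((0 : B) : K)
    rw [this]
    have h2 : ∑ i, ∑ j, φ (N t i j) * (c * u i) * (d * v j) =
        c * d * ∑ i, ∑ j, φ (N t i j) * u i * v j := by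
      rw [Finset.mul_sum]
      refine Finset.sum_congr rfl fun i _ => ?_
      rw [Finset.mul_sum]
      refine Finset.sum_congr rfl fun j _ => ?_
      ring
    rw [h2, hz t, mul_zero]
    rfl
  have hz' : ∀ t, ∑ i, ∑ j, ψ (N t i j) * residue B (u' i) * residue B (v' j) = 0 := by
    intro t
    have := congrArg (residue B) (hzB t)
    rw [map_zero, map_sum] at this
    rw [← this]
    refine Finset.sum_congr rfl fun i _ => ?_
    rw [map_sum]
    refine Finset.sum_congr rfl fun j _ => ?_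
    rw [map_mul, map_mul]
    rfl
  rcases h (ResidueField B) ψ hψ (fun i => residue B (u' i)) (fun j => residue B (v' j)) hz' with
    h0 | h0
  · have := congrFun h0 i₁
    simp only [hi₁, map_one, Pi.zero_apply, one_ne_zero] at this
  · have := congrFun h0 j₁
    simp only [hj₁, map_one, Pi.zero_apply, one_ne_zero] at this

/-- Integer coefficients: it is enough to work over all fields of characteristic `p`. -/
theorem noCommonZero_of_charP [CharZero K] (p : ℕ) [hp : Fact p.Prime]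
    {ι n m : Type*} [Fintype n] [Fintype m]
    (N : ι → n → m → ℤ)
    (h : ∀ (k : Type u) [Field k] [CharP k p], ∀ (u : n → k) (v : m → k),
      (∀ t, ∑ i, ∑ j, (N t i j : k) * u i * v j = 0) → u = 0 ∨ v = 0)
    (u : n → K) (v : m → K) (hz : ∀ t, ∑ i, ∑ j, (N t i j : K) * u i * v j = 0) :
    u = 0 ∨ v = 0 := by
  refine noCommonZero_of_residue (Int.castRingHom K) (Ideal.span {(p : ℤ)}) ?_ N ?_ u v ?_
  · rw [Ideal.ne_top_iff_one]
    intro h1
    have hker : RingHom.ker (Int.castRingHom K) = ⊥ :=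
      (RingHom.injective_iff_ker_eq_bot _).1 (by simpa using Int.cast_injective)
    rw [hker, sup_bot_eq, Ideal.mem_span_singleton] at h1
    have := Int.natCast_dvd_natCast.1 (by simpa using h1 : ((p : ℕ) : ℤ) ∣ ((1 : ℕ) : ℤ))
    exact hp.out.one_lt.ne' (Nat.dvd_one.1 this)
  · intro k _ ψ hψ u' v' hz'
    have hp0 : ((p : ℕ) : k) = 0 := by
      have := hψ (p : ℤ) (Ideal.mem_span_singleton_self _)
      simpa using this
    have : CharP k p := by
      obtain ⟨q, hq⟩ := CharP.exists k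
      have hdvd : q ∣ p := (CharP.cast_eq_zero_iff k q p).1 hp0
      rcases (Nat.dvd_prime hp.out).1 hdvd with h1 | h1
      · exfalso
        subst h1
        have h10 : ((1 : ℕ) : k) = 0 := CharP.cast_eq_zero k 1
        rw [Nat.cast_one] at h10
        exact one_ne_zero h10
      · rw [← h1]; exact hq
    refine h k u' v' fun t => ?_
    have := hz' t
    simpa using this
  · intro t
    simpa using hz t

end Crest.Agent.R345
end

-- ▼ part R345/NFFinal

/-!
# Final assembly helpers (row 345)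
-/

set_option autoImplicit false
set_option linter.unusedSectionVars false

namespace Crest.Agent.R345

open Polynomial
open scoped ComplexOrder MatrixOrder

/-- Two layouts agree: `V i x k = V' k i x`. -/
def checkLay2 (I X K : ℕ) (V V' : A3) : Bool :=
  allN I fun i => allN X fun x => allN K fun k => entA V i x k == entA V' k i x

theorem checkLay2_sound {I X K : ℕ} {V V' : A3} (h : checkLay2 I X K V V' = true)
    {i x k : ℕ} (hi : i < I) (hx : x < X) (hk : k < K) : entA V i x k = entA V' k i x := by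
  have h1 := (allN_iff _ _).1 ((allN_iff _ _).1 ((allN_iff _ _).1 h i hi) x hx) k hk
  exact eq_of_beq h1

theorem bound_of_l1 {A e B L : ℕ} {f : ℤ[X]} (hl : l1 f ≤ L) (h : A * L ^ e + L < B) :
    A * l1 f ^ e + l1 f < B := by
  refine lt_of_le_of_lt ?_ h
  exact Nat.add_le_add (Nat.mul_le_mul_left _ (Nat.pow_le_pow_left hl e)) hl

theorem l1_X_le : l1 (X : ℤ[X]) ≤ 1 := by
  unfold l1
  rw [natDegree_X, Finset.sum_range_succ, Finset.sum_range_one, coeff_X_zero, coeff_X_one]
  simp

/-- First coefficient. -/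
def c0 (L : List ℤ) : ℤ := L.headD 0

theorem evL_zero (L : List ℤ) : evL 0 L = (c0 L : ℝ) := by
  cases L with
  | nil => simp [evL, c0]
  | cons c cs => simp [evL, c0]

/-- Comparison of `N` with its reduction modulo `p`; `N` is in layout `[t][j][i]`. -/
def checkMod (p a nt : ℕ) (N : A3) (e : ℕ → ℕ → ℕ → ℕ) : Bool :=
  allN nt fun t => allN 10 fun i => allN 10 fun j =>
    Nat.beq (Int.toNat ((pkI a (entA N t j i) - (e t i j : ℤ)) % (p : ℤ))) 0

theorem checkMod_sound {p a nt : ℕ} (hp : 0 < p) {N : A3} {e : ℕ → ℕ → ℕ → ℕ}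
    (h : checkMod p a nt N e = true) {t i j : ℕ} (ht : t < nt) (hi : i < 10) (hj : j < 10) :
    (p : ℤ) ∣ pkI a (entA N t j i) - (e t i j : ℤ) := by
  have h1 := Nat.eq_of_beq_eq_true
    ((allN_iff _ _).1 ((allN_iff _ _).1 ((allN_iff _ _).1 h t ht) i hi) j hj)
  rw [Int.toNat_eq_zero] at h1
  have h2 := Int.emod_nonneg (pkI a (entA N t j i) - (e t i j : ℤ))
    (show (p : ℤ) ≠ 0 by exact_mod_cast hp.ne')
  exact Int.dvd_of_emod_eq_zero (le_antisymm h1 h2)

/-- Product-freeness over `ℂ` from product-freeness in characteristic `p`: rational data. -/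
theorem hfree_zero {p : ℕ} [hp : Fact p.Prime] {N : A3} {e : ℕ → ℕ → ℕ → ℕ} {nt : ℕ}
    (hc : checkMod p 0 nt N e = true)
    (h : ∀ (k : Type) [Field k] [CharP k p] (u v : Fin 10 → k),
      (∀ t : Fin nt, ∑ i : Fin 10, ∑ j : Fin 10, ((e t i j : ℕ) : k) * u i * v j = 0) →
        u = 0 ∨ v = 0)
    (u v : Fin 10 → ℂ)
    (hz : ∀ t : Fin nt, ∑ i : Fin 10, ∑ j : Fin 10, (evL 0 (entA N t j i) : ℂ) * u i * v j = 0) :
    u = 0 ∨ v = 0 := by
  have hpk : ∀ L : List ℤ, pkI 0 L = c0 L := by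
    intro L
    cases L with
    | nil => simp [pkI, c0]
    | cons c cs => simp [pkI, c0]
  refine noCommonZero_of_charP (K := ℂ) p (fun (t : Fin nt) (i j : Fin 10) => c0 (entA N t j i))
    ?_ u v ?_
  · intro k _ _ u v hz
    refine h k u v fun t => ?_
    rw [← hz t]
    refine Finset.sum_congr rfl fun i _ => Finset.sum_congr rfl fun j _ => ?_
    have h1 := checkMod_sound hp.out.pos hc t.2 i.2 j.2
    rw [Nat.cast_zero, hpk] at h1
    have h2 : ((c0 (entA N t j i) - (e t i j : ℤ) : ℤ) : k) = 0 :=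
      (CharP.intCast_eq_zero_iff k p _).2 h1
    push_cast at h2
    rw [sub_eq_zero.1 h2]
  · intro t
    rw [← hz t]
    refine Finset.sum_congr rfl fun i _ => Finset.sum_congr rfl fun j _ => ?_
    rw [evL_zero]
    norm_cast

/-- A monic integer polynomial irreducible modulo `q` generates the relations of its roots. -/
theorem dvd_of_root {f : ℤ[X]} (hf : f.Monic) (hirr : Irreducible f) {θ : ℝ}
    (hθ : aeval θ f = 0) {g : ℤ[X]} (hg : aeval (θ : ℂ) g = 0) : f ∣ g := by
  have hg' : aeval θ g = 0 := by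
    have : ((aeval θ g : ℝ) : ℂ) = aeval (θ : ℂ) g := by
      rw [← Complex.coe_algebraMap, aeval_algebraMap_apply]
    rw [hg] at this
    exact_mod_cast this
  have hint : IsIntegral ℤ θ := ⟨f, hf, hθ⟩
  have hmin : minpoly ℤ θ ∣ f := minpoly.isIntegrallyClosed_dvd hint hθ
  have hu : ¬ IsUnit (minpoly ℤ θ) := minpoly.not_isUnit ℤ θ
  have hass : Associated (minpoly ℤ θ) f := by
    obtain ⟨c, hc⟩ := hmin
    rcases hirr.isUnit_or_isUnit hc with h | h
    · exact absurd h hu
    · exact ⟨h.unit, hc.symm⟩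
  exact hass.symm.dvd.trans (minpoly.isIntegrallyClosed_dvd hint hg')

/-- Product-freeness over `ℂ` from product-freeness in characteristic `p`: data in `ℤ[θ]`,
reduced at the degree one prime `(p, θ - a)`. -/
theorem hfree_root {f : ℤ[X]} (hf : f.Monic) (hirr : Irreducible f) {θ : ℝ}
    (hθ : aeval θ f = 0) {p a : ℕ} [hp : Fact p.Prime] (ha : (p : ℤ) ∣ f.eval (a : ℤ))
    {N : A3} {e : ℕ → ℕ → ℕ → ℕ} {nt : ℕ} (hc : checkMod p a nt N e = true)
    (h : ∀ (k : Type) [Field k] [CharP k p] (u v : Fin 10 → k),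
      (∀ t : Fin nt, ∑ i : Fin 10, ∑ j : Fin 10, ((e t i j : ℕ) : k) * u i * v j = 0) →
        u = 0 ∨ v = 0)
    (u v : Fin 10 → ℂ)
    (hz : ∀ t : Fin nt, ∑ i : Fin 10, ∑ j : Fin 10, (evL θ (entA N t j i) : ℂ) * u i * v j = 0) :
    u = 0 ∨ v = 0 := by
  refine noCommonZero_of_residue (aeval (R := ℤ) (θ : ℂ)).toRingHom
    (Ideal.span {(p : ℤ[X]), X - C (a : ℤ)}) ?_
    (fun (t : Fin nt) (i j : Fin 10) => poL (entA N t j i)) ?_ u v ?_
  · -- the evaluation at `a` modulo `p` kills everything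
    set ev : ℤ[X] →+* ZMod p := eval₂RingHom (Int.castRingHom (ZMod p)) (a : ZMod p) with hev
    have hle : Ideal.span {(p : ℤ[X]), X - C (a : ℤ)} ⊔
        RingHom.ker (aeval (R := ℤ) (θ : ℂ)).toRingHom ≤ RingHom.ker ev := by
      refine sup_le ?_ ?_
      · rw [Ideal.span_le]
        intro x hx
        simp only [Set.mem_insert_iff, Set.mem_singleton_iff] at hx
        rcases hx with rfl | rfl
        · simp [RingHom.mem_ker]
        · simp [RingHom.mem_ker, hev]
      · intro g hg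
        obtain ⟨c, rfl⟩ := dvd_of_root hf hirr hθ (g := g) (by simpa [RingHom.mem_ker] using hg)
        rw [RingHom.mem_ker, map_mul]
        have : ev f = 0 := by
          have h1 : ev f = ((f.eval (a : ℤ) : ℤ) : ZMod p) := by
            have h2 := eval₂_at_apply (p := f) (Int.castRingHom (ZMod p)) (a : ℤ)
            rw [hev, coe_eval₂RingHom]
            rw [eq_intCast, eq_intCast, Int.cast_natCast] at h2
            exact h2
          rw [h1]
          exact (ZMod.intCast_zmod_eq_zero_iff_dvd _ _).2 ha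
        rw [this, zero_mul]
    intro htop
    rw [htop, top_le_iff] at hle
    exact (RingHom.ker_ne_top ev) hle
  · intro k _ ψ hψ u v hz
    have hpk : ψ (p : ℤ[X]) = 0 := hψ _ (Ideal.subset_span (by simp))
    have hak : ψ X = (a : k) := by
      have := hψ (X - C (a : ℤ)) (Ideal.subset_span (by simp))
      rw [map_sub, sub_eq_zero] at this
      rw [this]
      simp
    have hchar : CharP k p := by
      have h1 : (p : k) = 0 := by simpa using hpk
      exact (CharP.charP_iff_prime_eq_zero hp.out).2 h1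
    refine h k u v fun t => ?_
    rw [← hz t]
    refine Finset.sum_congr rfl fun i _ => Finset.sum_congr rfl fun j _ => ?_
    have h1 := checkMod_sound hp.out.pos hc t.2 i.2 j.2
    have h2 : ((pkI a (entA N t j i) - (e t i j : ℤ) : ℤ) : k) = 0 :=
      (CharP.intCast_eq_zero_iff k p _).2 h1
    push_cast at h2
    have h3 : ∀ L : List ℤ, ψ (poL L) = ((pkI a L : ℤ) : k) := by
      intro L
      induction L with
      | nil => simp [poL, pkI]
      | cons c cs ih =>
        simp only [poL, pkI, map_add, map_mul, hak, ih]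
        push_cast
        congr 1
        simp
    rw [h3, sub_eq_zero.1 h2]
  · intro t
    rw [← hz t]
    refine Finset.sum_congr rfl fun i _ => Finset.sum_congr rfl fun j _ => ?_
    congr 2
    change aeval (θ : ℂ) (poL _) = _
    rw [← aeval_poL, ← Complex.coe_algebraMap, aeval_algebraMap_apply]

end Crest.Agent.R345
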